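import Vale.Agent.P236Et.Ex
import Vale.Agent.P236Qt.TauF

/-!
# P236, block ENG: part 0 of the certificate
-/

namespace Vale.Agent.P236E

set_option maxRecDepth 100000

noncomputable def cpf0 : Pf :=
 (Pf.cases [1181698]
 (steps [.seed5 (.bok (.gen 0)) (.gen 7) 1]
 Pf.done)
 Pf.done
 (steps [.ne false 2 9 1 1]
 Pf.done)
 (cfacts [1772548]
  [])
 (steps [.mrec 1 false (.gen 0) [] [],
  .mrec 2 false (.bok (.gen 0)) [] [],
  .mrec 3 false (.gen 1) [] [],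
  .mrec 4 false (.gen 7) [] [],
  .mrec 5 false (.gen 2) [] [],
  .mrec 6 false (.bok (.gen 2)) [] [],
  .mrec 7 false (.gen 3) [([1180674], (.mul (.gen 0) (.mul (.gen 7) (.mul (.gen 7) (.gen 7)))))] [],
  .mrec 8 false (.bok (.gen 3)) [([1], (.mul (.bok (.gen 0)) (.mul (.gen 7) (.mul (.gen 7) (.gen 7)))))] [],
  .mrec 9 false (.gen 4) [([1967107], (.mul (.gen 0) (.mul (.gen 7) (.mul (.gen 7) (.bok (.gen 3))))))] [],
  .mrec 11 false (.gen 5) [] [],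
  .mrec 13 false (.gen 6) [([2753539], (.mul (.gen 0) (.mul (.gen 7) (.mul (.gen 7) (.bok (.gen 4))))))] [],
  .mrec 14 false (.bok (.gen 6)) [([2754594], (.mul (.bok (.gen 0)) (.mul (.gen 7) (.mul (.gen 7) (.bok (.gen 4)))))), ([2754597], (.mul (.gen 1) (.mul (.gen 7) (.mul (.bok (.gen 2)) (.bok (.gen 3))))))] [],
  .bok false 1 9 [1] [1],
  .bok false 3 14 [1] [1],
  .bok false 1 15 [1] [1],
  .bok false 1 15 [1] [3],
  .bok false 2 15 [1] [1],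
  .bok false 2 16 [1] [1],
  .leib 1 3 15 [1] [1],
  .leib 5 2 9 [1] [1],
  .leib 3 2 15 [1] [1],
  .leib 3 2 15 [3] [1],
  .leib 7 2 9 [1] [1],
  .bok false 3 18 [1] [1],
  .bok false 3 18 [1] [3],
  .bok false 3 18 [3] [1],
  .bok false 3 18 [3] [3],
  .leib 3 3 15 [1] [1],
  .leib 3 3 15 [1] [3],
  .bok false 4 18 [1] [1],
  .bok false 4 19 [1] [1],
  .leib 1 5 18 [1] [1],
  .bok false 4 20 [1] [1],
  .bok false 7 20 [1] [1],
  .bok false 1 21 [1] [1],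
  .bok false 1 21 [1] [3],
  .bok false 2 21 [1] [1],
  .bok false 2 21 [9] [1],
  .leib 1 5 20 [1] [1],
  .leib 3 4 18 [3] [1],
  .leib 5 4 14 [1] [1],
  .leib 5 3 15 [1] [1],
  .bok false 4 22 [1] [1],
  .bok false 2 23 [1] [1],
  .bok false 2 23 [1] [3],
  .bok false 2 23 [1] [9],
  .leib 1 3 23 [1] [1],
  .leib 3 2 21 [1] [1],
  .leib 3 2 21 [3] [1],
  .leib 3 2 21 [9] [1],
  .leib 7 2 15 [1] [1],
  .leib 7 2 15 [3] [1],
  .bok false 3 24 [9] [1],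
  .leib 3 3 21 [1] [3],
  .leib 3 3 21 [3] [3],
  .leib 7 3 15 [1] [3],
  .bok false 4 24 [1] [1],
  .bok false 4 24 [3] [1],
  .bok false 3 25 [1] [1],
  .bok false 5 25 [9] [1],
  .leib 3 5 22 [1] [1],
  .bok false 6 25 [1] [1],
  .bok false 3 26 [1] [1],
  .bok false 3 26 [1] [3],
  .leib 1 4 25 [1] [1],
  .leib 1 4 25 [1] [3],
  .leib 3 3 23 [1] [3],
  .bok false 4 26 [1] [3],
  .bok false 4 26 [1] [9],
  .bok false 4 26 [3] [3],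
  .bok false 4 26 [3] [9],
  .bok false 1 27 [1] [1],
  .bok false 1 27 [3] [1],
  .bok false 2 27 [1] [1],
  .bok false 2 27 [1] [3],
  .bok false 2 27 [1] [9],
  .bok false 5 27 [3] [3],
  .leib 3 5 24 [1] [3],
  .leib 3 5 24 [3] [3],
  .leib 5 5 20 [1] [3],
  .leib 1 1 27 [1] [9],
  .leib 3 4 25 [1] [1],
  .leib 3 4 25 [1] [3],
  .bok false 5 28 [1] [1],
  .leib 1 6 27 [27] [1],
  .bok false 7 28 [9] [1],
  .leib 3 7 25 [1] [1],
  .bok false 8 28 [1] [1],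
  .bok false 3 29 [1] [1],
  .bok false 3 29 [1] [3],
  .bok false 5 29 [1] [3],
  .leib 1 6 28 [1] [3],
  .leib 3 5 26 [3] [3],
  .leib 5 5 22 [1] [3],
  .leib 7 5 20 [1] [3],
  .leib 1 9 28 [1] [1],
  .bok false 9 29 [1] [1],
  .leib 3 9 26 [1] [1],
  .leib 1 3 29 [1] [3],
  .leib 1 3 29 [3] [1],
  .leib 3 2 27 [1] [3],
  .leib 3 2 27 [3] [3],
  .leib 3 2 27 [9] [3],
  .leib 4 1 27 [3] [1],
  .leib 5 2 23 [1] [3],
  .leib 7 2 21 [1] [3],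
  .leib 7 2 21 [3] [3],
  .bok false 3 30 [1] [1],
  .bok false 3 30 [1] [3],
  .bok false 3 30 [1] [9],
  .bok false 3 30 [3] [1],
  .bok false 3 30 [3] [3],
  .bok false 3 30 [3] [9],
  .bok false 3 30 [27] [1],
  .bok false 3 30 [27] [3],
  .bok false 3 30 [27] [9],
  .leib 1 4 29 [1] [1],
  .leib 1 4 29 [1] [3],
  .leib 1 4 29 [1] [9],
  .leib 3 3 27 [1] [1],
  .leib 3 3 27 [1] [3],
  .leib 3 3 27 [1] [9],
  .leib 5 3 23 [1] [3],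
  .leib 5 3 23 [1] [9],
  .leib 7 3 21 [1] [3],
  .leib 7 3 21 [1] [9],
  .leib 7 3 21 [3] [1],
  .leib 7 3 21 [3] [3],
  .leib 7 3 21 [3] [9],
  .bok false 4 30 [1] [1],
  .bok false 4 30 [1] [3],
  .bok false 4 30 [1] [9],
  .bok false 4 30 [9] [1],
  .bok false 4 30 [9] [3],
  .bok false 4 30 [9] [9],
  .leib 1 1 31 [1] [27],
  .bok false 3 33 [1] [1],
  .leib 3 3 30 [9] [1],
  .leib 3 3 30 [9] [3],
  .bok false 4 33 [1] [1],
  .leib 3 4 30 [9] [1],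
  .leib 3 4 30 [27] [1],
  .leib 1 2 33 [1] [1],
  .leib 1 2 33 [1] [3],
  .leib 5 1 27 [3] [1],
  .leib 5 1 27 [3] [3],
  .bok false 2 34 [1] [1],
  .bok false 2 34 [3] [1],
  .leib 1 3 33 [1] [1],
  .bok false 3 34 [1] [1],
  .leib 4 2 31 [1] [1],
  .bok false 2 35 [1] [1],
  .bok false 2 35 [1] [3],
  .leib 1 6 34 [3] [1],
  .bok false 6 35 [1] [27],
  .leib 3 6 32 [1] [27],
  .leib 1 2 35 [3] [3],
  .leib 7 1 27 [3] [3],
  .leib 1 3 35 [1] [1],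
  .leib 1 3 35 [1] [3],
  .leib 3 2 33 [1] [1],
  .leib 3 2 33 [1] [3],
  .leib 7 2 27 [1] [3],
  .leib 7 2 27 [3] [3],
  .leib 7 2 27 [9] [1],
  .leib 7 2 27 [9] [3],
  .bok false 3 36 [3] [1],
  .leib 3 3 33 [1] [3],
  .leib 7 3 27 [1] [3],
  .leib 5 4 29 [1] [3],
  .bok false 5 36 [1] [1],
  .bok false 5 36 [1] [3],
  .bok false 5 36 [3] [1],
  .leib 3 5 33 [9] [1],
  .leib 1 3 36 [3] [1],
  .bok false 3 37 [1] [1],
  .bok false 3 37 [1] [3],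
  .bok false 3 37 [3] [1],
  .bok false 3 37 [3] [3],
  .leib 1 4 36 [9] [1],
  .leib 1 4 36 [9] [3],
  .leib 3 3 34 [3] [1],
  .leib 3 3 34 [3] [3],
  .bok false 4 37 [1] [1],
  .bok false 4 37 [3] [1],
  .leib 1 5 36 [9] [1],
  .bok false 5 37 [1] [1],
  .bok false 3 38 [1] [1],
  .leib 1 4 37 [9] [1],
  .bok false 4 38 [1] [1],
  .bok false 4 38 [1] [3],
  .bok false 4 38 [1] [9],
  .leib 7 4 29 [1] [1],
  .leib 7 4 29 [1] [3],
  .leib 7 4 29 [1] [9],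
  .bok false 5 38 [3] [1],
  .bok false 5 38 [3] [3],
  .leib 1 8 37 [1] [1],
  .bok false 8 38 [1] [27],
  .leib 3 8 35 [1] [27],
  .bok false 1 39 [1] [1],
  .bok false 1 39 [1] [3],
  .bok false 1 39 [1] [9],
  .bok false 2 39 [1] [1],
  .leib 3 5 36 [3] [3],
  .leib 7 5 30 [3] [3],
  .leib 1 1 39 [1] [1],
  .leib 1 2 39 [1] [3],
  .leib 1 2 39 [1] [9],
  .leib 1 2 39 [3] [3],
  .leib 1 2 39 [3] [9],
  .leib 7 1 31 [1] [3],
  .leib 7 1 31 [1] [9],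
  .leib 3 4 37 [9] [1],
  .leib 9 4 25 [1] [1],
  .leib 1 6 39 [9] [1],
  .leib 1 6 39 [9] [3],
  .leib 3 5 37 [3] [1],
  .leib 3 5 37 [3] [3],
  .bok false 6 40 [1] [1],
  .bok false 6 40 [3] [1],
  .bok false 6 40 [27] [1],
  .leib 1 7 39 [3] [1],
  .bok false 3 41 [1] [3],
  .leib 5 3 34 [3] [1],
  .leib 5 3 34 [3] [3],
  .bok false 4 41 [1] [1],
  .leib 1 7 40 [3] [9],
  .leib 3 6 38 [3] [9],
  .leib 1 10 40 [1] [1],
  .bok false 10 41 [1] [27],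
  .leib 3 10 38 [1] [27],
  .leib 1 3 41 [1] [1],
  .leib 1 3 41 [1] [3],
  .leib 1 3 41 [1] [9],
  .leib 1 3 41 [1] [27],
  .leib 3 2 39 [1] [27],
  .leib 3 2 39 [3] [1],
  .leib 3 2 39 [3] [3],
  .leib 3 2 39 [3] [9],
  .leib 3 2 39 [3] [27],
  .leib 5 2 35 [1] [27],
  .leib 7 2 33 [1] [27],
  .bok false 3 42 [1] [1],
  .bok false 3 42 [1] [3],
  .bok false 3 42 [3] [1],
  .bok false 3 42 [3] [3],
  .bok false 3 42 [3] [9],
  .leib 1 4 41 [3] [1],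
  .leib 1 4 41 [3] [3],
  .leib 1 4 41 [3] [9],
  .leib 3 3 39 [1] [1],
  .leib 3 3 39 [1] [3],
  .leib 3 3 39 [1] [9],
  .leib 5 3 35 [1] [9],
  .leib 7 3 33 [1] [9],
  .bok false 4 42 [1] [1],
  .bok false 4 42 [9] [1],
  .bok false 4 42 [81] [1],
  .bok false 6 42 [3] [1],
  .leib 3 6 39 [9] [1],
  .leib 1 4 42 [9] [3],
  .leib 1 4 42 [27] [3],
  .bok false 4 43 [1] [1],
  .bok false 4 43 [3] [1],
  .leib 1 5 42 [9] [1],
  .leib 1 7 42 [3] [1],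
  .leib 3 6 40 [3] [1],
  .leib 5 6 36 [3] [1],
  .leib 1 4 43 [1] [1],
  .bok false 4 44 [1] [1],
  .bok false 4 44 [1] [3],
  .leib 1 5 43 [3] [1],
  .leib 1 5 43 [3] [3],
  .bok false 5 44 [1] [3],
  .bok false 5 44 [3] [3],
  .leib 3 5 41 [1] [1],
  .leib 3 5 41 [1] [3],
  .bok false 6 44 [1] [1],
  .bok false 1 45 [1] [1],
  .bok false 1 45 [1] [3],
  .bok false 1 45 [1] [27],
  .bok false 2 45 [3] [1],
  .bok false 2 45 [9] [1],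
  .leib 1 5 44 [3] [27],
  .leib 3 4 42 [9] [1],
  .leib 3 4 42 [9] [3],
  .leib 3 4 42 [9] [9],
  .leib 3 4 42 [9] [27],
  .leib 3 4 42 [27] [1],
  .leib 3 4 42 [27] [3],
  .leib 3 4 42 [27] [9],
  .leib 3 4 42 [27] [27],
  .leib 7 4 36 [3] [27],
  .bok false 5 45 [1] [1],
  .bok false 5 45 [1] [3],
  .bok false 5 45 [1] [9],
  .bok false 5 45 [3] [1],
  .bok false 5 45 [3] [3],
  .bok false 5 45 [3] [9],
  .leib 1 6 44 [9] [1],
  .leib 1 6 44 [9] [3],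
  .leib 1 6 44 [9] [9],
  .leib 3 5 42 [3] [9],
  .leib 3 5 42 [9] [1],
  .leib 3 5 42 [9] [3],
  .leib 3 5 42 [9] [9],
  .leib 7 5 36 [3] [9],
  .bok false 6 45 [1] [1],
  .bok false 6 45 [1] [3],
  .bok false 6 45 [3] [1],
  .bok false 6 45 [3] [3],
  .leib 1 7 44 [1] [1],
  .leib 1 7 44 [1] [3],
  .bok false 7 45 [1] [1],
  .bok false 7 45 [1] [3],
  .bok false 7 45 [9] [1],
  .bok false 7 45 [9] [3],
  .leib 1 1 45 [1] [1],
  .leib 1 1 45 [1] [3],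
  .bok false 1 46 [1] [1],
  .leib 1 2 45 [1] [1],
  .leib 1 2 45 [1] [3],
  .leib 1 2 45 [1] [9],
  .leib 1 2 45 [3] [1],
  .leib 1 2 45 [3] [9],
  .leib 1 2 45 [9] [1],
  .leib 1 2 45 [9] [9],
  .leib 2 1 45 [1] [9],
  .leib 3 1 43 [1] [3],
  .leib 5 1 39 [1] [3],
  .bok false 4 46 [1] [1],
  .leib 3 4 43 [1] [1],
  .leib 7 4 37 [9] [1],
  .bok false 5 46 [1] [1],
  .leib 3 5 43 [3] [1],
  .leib 3 5 43 [3] [3],
  .bok false 6 46 [1] [1],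
  .leib 1 3 46 [3] [1],
  .leib 1 3 46 [3] [3],
  .bok false 3 47 [1] [1],
  .bok false 3 47 [3] [3],
  .bok false 5 47 [1] [1],
  .bok false 5 47 [1] [3],
  .leib 1 6 46 [3] [1],
  .leib 1 6 46 [3] [3],
  .leib 1 3 47 [1] [1],
  .leib 1 3 47 [1] [9],
  .leib 1 3 47 [3] [1],
  .leib 1 3 47 [3] [9],
  .leib 2 2 47 [1] [9],
  .leib 3 2 45 [1] [1],
  .leib 3 2 45 [1] [9],
  .leib 3 2 45 [3] [1],
  .leib 3 2 45 [3] [9],
  .leib 7 2 39 [3] [9],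
  .leib 1 4 47 [1] [1],
  .leib 1 4 47 [1] [3],
  .leib 1 4 47 [1] [9],
  .leib 3 3 45 [1] [1],
  .leib 3 3 45 [1] [3],
  .leib 3 3 45 [1] [9],
  .leib 3 3 45 [3] [1],
  .leib 3 3 45 [3] [3],
  .leib 4 2 45 [1] [1],
  .leib 4 2 45 [1] [3],
  .leib 7 3 39 [1] [9],
  .bok false 6 48 [1] [1],
  .leib 1 8 47 [3] [3],
  .leib 4 6 45 [9] [3],
  .bok false 3 49 [1] [1],
  .leib 3 6 46 [3] [1],
  .bok false 7 49 [1] [1],
  .bok false 7 49 [1] [3],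
  .leib 1 8 48 [3] [1],
  .leib 1 8 48 [3] [3],
  .leib 3 7 46 [3] [1],
  .leib 3 7 46 [3] [3],
  .leib 7 7 40 [3] [3],
  .leib 1 3 49 [1] [9],
  .leib 3 2 47 [1] [9],
  .leib 5 2 43 [1] [9],
  .leib 1 8 49 [3] [3],
  .leib 4 6 47 [1] [3],
  .bok false 1 51 [1] [1],
  .bok false 1 51 [1] [3],
  .bok false 2 51 [1] [1],
  .bok false 3 51 [1] [3],
  .leib 3 4 48 [9] [1],
  .leib 3 4 48 [9] [3],
  .leib 3 4 48 [9] [9],
  .leib 3 4 48 [9] [27],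
  .bok false 5 51 [1] [1],
  .bok false 5 51 [1] [3],
  .leib 3 5 48 [1] [1],
  .leib 3 5 48 [1] [3],
  .leib 3 5 48 [3] [1],
  .leib 3 5 48 [3] [3],
  .leib 1 8 50 [1] [1],
  .leib 1 8 50 [1] [3],
  .leib 1 8 50 [1] [9],
  .leib 4 6 48 [1] [1],
  .leib 4 6 48 [1] [3],
  .leib 7 7 42 [3] [9],
  .bok false 8 51 [1] [9],
  .bok false 8 51 [3] [9],
  .leib 3 8 48 [3] [1],
  .leib 3 8 48 [3] [9],
  .bok false 9 51 [1] [3],
  .leib 3 9 48 [3] [3],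
  .leib 1 1 51 [1] [3],
  .leib 1 2 51 [1] [9],
  .leib 1 2 51 [3] [1],
  .leib 1 2 51 [3] [3],
  .leib 1 2 51 [3] [9],
  .leib 5 1 45 [1] [9],
  .bok false 2 52 [1] [1],
  .bok false 3 52 [3] [1],
  .leib 3 4 49 [1] [3],
  .leib 7 4 43 [1] [3],
  .bok false 5 52 [1] [1],
  .leib 1 6 51 [9] [1],
  .leib 7 5 43 [3] [1],
  .bok false 8 52 [3] [1],
  .leib 1 9 51 [9] [1],
  .leib 3 8 49 [3] [1],
  .leib 5 8 45 [9] [1],
  .bok false 3 53 [1] [1],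
  .bok false 3 53 [1] [3],
  .bok false 3 53 [1] [9],
  .leib 1 6 52 [3] [1],
  .leib 1 6 52 [3] [3],
  .leib 1 6 52 [3] [9],
  .bok false 6 53 [1] [1],
  .bok false 6 53 [1] [3],
  .bok false 6 53 [3] [1],
  .bok false 6 53 [3] [3],
  .leib 1 7 52 [3] [1],
  .leib 1 7 52 [3] [3],
  .leib 3 8 50 [1] [1],
  .bok false 9 53 [1] [3],
  .leib 3 2 51 [1] [27],
  .leib 3 2 51 [3] [1],
  .leib 3 2 51 [3] [3],
  .leib 3 2 51 [3] [9],
  .leib 3 2 51 [3] [27],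
  .leib 7 2 45 [1] [27],
  .leib 7 2 45 [3] [1],
  .leib 7 2 45 [3] [3],
  .leib 7 2 45 [3] [9],
  .leib 7 2 45 [3] [27],
  .bok false 3 54 [1] [1],
  .bok false 3 54 [1] [3],
  .bok false 3 54 [1] [9],
  .bok false 3 54 [3] [1],
  .bok false 3 54 [3] [3],
  .bok false 3 54 [3] [9],
  .leib 1 4 53 [1] [1],
  .leib 1 4 53 [1] [3],
  .leib 1 4 53 [1] [9],
  .leib 3 3 51 [1] [9],
  .leib 3 3 51 [3] [1],
  .leib 3 3 51 [3] [3],
  .leib 3 3 51 [3] [9],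
  .leib 5 3 47 [1] [9],
  .leib 7 3 45 [1] [9],
  .bok false 4 54 [1] [1],
  .bok false 4 54 [1] [3],
  .bok false 4 54 [9] [1],
  .bok false 4 54 [9] [3],
  .leib 3 4 51 [1] [1],
  .leib 3 4 51 [1] [3],
  .bok false 5 54 [3] [3],
  .leib 1 6 53 [1] [9],
  .leib 5 5 47 [1] [9],
  .bok false 6 54 [3] [27],
  .leib 1 7 53 [3] [27],
  .leib 3 6 51 [9] [1],
  .leib 3 6 51 [9] [3],
  .leib 3 6 51 [9] [27],
  .leib 5 6 47 [1] [27],
  .bok false 7 54 [1] [1],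
  .bok false 7 54 [1] [3],
  .leib 3 8 51 [1] [3],
  .leib 3 8 51 [3] [3],
  .leib 7 8 45 [9] [3],
  .bok false 9 54 [1] [1],
  .bok false 9 54 [1] [3],
  .bok false 9 54 [3] [1],
  .bok false 9 54 [3] [3],
  .leib 1 10 53 [1] [1],
  .leib 1 10 53 [1] [3],
  .leib 3 9 51 [9] [1],
  .leib 3 9 51 [9] [3],
  .bok false 10 54 [1] [1],
  .bok false 10 54 [1] [9],
  .bok false 10 54 [3] [1],
  .bok false 10 54 [3] [9],
  .leib 3 10 51 [3] [1],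
  .leib 3 10 51 [3] [9],
  .bok false 11 54 [1] [3],
  .leib 3 11 51 [3] [3],
  .leib 1 3 54 [3] [1],
  .leib 1 3 54 [3] [3],
  .bok false 3 55 [1] [1],
  .bok false 3 55 [1] [3],
  .leib 1 4 54 [3] [1],
  .leib 1 4 54 [3] [3],
  .leib 1 4 54 [9] [1],
  .leib 1 4 54 [9] [3],
  .bok false 4 55 [1] [1],
  .bok false 4 55 [1] [3],
  .bok false 4 55 [3] [1],
  .bok false 4 55 [3] [3],
  .bok false 4 55 [9] [1],
  .bok false 4 55 [9] [3],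
  .leib 1 5 54 [9] [1],
  .leib 1 5 54 [9] [3],
  .bok false 5 55 [3] [1],
  .bok false 5 55 [3] [3],
  .leib 3 6 52 [3] [1],
  .leib 3 6 52 [3] [3],
  .leib 5 6 48 [1] [1],
  .leib 5 6 48 [1] [3],
  .bok false 7 55 [1] [1],
  .bok false 7 55 [3] [1],
  .leib 1 8 54 [9] [1],
  .leib 3 7 52 [3] [1],
  .leib 1 4 55 [1] [243],
  .bok false 6 56 [3] [1],
  .bok false 6 56 [3] [3],
  .bok false 6 56 [3] [9],
  .leib 3 6 53 [1] [1],
  .leib 3 6 53 [1] [3],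
  .leib 3 6 53 [1] [9],
  .leib 3 6 53 [1] [27],
  .leib 7 6 47 [1] [27],
  .bok false 7 56 [1] [1],
  .bok false 7 56 [1] [3],
  .bok false 7 56 [1] [9],
  .leib 3 7 53 [3] [1],
  .leib 3 7 53 [3] [3],
  .leib 3 7 53 [3] [9],
  .bok false 8 56 [1] [3],
  .leib 1 9 55 [3] [3],
  .bok false 10 56 [3] [3],
  .leib 3 10 53 [1] [1],
  .leib 3 10 53 [1] [3],
  .bok false 11 56 [1] [3],
  .leib 1 12 55 [9] [3],
  .bok false 1 57 [1] [1],
  .bok false 1 57 [1] [3],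
  .bok false 1 57 [1] [9],
  .bok false 1 57 [1] [27],
  .bok false 1 57 [1] [81],
  .bok false 2 57 [3] [1],
  .bok false 3 57 [1] [1],
  .bok false 4 57 [1] [1],
  .bok false 4 57 [1] [3],
  .bok false 4 57 [1] [9],
  .bok false 4 57 [1] [27],
  .bok false 4 57 [1] [81],
  .leib 3 4 54 [3] [1],
  .leib 3 4 54 [3] [3],
  .leib 3 4 54 [3] [9],
  .leib 3 4 54 [3] [27],
  .leib 3 4 54 [3] [81],
  .leib 3 4 54 [3] [243],
  .bok false 5 57 [1] [1],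
  .bok false 5 57 [1] [3],
  .bok false 5 57 [1] [9],
  .leib 1 6 56 [3] [27],
  .leib 3 5 54 [9] [1],
  .leib 3 5 54 [9] [3],
  .leib 3 5 54 [9] [9],
  .leib 3 5 54 [9] [27],
  .bok false 6 57 [1] [1],
  .bok false 6 57 [1] [3],
  .leib 1 7 56 [3] [3],
  .leib 3 6 54 [1] [3],
  .leib 7 6 48 [1] [3],
  .bok false 7 57 [3] [3],
  .bok false 7 57 [9] [3],
  .leib 1 8 56 [3] [1],
  .leib 1 8 56 [3] [3],
  .leib 1 8 56 [3] [9],
  .bok false 8 57 [1] [1],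
  .bok false 8 57 [1] [3],
  .bok false 8 57 [1] [9],
  .bok false 8 57 [1] [27],
  .bok false 8 57 [3] [1],
  .bok false 8 57 [3] [3],
  .bok false 8 57 [3] [9],
  .bok false 8 57 [3] [27],
  .bok false 8 57 [81] [1],
  .bok false 8 57 [81] [3],
  .bok false 8 57 [81] [9],
  .bok false 8 57 [81] [27],
  .bok false 8 57 [243] [1],
  .bok false 8 57 [243] [3],
  .bok false 8 57 [243] [9],
  .bok false 8 57 [243] [27],
  .leib 1 9 56 [1] [1],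
  .leib 1 9 56 [1] [3],
  .leib 1 9 56 [1] [9],
  .leib 1 9 56 [1] [27],
  .leib 3 8 54 [9] [1],
  .leib 3 8 54 [9] [3],
  .leib 3 8 54 [9] [9],
  .leib 3 8 54 [9] [27],
  .leib 1 10 56 [3] [9],
  .leib 1 11 56 [3] [3],
  .leib 3 10 54 [3] [3],
  .leib 3 10 54 [9] [3],
  .bok false 11 57 [1] [1],
  .bok false 11 57 [1] [3],
  .bok false 11 57 [9] [1],
  .bok false 11 57 [9] [3],
  .leib 1 12 56 [1] [1],
  .leib 1 12 56 [1] [3],
  .leib 3 11 54 [9] [1],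
  .leib 3 11 54 [9] [3],
  .bok false 12 57 [1] [1],
  .bok false 12 57 [3] [1],
  .leib 3 12 54 [3] [1],
  .bok false 1 58 [1] [1],
  .leib 1 2 57 [1] [1],
  .leib 1 2 57 [3] [1],
  .leib 3 1 55 [1] [1],
  .leib 5 1 51 [1] [1],
  .leib 1 6 57 [3] [1],
  .leib 1 6 57 [3] [3],
  .leib 1 6 57 [3] [9],
  .leib 3 5 55 [3] [1],
  .leib 3 5 55 [3] [3],
  .leib 3 5 55 [3] [9],
  .leib 9 5 43 [3] [3],
  .bok false 6 58 [1] [1],
  .bok false 6 58 [1] [3],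
  .bok false 6 58 [1] [9],
  .bok false 6 58 [3] [1],
  .bok false 6 58 [3] [3],
  .bok false 6 58 [3] [9],
  .bok false 6 58 [27] [1],
  .bok false 6 58 [27] [3],
  .bok false 6 58 [27] [9],
  .leib 1 7 57 [1] [1],
  .leib 1 7 57 [1] [3],
  .leib 1 7 57 [1] [9],
  .leib 1 7 57 [3] [1],
  .leib 1 7 57 [3] [3],
  .leib 1 7 57 [3] [9],
  .leib 1 8 57 [27] [1],
  .bok false 8 58 [3] [3],
  .leib 1 9 57 [9] [3],
  .leib 1 9 57 [27] [3],
  .leib 3 8 55 [3] [3],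
  .leib 3 8 55 [9] [3],
  .bok false 4 59 [1] [1],
  .bok false 4 59 [1] [3],
  .bok false 4 59 [1] [9],
  .bok false 4 59 [1] [27],
  .bok false 4 59 [1] [81],
  .bok false 4 59 [1] [243],
  .bok false 4 59 [3] [1],
  .bok false 4 59 [3] [3],
  .bok false 4 59 [3] [9],
  .bok false 4 59 [3] [27],
  .bok false 4 59 [3] [81],
  .bok false 4 59 [3] [243],
  .bok false 5 59 [1] [1],
  .bok false 5 59 [1] [3],
  .bok false 5 59 [1] [9],
  .bok false 5 59 [1] [27],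
  .bok false 5 59 [1] [81],
  .leib 1 6 58 [3] [243],
  .leib 3 7 56 [3] [1],
  .leib 3 7 56 [3] [3],
  .leib 3 7 56 [3] [9],
  .bok false 8 59 [3] [1],
  .bok false 8 59 [3] [3],
  .bok false 8 59 [3] [9],
  .bok false 8 59 [9] [1],
  .bok false 8 59 [9] [3],
  .bok false 8 59 [9] [9],
  .leib 3 8 56 [3] [1],
  .leib 3 8 56 [3] [3],
  .leib 3 8 56 [3] [9],
  .leib 3 8 56 [3] [27],
  .bok false 9 59 [1] [1],
  .bok false 9 59 [1] [3],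
  .bok false 9 59 [1] [9],
  .leib 3 9 56 [1] [1],
  .leib 3 9 56 [1] [3],
  .leib 3 9 56 [1] [9],
  .bok false 10 59 [1] [1],
  .bok false 10 59 [1] [3],
  .leib 1 11 58 [3] [1],
  .leib 1 11 58 [3] [3],
  .leib 1 11 58 [9] [1],
  .leib 1 11 58 [9] [3],
  .bok false 11 59 [1] [1],
  .bok false 11 59 [1] [3],
  .bok false 11 59 [3] [1],
  .bok false 11 59 [3] [3],
  .leib 3 11 56 [3] [1],
  .leib 3 11 56 [3] [3],
  .bok false 12 59 [3] [3],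
  .leib 3 12 56 [1] [1],
  .bok false 13 59 [1] [3],
  .leib 1 14 58 [9] [3],
  .leib 3 1 57 [1] [3],
  .bok false 2 60 [1] [3],
  .leib 3 2 57 [1] [1],
  .leib 3 2 57 [1] [3],
  .leib 3 2 57 [1] [9],
  .leib 3 2 57 [1] [27],
  .leib 3 2 57 [3] [27],
  .leib 7 2 51 [3] [9],
  .leib 7 2 51 [3] [27],
  .bok false 3 60 [1] [1],
  .bok false 3 60 [1] [3],
  .bok false 3 60 [1] [9],
  .bok false 3 60 [1] [27],
  .leib 1 4 59 [1] [81],
  .leib 1 4 59 [3] [81],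
  .leib 3 3 57 [1] [81],
  .leib 3 3 57 [3] [1],
  .leib 3 3 57 [3] [3],
  .leib 3 3 57 [3] [9],
  .leib 3 3 57 [3] [27],
  .leib 3 3 57 [3] [81],
  .leib 7 3 51 [3] [81],
  .bok false 4 60 [1] [1],
  .bok false 4 60 [1] [3],
  .leib 1 5 59 [1] [9],
  .leib 1 5 59 [3] [9],
  .leib 1 5 59 [9] [9],
  .leib 3 4 57 [1] [9],
  .leib 3 4 57 [3] [9],
  .leib 5 4 53 [1] [9],
  .leib 7 4 51 [1] [9],
  .bok false 5 60 [9] [1],
  .bok false 5 60 [9] [3],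
  .bok false 5 60 [9] [9],
  .bok false 5 60 [9] [27],
  .leib 1 6 59 [1] [1],
  .leib 1 6 59 [1] [3],
  .leib 1 6 59 [1] [9],
  .leib 1 6 59 [1] [27],
  .leib 3 5 57 [3] [3],
  .leib 3 5 57 [3] [9],
  .leib 3 5 57 [3] [27],
  .bok false 6 60 [1] [1],
  .bok false 6 60 [1] [3],
  .bok false 6 60 [1] [9],
  .bok false 6 60 [1] [81],
  .bok false 6 60 [3] [1],
  .bok false 6 60 [3] [3],
  .bok false 6 60 [3] [9],
  .bok false 6 60 [3] [81],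
  .bok false 6 60 [9] [1],
  .bok false 6 60 [9] [9],
  .bok false 6 60 [9] [81],
  .leib 3 6 57 [3] [1],
  .leib 3 6 57 [3] [3],
  .leib 3 6 57 [3] [9],
  .leib 3 6 57 [3] [27],
  .leib 3 6 57 [3] [81],
  .leib 3 6 57 [3] [243],
  .leib 5 6 53 [1] [1],
  .leib 5 6 53 [1] [9],
  .leib 5 6 53 [1] [81],
  .bok false 7 60 [1] [1],
  .bok false 7 60 [1] [3],
  .bok false 7 60 [1] [9],
  .bok false 7 60 [9] [1],
  .bok false 7 60 [9] [3],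
  .bok false 7 60 [9] [9],
  .leib 1 8 59 [3] [27],
  .leib 3 7 57 [1] [1],
  .leib 3 7 57 [1] [3],
  .leib 3 7 57 [1] [9],
  .leib 3 7 57 [1] [27],
  .leib 5 7 53 [3] [1],
  .leib 5 7 53 [3] [3],
  .leib 5 7 53 [3] [9],
  .leib 5 7 53 [3] [27],
  .bok false 8 60 [1] [1],
  .bok false 8 60 [1] [3],
  .bok false 8 60 [3] [1],
  .bok false 8 60 [3] [3],
  .leib 1 9 59 [3] [1],
  .leib 1 9 59 [3] [3],
  .leib 1 9 59 [9] [3],
  .leib 3 8 57 [1] [1],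
  .leib 3 8 57 [1] [3],
  .leib 3 8 57 [3] [3],
  .leib 3 8 57 [27] [1],
  .leib 3 8 57 [27] [3],
  .leib 3 8 57 [81] [3],
  .leib 7 8 51 [1] [3],
  .leib 9 8 45 [9] [3],
  .bok false 9 60 [1] [1],
  .bok false 9 60 [1] [3],
  .bok false 9 60 [3] [1],
  .bok false 9 60 [3] [3],
  .bok false 9 60 [27] [1],
  .bok false 9 60 [27] [3],
  .leib 1 10 59 [3] [1],
  .leib 1 10 59 [3] [3],
  .leib 1 10 59 [3] [9],
  .leib 3 9 57 [9] [1],
  .leib 3 9 57 [9] [3],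
  .leib 3 9 57 [9] [9],
  .leib 3 9 57 [27] [1],
  .leib 3 9 57 [27] [3],
  .leib 3 9 57 [27] [9],
  .leib 3 9 57 [81] [1],
  .leib 3 9 57 [81] [3],
  .leib 3 9 57 [81] [9],
  .leib 4 8 57 [1] [9],
  .leib 7 9 51 [9] [1],
  .leib 7 9 51 [9] [9],
  .bok false 10 60 [9] [1],
  .bok false 10 60 [9] [3],
  .bok false 10 60 [9] [9],
  .bok false 10 60 [9] [27],
  .bok false 10 60 [27] [1],
  .bok false 10 60 [27] [3],
  .bok false 10 60 [27] [9],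
  .bok false 10 60 [27] [27],
  .bok false 10 60 [729] [1],
  .bok false 10 60 [729] [3],
  .bok false 10 60 [729] [9],
  .bok false 10 60 [729] [27],
  .leib 1 11 59 [1] [3],
  .leib 1 11 59 [1] [9],
  .leib 4 9 57 [1] [1],
  .leib 4 9 57 [1] [3],
  .leib 4 9 57 [1] [9],
  .leib 4 9 57 [1] [27],
  .leib 4 9 57 [27] [1],
  .leib 4 9 57 [27] [3],
  .leib 4 9 57 [27] [9],
  .leib 4 9 57 [27] [27],
  .bok false 1 61 [1] [1],
  .bok false 1 61 [1] [3],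
  .bok false 1 61 [1] [9],
  .bok false 1 61 [1] [27],
  .bok false 1 61 [1] [81],
  .leib 1 2 60 [1] [243],
  .leib 1 2 60 [3] [1],
  .leib 1 2 60 [3] [3],
  .leib 1 2 60 [3] [9],
  .leib 1 2 60 [3] [27],
  .leib 1 2 60 [3] [81],
  .bok false 2 61 [1] [1],
  .bok false 2 61 [1] [3],
  .bok false 2 61 [1] [9],
  .leib 1 3 60 [9] [1],
  .leib 1 3 60 [9] [3],
  .leib 1 3 60 [9] [9],
  .bok false 3 61 [1] [1],
  .bok false 3 61 [1] [3],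
  .bok false 3 61 [1] [9],
  .leib 1 4 60 [3] [3],
  .leib 1 4 60 [3] [9],
  .bok false 4 61 [1] [1],
  .bok false 4 61 [1] [3],
  .bok false 4 61 [1] [9],
  .bok false 4 61 [9] [1],
  .bok false 4 61 [9] [3],
  .bok false 4 61 [9] [9],
  .leib 1 5 60 [1] [1],
  .leib 1 5 60 [1] [3],
  .leib 1 5 60 [1] [9],
  .bok false 5 61 [9] [1],
  .bok false 5 61 [9] [3],
  .bok false 5 61 [9] [9],
  .bok false 5 61 [9] [27],
  .bok false 5 61 [27] [1],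
  .bok false 5 61 [27] [3],
  .bok false 5 61 [27] [9],
  .bok false 5 61 [27] [27],
  .leib 1 6 60 [9] [1],
  .leib 1 6 60 [9] [3],
  .leib 1 6 60 [9] [9],
  .leib 1 6 60 [9] [27],
  .bok false 6 61 [3] [1],
  .bok false 6 61 [3] [3],
  .leib 1 7 60 [27] [1],
  .leib 1 7 60 [27] [3],
  .bok false 7 61 [1] [1],
  .bok false 7 61 [1] [3],
  .bok false 7 61 [1] [9],
  .leib 1 8 60 [9] [1],
  .leib 1 8 60 [9] [3],
  .leib 1 8 60 [9] [9],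
  .leib 1 8 60 [27] [1],
  .leib 1 8 60 [27] [3],
  .leib 1 8 60 [27] [9],
  .leib 3 7 58 [3] [3],
  .leib 3 7 58 [3] [9],
  .leib 3 7 58 [9] [1],
  .leib 3 7 58 [9] [3],
  .leib 3 7 58 [9] [9],
  .bok false 8 61 [1] [1],
  .bok false 8 61 [1] [3],
  .bok false 8 61 [1] [9],
  .bok false 8 61 [3] [1],
  .bok false 8 61 [3] [3],
  .bok false 8 61 [3] [9],
  .bok false 8 61 [9] [1],
  .bok false 8 61 [9] [3],
  .bok false 8 61 [9] [9],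
  .leib 1 9 60 [9] [1],
  .leib 1 9 60 [9] [3],
  .leib 1 9 60 [9] [9],
  .bok false 9 61 [27] [1],
  .bok false 9 61 [27] [3],
  .leib 1 2 61 [1] [9],
  .leib 1 2 61 [1] [27],
  .leib 1 2 61 [3] [9],
  .leib 1 2 61 [3] [27],
  .leib 2 1 61 [1] [27],
  .bok false 3 62 [1] [1],
  .bok false 3 62 [1] [3],
  .bok false 3 62 [1] [9],
  .bok false 3 62 [1] [27],
  .bok false 3 62 [1] [81],
  .bok false 3 62 [1] [243],
  .bok false 3 62 [3] [1],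
  .bok false 3 62 [3] [3],
  .bok false 3 62 [3] [9],
  .bok false 3 62 [3] [27]]
 Pf.done))

theorem cchk0 : (ofTab P236Q.tauF).chunk
    cin
    cpf0 cex0 = true := by
  decide +kernel

end Vale.Agent.P236E
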