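import Vale.Agent.P236Et.Ex
import Vale.Agent.P236Qt.TauF

/-!
# P236, block ENG: part 1 of the certificate
-/

namespace Vale.Agent.P236E

set_option maxRecDepth 100000

noncomputable def cpf1 : Pf :=
 (steps [.bok false 3 62 [3] [81],
  .bok false 3 62 [3] [243],
  .leib 1 6 61 [3] [1],
  .leib 1 6 61 [3] [3],
  .leib 1 6 61 [3] [9],
  .leib 1 6 61 [3] [27],
  .leib 1 6 61 [9] [1],
  .leib 1 6 61 [9] [3],
  .leib 1 6 61 [9] [9],
  .leib 1 6 61 [9] [27],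
  .leib 1 6 61 [27] [1],
  .leib 1 6 61 [27] [3],
  .leib 1 6 61 [27] [9],
  .leib 1 6 61 [27] [27],
  .leib 2 5 61 [27] [1],
  .leib 2 5 61 [27] [3],
  .leib 2 5 61 [27] [9],
  .leib 2 5 61 [27] [27],
  .leib 3 5 59 [1] [9],
  .leib 3 5 59 [1] [27],
  .leib 3 5 59 [3] [9],
  .leib 3 5 59 [3] [27],
  .leib 3 5 59 [9] [1],
  .leib 3 5 59 [9] [3],
  .leib 3 5 59 [9] [9],
  .leib 3 5 59 [9] [27],
  .bok false 6 62 [3] [1],
  .bok false 6 62 [3] [3],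
  .bok false 6 62 [3] [9],
  .bok false 6 62 [3] [81],
  .bok false 6 62 [3] [243],
  .bok false 6 62 [3] [729],
  .bok false 6 62 [9] [1],
  .bok false 6 62 [9] [3],
  .bok false 6 62 [9] [9],
  .bok false 6 62 [9] [81],
  .bok false 6 62 [9] [243],
  .bok false 6 62 [9] [729],
  .bok false 6 62 [81] [1],
  .bok false 6 62 [81] [3],
  .bok false 6 62 [81] [9],
  .bok false 6 62 [81] [81],
  .bok false 6 62 [81] [243],
  .bok false 6 62 [81] [729],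
  .leib 3 6 59 [1] [1],
  .leib 3 6 59 [1] [3],
  .leib 3 6 59 [1] [27],
  .leib 3 6 59 [1] [81],
  .leib 3 6 59 [1] [729],
  .leib 7 6 53 [1] [729],
  .bok false 7 62 [1] [9],
  .bok false 7 62 [1] [27],
  .bok false 7 62 [1] [81],
  .bok false 7 62 [3] [1],
  .bok false 7 62 [3] [3],
  .bok false 7 62 [3] [9],
  .bok false 7 62 [3] [27],
  .bok false 7 62 [3] [81],
  .leib 7 7 53 [3] [1],
  .leib 7 7 53 [3] [3],
  .leib 7 7 53 [3] [9],
  .leib 7 7 53 [3] [27],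
  .leib 7 7 53 [3] [81],
  .bok false 8 62 [1] [9],
  .leib 1 9 61 [9] [1],
  .leib 1 9 61 [9] [3],
  .leib 1 9 61 [9] [9],
  .leib 1 9 61 [27] [1],
  .leib 1 9 61 [27] [3],
  .leib 1 9 61 [27] [9],
  .bok false 9 62 [3] [1],
  .bok false 9 62 [3] [3],
  .bok false 9 62 [3] [9],
  .bok false 9 62 [9] [1],
  .bok false 9 62 [9] [3],
  .bok false 9 62 [9] [9],
  .leib 1 10 61 [3] [1],
  .leib 1 10 61 [3] [3],
  .leib 1 10 61 [3] [9],
  .leib 3 9 59 [3] [1],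
  .leib 3 9 59 [3] [3],
  .leib 3 9 59 [3] [9],
  .leib 3 9 59 [9] [9],
  .bok false 10 62 [3] [1],
  .bok false 10 62 [3] [3],
  .bok false 10 62 [3] [9],
  .bok false 10 62 [27] [1],
  .bok false 10 62 [27] [3],
  .bok false 10 62 [27] [9],
  .bok false 10 62 [81] [1],
  .bok false 10 62 [81] [3],
  .bok false 10 62 [81] [9],
  .leib 3 10 59 [3] [1],
  .leib 3 10 59 [3] [3],
  .leib 3 10 59 [3] [9],
  .leib 3 10 59 [3] [27],
  .bok false 11 62 [1] [1],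
  .bok false 11 62 [1] [3],
  .bok false 11 62 [1] [9],
  .leib 3 11 59 [1] [1],
  .leib 3 11 59 [1] [3],
  .leib 3 11 59 [1] [9],
  .bok false 12 62 [1] [1],
  .bok false 12 62 [1] [3],
  .leib 1 13 61 [3] [1],
  .leib 1 13 61 [3] [3],
  .leib 1 13 61 [9] [1],
  .leib 1 13 61 [9] [3],
  .bok false 13 62 [1] [1],
  .bok false 13 62 [1] [3],
  .bok false 13 62 [3] [1],
  .bok false 13 62 [3] [3],
  .leib 3 13 59 [3] [1],
  .leib 3 13 59 [3] [3],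
  .bok false 14 62 [3] [1],
  .bok false 14 62 [3] [3],
  .leib 3 14 59 [1] [1],
  .leib 1 2 62 [1] [729],
  .leib 1 2 62 [3] [729],
  .leib 1 3 62 [1] [81],
  .leib 1 3 62 [1] [243],
  .leib 1 3 62 [3] [3],
  .leib 1 3 62 [3] [9],
  .leib 1 3 62 [3] [27],
  .leib 1 3 62 [3] [81],
  .leib 1 3 62 [3] [243],
  .leib 1 3 62 [9] [3],
  .leib 1 3 62 [9] [9],
  .leib 1 3 62 [9] [27],
  .leib 3 2 60 [1] [3],
  .leib 3 2 60 [1] [9],
  .leib 3 2 60 [1] [27],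
  .leib 3 2 60 [1] [81],
  .leib 3 2 60 [1] [243],
  .leib 3 2 60 [3] [81],
  .leib 3 2 60 [3] [243],
  .bok false 3 63 [1] [1],
  .bok false 3 63 [1] [3],
  .bok false 3 63 [1] [9],
  .bok false 3 63 [1] [27],
  .bok false 3 63 [3] [1],
  .bok false 3 63 [3] [3],
  .bok false 3 63 [9] [1],
  .bok false 3 63 [9] [3],
  .bok false 3 63 [27] [1],
  .bok false 3 63 [27] [3],
  .bok false 3 63 [27] [9],
  .bok false 3 63 [27] [27],
  .leib 1 4 62 [1] [1],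
  .leib 1 4 62 [1] [3],
  .leib 1 4 62 [1] [9],
  .leib 1 4 62 [1] [27],
  .leib 1 4 62 [3] [1],
  .leib 1 4 62 [3] [3],
  .leib 1 4 62 [3] [9],
  .leib 1 4 62 [3] [27],
  .leib 3 3 60 [3] [9],
  .leib 3 3 60 [3] [27],
  .leib 3 3 60 [9] [1],
  .leib 3 3 60 [9] [3],
  .leib 3 3 60 [9] [9],
  .leib 3 3 60 [9] [27],
  .bok false 4 63 [1] [1],
  .bok false 4 63 [1] [3],
  .bok false 4 63 [1] [9],
  .bok false 4 63 [1] [27],
  .bok false 4 63 [1] [81],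
  .bok false 4 63 [1] [243],
  .bok false 4 63 [3] [1],
  .bok false 4 63 [3] [3],
  .bok false 4 63 [3] [9],
  .bok false 4 63 [3] [27],
  .bok false 4 63 [3] [81],
  .bok false 4 63 [3] [243],
  .bok false 4 63 [9] [1],
  .bok false 4 63 [9] [3],
  .bok false 4 63 [9] [9],
  .bok false 4 63 [9] [27],
  .bok false 4 63 [9] [81],
  .bok false 4 63 [9] [243],
  .leib 3 4 60 [3] [1],
  .leib 3 4 60 [3] [3],
  .leib 3 4 60 [3] [9],
  .leib 3 4 60 [3] [27],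
  .leib 3 4 60 [3] [81],
  .leib 3 4 60 [3] [243],
  .bok false 5 63 [1] [1],
  .bok false 5 63 [1] [3],
  .bok false 5 63 [1] [9],
  .bok false 5 63 [1] [27],
  .bok false 5 63 [1] [81],
  .bok false 5 63 [3] [1],
  .bok false 5 63 [3] [3],
  .bok false 5 63 [3] [9],
  .bok false 5 63 [3] [27],
  .bok false 5 63 [3] [81],
  .leib 3 5 60 [1] [1],
  .leib 3 5 60 [1] [3],
  .leib 3 5 60 [1] [9],
  .leib 3 5 60 [1] [27],
  .leib 3 5 60 [1] [81],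
  .leib 3 5 60 [1] [243],
  .bok false 6 63 [1] [1],
  .bok false 6 63 [1] [3],
  .leib 1 7 62 [81] [3],
  .leib 1 7 62 [81] [9],
  .leib 3 6 60 [9] [3],
  .leib 3 6 60 [9] [9],
  .leib 9 6 48 [1] [9],
  .bok false 7 63 [1] [1],
  .bok false 7 63 [1] [3],
  .bok false 7 63 [1] [9],
  .bok false 7 63 [1] [27],
  .bok false 7 63 [9] [1],
  .bok false 7 63 [9] [3],
  .bok false 7 63 [9] [9],
  .bok false 7 63 [9] [27],
  .bok false 7 63 [27] [1],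
  .bok false 7 63 [27] [3],
  .bok false 7 63 [27] [9],
  .bok false 7 63 [27] [27],
  .leib 1 8 62 [3] [1],
  .leib 1 8 62 [3] [3],
  .leib 1 8 62 [3] [9],
  .leib 1 8 62 [3] [27],
  .leib 1 8 62 [9] [1],
  .leib 1 8 62 [9] [3],
  .leib 1 8 62 [9] [9],
  .leib 1 8 62 [9] [27],
  .leib 3 7 60 [9] [3],
  .leib 3 7 60 [9] [9],
  .leib 3 7 60 [9] [27],
  .leib 3 7 60 [27] [1],
  .leib 3 7 60 [27] [3],
  .leib 3 7 60 [27] [9],
  .leib 3 7 60 [27] [27],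
  .leib 5 7 56 [3] [3],
  .leib 5 7 56 [3] [9],
  .leib 5 7 56 [3] [27],
  .bok false 8 63 [1] [1],
  .bok false 8 63 [1] [3],
  .bok false 8 63 [1] [9],
  .bok false 8 63 [1] [27],
  .bok false 8 63 [1] [81],
  .bok false 8 63 [1] [243],
  .bok false 8 63 [3] [1],
  .bok false 8 63 [3] [3],
  .bok false 8 63 [3] [9],
  .bok false 8 63 [3] [27],
  .bok false 8 63 [3] [81],
  .bok false 8 63 [3] [243],
  .bok false 8 63 [9] [1],
  .bok false 8 63 [9] [3],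
  .bok false 8 63 [9] [9],
  .bok false 8 63 [9] [27],
  .bok false 8 63 [9] [81],
  .bok false 8 63 [9] [243],
  .bok false 8 63 [27] [1],
  .bok false 8 63 [27] [3],
  .bok false 8 63 [27] [9],
  .bok false 8 63 [27] [27],
  .bok false 8 63 [27] [81],
  .bok false 8 63 [27] [243],
  .leib 1 9 62 [1] [1],
  .leib 1 9 62 [1] [3],
  .leib 1 9 62 [1] [9],
  .leib 1 9 62 [1] [27],
  .leib 1 9 62 [1] [81],
  .leib 1 9 62 [1] [243],
  .leib 3 8 60 [9] [1],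
  .leib 3 8 60 [9] [3],
  .leib 3 8 60 [9] [9],
  .leib 3 8 60 [9] [27],
  .leib 3 8 60 [9] [81],
  .leib 3 8 60 [9] [243],
  .leib 3 8 60 [27] [1],
  .leib 3 8 60 [27] [3],
  .leib 3 8 60 [27] [9],
  .leib 3 8 60 [27] [27],
  .leib 3 8 60 [27] [81],
  .leib 3 8 60 [27] [243],
  .bok false 9 63 [1] [1],
  .bok false 9 63 [1] [3],
  .bok false 9 63 [1] [9],
  .bok false 9 63 [9] [1],
  .bok false 9 63 [9] [3],
  .bok false 9 63 [9] [9],
  .bok false 9 63 [27] [1],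
  .bok false 9 63 [27] [3],
  .bok false 9 63 [27] [9],
  .leib 1 10 62 [27] [27],
  .leib 3 9 60 [9] [1],
  .leib 3 9 60 [9] [3],
  .leib 3 9 60 [9] [9],
  .leib 3 9 60 [9] [27],
  .bok false 10 63 [1] [1],
  .leib 1 11 62 [9] [1],
  .leib 1 11 62 [9] [3],
  .leib 1 11 62 [27] [1],
  .leib 1 11 62 [27] [3],
  .leib 3 10 60 [81] [3],
  .leib 3 10 60 [243] [1],
  .leib 3 10 60 [243] [3],
  .bok false 11 63 [1] [1],
  .bok false 11 63 [1] [3],
  .bok false 11 63 [9] [1],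
  .bok false 11 63 [9] [3],
  .bok false 11 63 [27] [1],
  .bok false 11 63 [27] [3],
  .leib 1 12 62 [3] [1],
  .leib 1 12 62 [3] [3],
  .leib 1 12 62 [3] [9],
  .leib 3 11 60 [9] [1],
  .leib 3 11 60 [9] [3],
  .leib 3 11 60 [9] [9],
  .leib 3 11 60 [27] [9],
  .leib 3 11 60 [81] [1],
  .leib 3 11 60 [81] [3],
  .leib 3 11 60 [81] [9],
  .leib 4 10 60 [1] [9],
  .leib 4 10 60 [81] [9],
  .leib 4 10 60 [243] [9],
  .leib 5 11 56 [3] [9],
  .bok false 12 63 [3] [1],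
  .bok false 12 63 [3] [9],
  .bok false 12 63 [3] [27],
  .bok false 12 63 [81] [1],
  .bok false 12 63 [81] [9],
  .bok false 12 63 [81] [27],
  .bok false 12 63 [729] [1],
  .bok false 12 63 [729] [9],
  .bok false 12 63 [729] [27],
  .leib 1 13 62 [1] [1],
  .leib 4 11 60 [1] [1],
  .leib 4 11 60 [1] [9],
  .leib 4 11 60 [1] [27],
  .leib 4 11 60 [27] [1],
  .leib 4 11 60 [27] [9],
  .leib 4 11 60 [27] [27],
  .leib 1 2 63 [1] [3],
  .leib 1 2 63 [3] [3],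
  .leib 1 2 63 [27] [3],
  .leib 1 2 63 [81] [3],
  .leib 2 1 63 [1] [3],
  .leib 3 1 61 [1] [3],
  .leib 5 1 57 [1] [3],
  .leib 1 3 63 [3] [1],
  .leib 1 3 63 [3] [3],
  .leib 1 3 63 [3] [9],
  .leib 1 3 63 [3] [27],
  .leib 1 3 63 [9] [1],
  .leib 1 3 63 [9] [9],
  .leib 1 3 63 [9] [27],
  .leib 1 3 63 [81] [1],
  .leib 1 3 63 [81] [3],
  .leib 1 3 63 [81] [9],
  .leib 1 3 63 [81] [27],
  .leib 2 2 63 [1] [3],
  .leib 2 2 63 [1] [9],
  .leib 2 2 63 [1] [27],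
  .leib 2 2 63 [3] [1],
  .leib 2 2 63 [3] [3],
  .leib 2 2 63 [3] [9],
  .leib 2 2 63 [3] [27],
  .leib 2 2 63 [9] [1],
  .leib 2 2 63 [9] [9],
  .leib 2 2 63 [9] [27],
  .leib 3 2 61 [1] [3],
  .leib 3 2 61 [1] [9],
  .leib 3 2 61 [1] [27],
  .leib 4 1 61 [1] [3],
  .leib 4 1 61 [1] [9],
  .leib 4 1 61 [1] [27],
  .leib 5 2 57 [1] [3],
  .leib 5 2 57 [1] [9],
  .bok false 3 64 [3] [1],
  .bok false 3 64 [3] [3],
  .bok false 3 64 [3] [9],
  .bok false 3 64 [3] [27],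
  .bok false 3 64 [3] [81],
  .bok false 3 64 [3] [243],
  .bok false 3 64 [9] [1],
  .bok false 3 64 [9] [3],
  .bok false 3 64 [81] [1],
  .bok false 3 64 [81] [3],
  .bok false 4 64 [3] [1],
  .bok false 4 64 [3] [3],
  .bok false 4 64 [3] [9],
  .bok false 4 64 [3] [27],
  .leib 1 5 63 [81] [1],
  .leib 1 5 63 [81] [3],
  .leib 1 5 63 [81] [9],
  .leib 1 5 63 [81] [27],
  .bok false 5 64 [1] [1],
  .bok false 5 64 [1] [3],
  .bok false 5 64 [1] [9],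
  .leib 1 6 63 [3] [3],
  .leib 1 6 63 [3] [9],
  .leib 1 6 63 [9] [3],
  .leib 1 6 63 [9] [9],
  .leib 3 5 61 [3] [3],
  .leib 3 5 61 [3] [9],
  .leib 3 5 61 [9] [3],
  .leib 3 5 61 [9] [9],
  .leib 3 5 61 [27] [3],
  .leib 3 5 61 [27] [9],
  .leib 5 5 57 [3] [3],
  .leib 5 5 57 [3] [9],
  .leib 7 5 55 [3] [3],
  .leib 7 5 55 [3] [9],
  .bok false 6 64 [1] [3],
  .bok false 6 64 [1] [9],
  .bok false 6 64 [1] [27],
  .bok false 6 64 [1] [81],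
  .bok false 6 64 [3] [3],
  .bok false 6 64 [3] [9],
  .bok false 6 64 [3] [27],
  .bok false 6 64 [3] [81],
  .bok false 6 64 [9] [3],
  .bok false 6 64 [9] [9],
  .bok false 6 64 [9] [27],
  .bok false 6 64 [9] [81],
  .leib 1 7 63 [3] [3],
  .leib 1 7 63 [3] [9],
  .leib 1 7 63 [3] [27],
  .leib 1 7 63 [3] [81],
  .leib 1 7 63 [9] [3],
  .leib 1 7 63 [9] [9],
  .leib 1 7 63 [9] [27],
  .leib 1 7 63 [9] [81],
  .leib 3 6 61 [3] [3],
  .leib 3 6 61 [3] [9],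
  .leib 3 6 61 [3] [27],
  .leib 3 6 61 [3] [81],
  .leib 3 6 61 [9] [3],
  .leib 3 6 61 [9] [9],
  .leib 3 6 61 [9] [27],
  .leib 3 6 61 [9] [81],
  .bok false 7 64 [1] [3],
  .bok false 7 64 [1] [9],
  .bok false 7 64 [1] [27],
  .bok false 7 64 [3] [3],
  .bok false 7 64 [3] [9],
  .bok false 7 64 [3] [27],
  .bok false 7 64 [27] [3],
  .bok false 7 64 [27] [9],
  .bok false 7 64 [27] [27],
  .bok false 7 64 [81] [3],
  .bok false 7 64 [81] [9],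
  .bok false 7 64 [81] [27],
  .leib 1 8 63 [27] [3],
  .leib 1 8 63 [27] [9],
  .leib 1 8 63 [27] [27],
  .leib 1 8 63 [81] [3],
  .leib 1 8 63 [81] [9],
  .leib 1 8 63 [81] [27],
  .bok false 8 64 [3] [1],
  .bok false 8 64 [9] [1],
  .leib 1 9 63 [81] [1],
  .leib 1 9 63 [243] [1],
  .bok false 9 64 [1] [3],
  .bok false 9 64 [1] [9],
  .bok false 9 64 [3] [3],
  .bok false 9 64 [3] [9],
  .leib 1 10 63 [9] [3],
  .leib 1 10 63 [9] [9],
  .leib 1 10 63 [27] [3],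
  .leib 1 10 63 [27] [9],
  .leib 3 9 61 [9] [3],
  .leib 3 9 61 [9] [9],
  .leib 3 9 61 [27] [3],
  .leib 3 9 61 [27] [9],
  .leib 5 9 57 [9] [3],
  .leib 5 9 57 [9] [9],
  .leib 5 9 57 [27] [3],
  .leib 5 9 57 [27] [9],
  .leib 5 9 57 [81] [3],
  .bok false 10 64 [1] [3],
  .bok false 10 64 [3] [3],
  .bok false 10 64 [27] [3],
  .leib 1 11 63 [3] [3],
  .leib 3 10 61 [3] [3],
  .bok false 11 64 [3] [3],
  .bok false 11 64 [9] [3],
  .leib 1 12 63 [243] [3],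
  .leib 1 3 64 [9] [1],
  .leib 1 3 64 [9] [9],
  .leib 1 3 64 [9] [27],
  .leib 1 3 64 [9] [81],
  .bok false 3 65 [3] [9],
  .bok false 3 65 [3] [27],
  .leib 1 4 64 [3] [1],
  .leib 1 4 64 [3] [3],
  .leib 1 4 64 [3] [9],
  .leib 1 4 64 [3] [27],
  .leib 1 4 64 [3] [81],
  .leib 1 4 64 [3] [243],
  .leib 1 4 64 [9] [1],
  .leib 1 4 64 [9] [3],
  .leib 1 4 64 [9] [9],
  .leib 1 4 64 [9] [27],
  .leib 1 4 64 [9] [81],
  .leib 1 4 64 [9] [243],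
  .leib 3 3 62 [1] [81],
  .leib 3 3 62 [3] [1],
  .leib 3 3 62 [3] [3],
  .leib 3 3 62 [3] [27],
  .leib 3 3 62 [3] [81],
  .leib 3 3 62 [3] [243],
  .bok false 4 65 [1] [3],
  .bok false 4 65 [1] [9],
  .bok false 4 65 [1] [81],
  .bok false 4 65 [1] [243],
  .bok false 4 65 [1] [729],
  .bok false 4 65 [9] [1],
  .bok false 4 65 [9] [3],
  .bok false 4 65 [9] [9],
  .bok false 4 65 [9] [27],
  .bok false 4 65 [9] [81],
  .bok false 4 65 [9] [243],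
  .bok false 4 65 [9] [729],
  .bok false 4 65 [9] [2187],
  .bok false 4 65 [9] [6561],
  .bok false 4 65 [9] [19683],
  .bok false 4 65 [27] [1],
  .bok false 4 65 [27] [3],
  .bok false 4 65 [27] [9],
  .bok false 4 65 [27] [27],
  .bok false 4 65 [27] [81],
  .bok false 4 65 [27] [243],
  .bok false 4 65 [27] [729],
  .bok false 4 65 [27] [2187],
  .bok false 4 65 [27] [6561],
  .bok false 4 65 [27] [19683],
  .leib 1 5 64 [1] [1],
  .leib 1 5 64 [1] [3],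
  .leib 1 5 64 [1] [9],
  .leib 1 5 64 [1] [27],
  .leib 1 5 64 [1] [81],
  .leib 1 5 64 [1] [243],
  .leib 1 5 64 [1] [729],
  .leib 1 5 64 [1] [2187],
  .leib 1 5 64 [1] [6561],
  .leib 1 5 64 [1] [19683],
  .leib 3 4 62 [1] [1],
  .leib 3 4 62 [1] [3],
  .leib 3 4 62 [1] [9],
  .leib 3 4 62 [1] [27],
  .leib 3 4 62 [1] [81],
  .leib 3 4 62 [1] [243],
  .leib 3 4 62 [1] [729],
  .leib 3 4 62 [1] [2187],
  .leib 3 4 62 [1] [6561],
  .leib 3 4 62 [1] [19683],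
  .leib 3 4 62 [3] [1],
  .leib 3 4 62 [3] [3],
  .leib 3 4 62 [3] [9],
  .leib 3 4 62 [3] [27],
  .leib 3 4 62 [3] [81],
  .leib 3 4 62 [3] [243],
  .leib 3 4 62 [3] [729],
  .leib 3 4 62 [3] [2187],
  .leib 3 4 62 [3] [6561],
  .leib 3 4 62 [3] [19683],
  .bok false 5 65 [1] [3],
  .bok false 5 65 [1] [9],
  .bok false 5 65 [1] [27],
  .bok false 5 65 [1] [81],
  .bok false 5 65 [1] [243],
  .bok false 5 65 [1] [729],
  .bok false 5 65 [1] [2187],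
  .bok false 5 65 [3] [3],
  .bok false 5 65 [3] [9],
  .bok false 5 65 [3] [27],
  .bok false 5 65 [3] [81],
  .bok false 5 65 [3] [243],
  .bok false 5 65 [3] [729],
  .bok false 5 65 [3] [2187],
  .leib 1 8 64 [3] [1],
  .leib 1 8 64 [3] [3],
  .leib 1 8 64 [3] [9],
  .leib 1 8 64 [3] [27],
  .leib 1 8 64 [9] [1],
  .leib 1 8 64 [9] [3],
  .leib 1 8 64 [9] [9],
  .leib 1 8 64 [9] [27],
  .leib 1 8 64 [27] [1],
  .leib 1 8 64 [27] [3],
  .leib 1 8 64 [27] [9],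
  .leib 1 8 64 [27] [27],
  .leib 1 8 64 [243] [9],
  .leib 1 8 64 [243] [27],
  .leib 3 7 62 [81] [1],
  .leib 3 7 62 [81] [3],
  .leib 3 7 62 [81] [9],
  .leib 3 7 62 [81] [27],
  .leib 5 7 58 [3] [9],
  .leib 5 7 58 [3] [27],
  .leib 7 7 56 [3] [9],
  .leib 7 7 56 [3] [27],
  .bok false 8 65 [1] [1],
  .bok false 8 65 [1] [3],
  .bok false 8 65 [1] [9],
  .bok false 8 65 [1] [27],
  .bok false 8 65 [1] [81],
  .bok false 8 65 [1] [243],
  .bok false 8 65 [9] [1],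
  .bok false 8 65 [9] [27],
  .bok false 8 65 [27] [1],
  .bok false 8 65 [27] [3],
  .bok false 8 65 [27] [9],
  .bok false 8 65 [27] [27],
  .bok false 8 65 [27] [81],
  .bok false 8 65 [27] [243],
  .bok false 8 65 [81] [1],
  .bok false 8 65 [81] [27],
  .leib 3 8 62 [3] [1],
  .leib 3 8 62 [3] [3],
  .leib 3 8 62 [3] [9],
  .leib 3 8 62 [3] [27],
  .leib 3 8 62 [3] [81],
  .leib 3 8 62 [9] [1],
  .leib 3 8 62 [9] [3],
  .leib 3 8 62 [9] [9],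
  .leib 3 8 62 [9] [27],
  .leib 3 8 62 [9] [81],
  .leib 3 8 62 [9] [243],
  .bok false 9 65 [1] [1],
  .bok false 9 65 [1] [9],
  .bok false 9 65 [1] [27],
  .bok false 9 65 [1] [81],
  .bok false 9 65 [3] [1],
  .bok false 9 65 [3] [9],
  .bok false 9 65 [3] [27],
  .bok false 9 65 [3] [81],
  .bok false 9 65 [81] [1],
  .bok false 9 65 [81] [9],
  .bok false 9 65 [81] [27],
  .bok false 9 65 [81] [81],
  .leib 3 9 62 [1] [1],
  .leib 3 9 62 [1] [9],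
  .leib 3 9 62 [1] [27],
  .leib 3 9 62 [1] [81],
  .bok false 10 65 [1] [9],
  .leib 1 11 64 [27] [1],
  .leib 1 11 64 [27] [9],
  .leib 1 11 64 [81] [1],
  .leib 1 11 64 [81] [9],
  .bok false 11 65 [3] [1],
  .bok false 11 65 [3] [3],
  .bok false 11 65 [3] [9],
  .bok false 11 65 [9] [1],
  .bok false 11 65 [9] [3],
  .bok false 11 65 [9] [9],
  .leib 1 12 64 [3] [1],
  .leib 1 12 64 [3] [3],
  .leib 1 12 64 [3] [9],
  .leib 3 11 62 [9] [1],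
  .leib 3 11 62 [9] [3],
  .leib 3 11 62 [9] [9],
  .leib 3 11 62 [27] [1],
  .leib 3 11 62 [27] [3],
  .leib 3 11 62 [27] [9],
  .leib 5 11 58 [9] [9],
  .bok false 12 65 [3] [9],
  .bok false 12 65 [9] [9],
  .bok false 12 65 [81] [9],
  .leib 3 12 62 [3] [1],
  .leib 3 12 62 [3] [3],
  .leib 3 12 62 [3] [9],
  .leib 3 12 62 [3] [27],
  .bok false 13 65 [1] [1],
  .bok false 13 65 [1] [3],
  .bok false 13 65 [1] [9],
  .leib 3 13 62 [1] [1],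
  .leib 3 13 62 [1] [3],
  .bok false 14 65 [1] [3],
  .leib 1 15 64 [9] [3],
  .leib 3 1 63 [1] [27],
  .leib 1 3 65 [3] [1],
  .leib 1 3 65 [3] [27],
  .leib 1 3 65 [3] [81],
  .leib 3 2 63 [1] [27],
  .leib 3 2 63 [1] [81],
  .leib 3 2 63 [3] [1],
  .leib 3 2 63 [3] [3],
  .leib 3 2 63 [3] [9],
  .leib 3 2 63 [3] [27],
  .leib 3 2 63 [3] [81],
  .leib 3 2 63 [9] [1],
  .leib 3 2 63 [9] [27],
  .leib 3 2 63 [9] [81],
  .leib 4 1 63 [1] [27],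
  .leib 4 1 63 [1] [81],
  .leib 7 2 57 [1] [27],
  .leib 7 2 57 [1] [81],
  .leib 1 4 65 [81] [1],
  .leib 1 4 65 [81] [3],
  .leib 1 4 65 [81] [9],
  .leib 1 4 65 [81] [27],
  .leib 1 4 65 [81] [81],
  .leib 1 4 65 [81] [243],
  .leib 1 4 65 [81] [729],
  .leib 3 3 63 [3] [1],
  .leib 3 3 63 [3] [3],
  .leib 3 3 63 [3] [9],
  .leib 3 3 63 [3] [27],
  .leib 3 3 63 [3] [81],
  .leib 3 3 63 [3] [243],
  .leib 3 3 63 [3] [729],
  .leib 3 3 63 [9] [1],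
  .leib 3 3 63 [9] [3],
  .leib 3 3 63 [9] [9],
  .leib 3 3 63 [9] [27],
  .leib 3 3 63 [9] [81],
  .leib 3 3 63 [9] [243],
  .leib 3 3 63 [9] [729],
  .leib 4 2 63 [1] [243],
  .leib 4 2 63 [3] [1],
  .leib 4 2 63 [3] [3],
  .leib 4 2 63 [3] [9],
  .leib 4 2 63 [3] [27],
  .leib 4 2 63 [3] [81],
  .leib 4 2 63 [3] [243],
  .leib 4 2 63 [3] [729],
  .leib 4 2 63 [9] [243],
  .leib 4 2 63 [9] [729],
  .leib 7 3 57 [3] [243],
  .leib 8 2 57 [1] [243],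
  .bok false 4 66 [1] [1],
  .bok false 4 66 [1] [3],
  .bok false 4 66 [1] [9],
  .bok false 4 66 [1] [27],
  .bok false 4 66 [1] [81],
  .bok false 4 66 [1] [243],
  .bok false 4 66 [3] [1],
  .bok false 4 66 [3] [3],
  .bok false 4 66 [3] [9],
  .bok false 4 66 [3] [27],
  .bok false 4 66 [3] [81],
  .bok false 4 66 [3] [243],
  .leib 1 5 65 [81] [1],
  .leib 1 5 65 [81] [3],
  .leib 1 5 65 [81] [9],
  .leib 1 5 65 [81] [27],
  .leib 1 5 65 [81] [81],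
  .leib 1 5 65 [81] [243],
  .leib 5 4 59 [1] [81],
  .leib 7 4 57 [1] [81],
  .bok false 5 66 [1] [1],
  .bok false 5 66 [1] [9],
  .bok false 5 66 [1] [27],
  .bok false 5 66 [9] [1],
  .bok false 5 66 [9] [9],
  .bok false 5 66 [9] [27],
  .leib 1 6 65 [3] [1],
  .leib 1 6 65 [3] [9],
  .leib 1 6 65 [3] [27],
  .leib 1 6 65 [9] [1],
  .leib 1 6 65 [9] [9],
  .leib 1 6 65 [9] [27],
  .leib 1 6 65 [27] [1],
  .leib 1 6 65 [27] [9],
  .leib 1 6 65 [27] [27],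
  .leib 3 5 63 [3] [9],
  .leib 3 5 63 [3] [27],
  .leib 3 5 63 [81] [1],
  .leib 3 5 63 [81] [9],
  .leib 3 5 63 [81] [27],
  .leib 5 5 59 [1] [9],
  .leib 5 5 59 [3] [9],
  .leib 5 5 59 [3] [27],
  .leib 5 5 59 [9] [9],
  .leib 5 5 59 [9] [27],
  .leib 7 5 57 [3] [9],
  .leib 7 5 57 [3] [27],
  .bok false 6 66 [3] [3],
  .bok false 6 66 [3] [9],
  .bok false 6 66 [3] [27],
  .bok false 6 66 [9] [1],
  .bok false 6 66 [9] [3],
  .bok false 6 66 [9] [9],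
  .bok false 6 66 [9] [27],
  .bok false 6 66 [9] [81],
  .bok false 6 66 [9] [243],
  .bok false 6 66 [27] [1],
  .bok false 6 66 [27] [3],
  .bok false 6 66 [27] [9],
  .bok false 6 66 [27] [27],
  .bok false 6 66 [27] [81],
  .bok false 6 66 [27] [243],
  .bok false 6 66 [81] [1],
  .bok false 6 66 [81] [3],
  .bok false 6 66 [81] [9],
  .bok false 6 66 [81] [27],
  .bok false 6 66 [81] [81],
  .bok false 6 66 [81] [243],
  .leib 1 7 65 [1] [1],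
  .leib 1 7 65 [1] [3],
  .leib 1 7 65 [1] [9],
  .leib 1 7 65 [1] [27],
  .leib 1 7 65 [1] [81],
  .leib 1 7 65 [1] [243],
  .leib 2 6 65 [3] [81],
  .leib 2 6 65 [3] [243],
  .leib 3 6 63 [3] [1],
  .leib 3 6 63 [3] [3],
  .leib 3 6 63 [3] [9],
  .leib 3 6 63 [3] [27],
  .leib 3 6 63 [3] [81],
  .leib 3 6 63 [3] [243],
  .leib 3 6 63 [9] [1],
  .leib 3 6 63 [9] [3],
  .leib 3 6 63 [9] [9],
  .leib 3 6 63 [9] [27],
  .leib 3 6 63 [9] [81],
  .leib 3 6 63 [9] [243],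
  .leib 5 6 59 [1] [81],
  .leib 5 6 59 [1] [243],
  .bok false 7 66 [1] [1],
  .bok false 7 66 [1] [3],
  .bok false 7 66 [1] [9],
  .bok false 7 66 [1] [27],
  .bok false 7 66 [1] [81],
  .bok false 7 66 [1] [243],
  .bok false 7 66 [3] [1],
  .bok false 7 66 [3] [3],
  .bok false 7 66 [3] [9],
  .bok false 7 66 [3] [27],
  .bok false 7 66 [3] [81],
  .bok false 7 66 [3] [243],
  .bok false 7 66 [9] [1],
  .bok false 7 66 [9] [3],
  .bok false 7 66 [9] [9],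
  .bok false 7 66 [9] [27],
  .bok false 7 66 [9] [81],
  .leib 2 7 65 [1] [243],
  .leib 3 7 63 [3] [1],
  .leib 3 7 63 [3] [3],
  .leib 3 7 63 [3] [9],
  .leib 3 7 63 [3] [27],
  .leib 3 7 63 [3] [81],
  .leib 3 7 63 [3] [243],
  .leib 3 7 63 [9] [1],
  .leib 3 7 63 [9] [3],
  .leib 3 7 63 [9] [9],
  .leib 3 7 63 [9] [27],
  .leib 3 7 63 [9] [81],
  .leib 3 7 63 [9] [243],
  .bok false 8 66 [1] [1],
  .bok false 8 66 [1] [3],
  .bok false 8 66 [1] [9],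
  .bok false 8 66 [9] [1],
  .bok false 8 66 [9] [3],
  .bok false 8 66 [9] [9],
  .leib 1 9 65 [81] [1],
  .leib 1 9 65 [81] [3],
  .leib 1 9 65 [81] [9],
  .leib 1 9 65 [243] [1],
  .leib 1 9 65 [243] [3],
  .leib 1 9 65 [243] [9],
  .leib 3 8 63 [1] [9],
  .leib 3 8 63 [27] [1],
  .leib 3 8 63 [27] [3],
  .leib 3 8 63 [27] [9],
  .leib 3 8 63 [81] [1],
  .leib 3 8 63 [81] [3],
  .leib 3 8 63 [81] [9],
  .leib 5 8 59 [3] [9],
  .leib 7 8 57 [1] [9],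
  .bok false 9 66 [1] [1],
  .bok false 9 66 [3] [1],
  .bok false 9 66 [3] [3],
  .bok false 9 66 [3] [9],
  .bok false 9 66 [3] [27],
  .bok false 9 66 [27] [1],
  .bok false 9 66 [81] [1],
  .leib 1 10 65 [3] [1],
  .leib 1 10 65 [3] [3],
  .leib 1 10 65 [3] [9],
  .leib 1 10 65 [3] [27],
  .leib 1 10 65 [9] [1],
  .leib 1 10 65 [9] [3],
  .leib 1 10 65 [9] [9],
  .leib 1 10 65 [9] [27],
  .leib 1 10 65 [27] [1],
  .leib 1 10 65 [27] [3],
  .leib 1 10 65 [27] [9],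
  .leib 1 10 65 [27] [27],
  .leib 3 9 63 [81] [1],
  .leib 3 9 63 [81] [3],
  .leib 3 9 63 [81] [9],
  .leib 3 9 63 [81] [27],
  .leib 3 9 63 [243] [1],
  .leib 3 9 63 [243] [3],
  .leib 3 9 63 [243] [9],
  .leib 3 9 63 [243] [27],
  .leib 4 8 63 [3] [3],
  .leib 4 8 63 [3] [9],
  .leib 4 8 63 [3] [27],
  .leib 5 9 59 [3] [3],
  .leib 5 9 59 [3] [9],
  .leib 5 9 59 [3] [27],
  .leib 5 9 59 [9] [3],
  .leib 5 9 59 [9] [9],
  .leib 5 9 59 [9] [27],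
  .leib 7 9 57 [81] [1],
  .leib 9 9 51 [9] [3],
  .leib 9 9 51 [9] [9],
  .leib 9 9 51 [9] [27],
  .bok false 10 66 [1] [1],
  .bok false 10 66 [1] [3],
  .bok false 10 66 [1] [27],
  .bok false 10 66 [1] [81],
  .bok false 10 66 [3] [1],
  .bok false 10 66 [3] [3],
  .bok false 10 66 [3] [27],
  .bok false 10 66 [3] [81],
  .bok false 10 66 [9] [1],
  .bok false 10 66 [9] [3],
  .bok false 10 66 [9] [27],
  .bok false 10 66 [9] [81],
  .bok false 10 66 [27] [3],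
  .bok false 10 66 [27] [27],
  .bok false 10 66 [27] [81],
  .bok false 10 66 [81] [3],
  .bok false 10 66 [81] [27],
  .bok false 10 66 [81] [81],
  .bok false 10 66 [729] [1],
  .bok false 10 66 [729] [3],
  .bok false 10 66 [729] [27],
  .bok false 10 66 [729] [81],
  .bok false 10 66 [2187] [243],
  .leib 1 11 65 [1] [1],
  .leib 1 11 65 [1] [3],
  .leib 1 11 65 [1] [27],
  .leib 1 11 65 [1] [81],
  .leib 1 11 65 [1] [243],
  .leib 3 10 63 [9] [1],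
  .leib 3 10 63 [9] [3],
  .leib 3 10 63 [9] [27],
  .leib 3 10 63 [9] [81],
  .leib 3 10 63 [9] [243],
  .leib 3 10 63 [27] [1],
  .leib 3 10 63 [27] [3],
  .leib 3 10 63 [27] [27],
  .leib 3 10 63 [27] [81],
  .leib 3 10 63 [27] [243],
  .bok false 11 66 [9] [1],
  .bok false 11 66 [27] [1],
  .leib 3 11 63 [3] [1],
  .leib 3 11 63 [3] [3],
  .leib 3 11 63 [3] [9],
  .leib 3 11 63 [3] [27],
  .bok false 12 66 [1] [1],
  .leib 1 13 65 [9] [1],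
  .leib 1 13 65 [9] [3],
  .leib 1 13 65 [27] [1],
  .leib 1 13 65 [27] [3],
  .leib 3 12 63 [243] [1]]
 Pf.done)

theorem cchk1 : (ofTab P236Q.tauF).chunk
    cex0
    cpf1 cex1 = true := by
  decide +kernel

end Vale.Agent.P236E
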