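import Vale.Agent.P236Et.Ex
import Vale.Agent.P236Qt.TauF

/-!
# P236, block ENG: part 10 of the certificate
-/

namespace Vale.Agent.P236E

set_option maxRecDepth 100000

noncomputable def cpf10 : Pf :=
 (steps [.bok false 7 87 [27] [243],
  .bok false 7 87 [27] [729],
  .bok false 7 87 [81] [3],
  .bok false 7 87 [81] [9],
  .bok false 7 87 [81] [27],
  .bok false 7 87 [81] [81],
  .bok false 7 87 [81] [243],
  .bok false 7 87 [81] [729],
  .leib 1 8 86 [3] [3],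
  .leib 1 8 86 [3] [9],
  .leib 1 8 86 [3] [27],
  .leib 1 8 86 [3] [81],
  .leib 1 8 86 [3] [243],
  .leib 1 8 86 [3] [729],
  .leib 3 7 84 [27] [3],
  .leib 3 7 84 [27] [9],
  .leib 3 7 84 [27] [27],
  .leib 3 7 84 [27] [81],
  .leib 3 7 84 [27] [243],
  .leib 3 7 84 [27] [729],
  .leib 3 7 84 [81] [3],
  .leib 3 7 84 [81] [9],
  .leib 3 7 84 [81] [27],
  .leib 3 7 84 [81] [81],
  .leib 3 7 84 [81] [243],
  .leib 3 7 84 [81] [729],
  .bok false 8 87 [1] [27],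
  .bok false 8 87 [1] [81],
  .bok false 8 87 [3] [27],
  .bok false 8 87 [3] [81],
  .bok false 8 87 [9] [27],
  .bok false 8 87 [9] [81],
  .bok false 8 87 [27] [27],
  .bok false 8 87 [27] [81],
  .leib 3 8 84 [27] [9],
  .leib 3 8 84 [27] [27],
  .leib 3 8 84 [27] [81],
  .leib 3 8 84 [81] [9],
  .bok false 9 87 [1] [27],
  .bok false 9 87 [3] [27],
  .leib 1 10 86 [243] [1],
  .leib 1 10 86 [243] [3],
  .leib 1 10 86 [243] [9],
  .leib 1 10 86 [243] [27],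
  .leib 1 10 86 [243] [81],
  .leib 1 10 86 [243] [243],
  .leib 1 10 86 [243] [729],
  .leib 3 9 84 [81] [1],
  .leib 3 9 84 [81] [3],
  .leib 3 9 84 [81] [9],
  .leib 3 9 84 [81] [27],
  .leib 3 9 84 [81] [81],
  .leib 3 9 84 [81] [243],
  .leib 3 9 84 [81] [729],
  .leib 3 9 84 [243] [1],
  .leib 3 9 84 [243] [3],
  .leib 3 9 84 [243] [9],
  .leib 3 9 84 [243] [27],
  .leib 3 9 84 [243] [81],
  .leib 3 9 84 [243] [243],
  .leib 3 9 84 [243] [729],
  .bok false 10 87 [1] [1],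
  .bok false 10 87 [1] [3],
  .bok false 10 87 [1] [9],
  .bok false 10 87 [1] [27],
  .bok false 10 87 [1] [81],
  .bok false 10 87 [1] [243],
  .bok false 10 87 [1] [729],
  .bok false 10 87 [3] [1],
  .bok false 10 87 [3] [3],
  .bok false 10 87 [3] [9],
  .bok false 10 87 [3] [27],
  .bok false 10 87 [3] [81],
  .bok false 10 87 [3] [243],
  .bok false 10 87 [3] [729],
  .bok false 10 87 [81] [1],
  .bok false 10 87 [81] [3],
  .bok false 10 87 [81] [9],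
  .bok false 10 87 [81] [27],
  .bok false 10 87 [81] [81],
  .bok false 10 87 [81] [243],
  .bok false 10 87 [81] [729],
  .leib 1 11 86 [27] [1],
  .leib 1 11 86 [27] [3],
  .leib 1 11 86 [27] [9],
  .leib 1 11 86 [27] [27],
  .leib 1 11 86 [27] [81],
  .leib 1 11 86 [27] [243],
  .leib 1 11 86 [27] [729],
  .leib 1 11 86 [81] [1],
  .leib 1 11 86 [81] [3],
  .leib 1 11 86 [81] [9],
  .leib 1 11 86 [81] [27],
  .leib 1 11 86 [81] [81],
  .leib 1 11 86 [81] [243],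
  .leib 1 11 86 [81] [729],
  .leib 3 10 84 [243] [1],
  .leib 3 10 84 [243] [3],
  .leib 3 10 84 [243] [9],
  .leib 3 10 84 [243] [27],
  .leib 3 10 84 [243] [81],
  .leib 3 10 84 [243] [243],
  .leib 3 10 84 [243] [729],
  .leib 3 10 84 [729] [1],
  .leib 3 10 84 [729] [3],
  .leib 3 10 84 [729] [9],
  .leib 3 10 84 [729] [27],
  .leib 3 10 84 [729] [81],
  .leib 3 10 84 [729] [243],
  .leib 3 10 84 [729] [729],
  .leib 3 10 84 [2187] [1],
  .leib 3 10 84 [2187] [3],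
  .leib 3 10 84 [2187] [9],
  .leib 3 10 84 [2187] [27],
  .leib 3 10 84 [2187] [81],
  .leib 3 10 84 [2187] [243],
  .leib 3 10 84 [2187] [729],
  .bok false 11 87 [1] [3],
  .bok false 11 87 [1] [9],
  .bok false 11 87 [1] [27],
  .bok false 11 87 [3] [3],
  .bok false 11 87 [3] [9],
  .bok false 11 87 [3] [27],
  .bok false 11 87 [243] [3],
  .bok false 11 87 [243] [9],
  .bok false 11 87 [243] [27],
  .bok false 11 87 [2187] [3],
  .bok false 11 87 [2187] [9],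
  .bok false 11 87 [2187] [27],
  .leib 3 11 84 [27] [3],
  .leib 3 11 84 [27] [9],
  .leib 3 11 84 [27] [27],
  .leib 3 11 84 [81] [3],
  .leib 3 11 84 [81] [9],
  .leib 3 11 84 [81] [27],
  .leib 3 11 84 [243] [3],
  .leib 3 11 84 [243] [9],
  .leib 3 11 84 [243] [27],
  .leib 1 15 86 [9] [3],
  .leib 1 15 86 [9] [9],
  .leib 1 15 86 [9] [27],
  .leib 1 15 86 [9] [81],
  .leib 1 15 86 [9] [243],
  .leib 1 15 86 [9] [729],
  .leib 1 15 86 [9] [2187],
  .leib 2 14 86 [9] [3],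
  .leib 2 14 86 [9] [9],
  .leib 2 14 86 [9] [27],
  .leib 2 14 86 [9] [81],
  .leib 2 14 86 [9] [243],
  .leib 2 14 86 [9] [729],
  .leib 3 14 84 [27] [3],
  .leib 3 14 84 [27] [9],
  .leib 3 14 84 [27] [27],
  .leib 3 14 84 [27] [81],
  .leib 3 14 84 [27] [243],
  .leib 3 14 84 [27] [729],
  .leib 3 14 84 [27] [2187],
  .leib 4 13 84 [27] [3],
  .leib 4 13 84 [27] [9],
  .leib 4 13 84 [27] [27],
  .leib 4 13 84 [27] [243],
  .leib 4 13 84 [27] [729],
  .leib 4 13 84 [81] [3],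
  .leib 4 13 84 [81] [9],
  .leib 4 13 84 [81] [27],
  .leib 4 13 84 [81] [243],
  .leib 4 13 84 [81] [729],
  .leib 4 13 84 [243] [3],
  .leib 4 13 84 [243] [9],
  .leib 4 13 84 [243] [27],
  .leib 4 13 84 [243] [243],
  .leib 4 13 84 [243] [729],
  .bok false 15 87 [1] [1],
  .bok false 15 87 [1] [3],
  .bok false 15 87 [1] [9],
  .bok false 15 87 [3] [1],
  .bok false 15 87 [3] [3],
  .bok false 15 87 [3] [9],
  .bok false 15 87 [243] [1],
  .leib 1 16 86 [243] [1],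
  .leib 1 16 86 [243] [3],
  .leib 1 16 86 [243] [81],
  .leib 3 15 84 [81] [1],
  .leib 3 15 84 [81] [3],
  .leib 3 15 84 [81] [9],
  .leib 3 15 84 [81] [81],
  .leib 3 15 84 [243] [1],
  .leib 3 15 84 [243] [3],
  .leib 3 15 84 [243] [9],
  .leib 3 15 84 [243] [81],
  .leib 4 14 84 [27] [81],
  .leib 1 19 86 [243] [3],
  .leib 1 19 86 [243] [9],
  .leib 1 19 86 [243] [27],
  .leib 3 18 84 [27] [3],
  .leib 3 18 84 [27] [9],
  .leib 3 18 84 [27] [27],
  .leib 4 17 84 [3] [3],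
  .leib 4 17 84 [3] [9],
  .leib 4 17 84 [3] [27],
  .leib 4 17 84 [9] [3],
  .leib 4 17 84 [9] [9],
  .leib 4 17 84 [9] [27],
  .leib 4 17 84 [27] [3],
  .leib 4 17 84 [27] [9],
  .leib 4 17 84 [27] [27],
  .leib 1 25 86 [1] [1],
  .leib 1 25 86 [1] [3],
  .leib 1 25 86 [1] [9],
  .leib 1 25 86 [1] [27],
  .leib 1 25 86 [1] [81],
  .leib 1 25 86 [1] [243],
  .leib 4 23 84 [1] [1],
  .leib 4 23 84 [1] [3],
  .leib 4 23 84 [1] [81],
  .leib 4 23 84 [1] [243],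
  .bok false 25 87 [1] [1],
  .bok false 25 87 [1] [9],
  .bok false 25 87 [2187] [1],
  .bok false 25 87 [2187] [9],
  .bok false 25 87 [2187] [27],
  .leib 3 25 84 [3] [1],
  .leib 3 25 84 [3] [9],
  .leib 3 25 84 [3] [27],
  .leib 4 24 84 [27] [1],
  .leib 4 24 84 [27] [9],
  .leib 1 4 87 [1] [729],
  .leib 1 4 87 [729] [27],
  .leib 1 4 87 [729] [81],
  .leib 1 4 87 [729] [243],
  .leib 1 4 87 [2187] [27],
  .leib 1 4 87 [2187] [81],
  .leib 1 4 87 [2187] [243],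
  .leib 1 5 87 [3] [27],
  .leib 1 5 87 [3] [81],
  .leib 1 5 87 [81] [27],
  .leib 1 5 87 [81] [81],
  .leib 1 5 87 [243] [1],
  .leib 1 5 87 [243] [3],
  .leib 1 5 87 [243] [9],
  .leib 1 5 87 [243] [27],
  .leib 1 5 87 [243] [81],
  .leib 1 5 87 [729] [1],
  .leib 1 5 87 [729] [3],
  .leib 1 5 87 [729] [9],
  .leib 1 5 87 [729] [27],
  .leib 1 5 87 [729] [81],
  .leib 1 5 87 [2187] [3],
  .leib 1 5 87 [2187] [9],
  .leib 1 5 87 [2187] [27],
  .leib 1 5 87 [2187] [81],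
  .leib 2 4 87 [1] [27],
  .leib 2 4 87 [1] [81],
  .leib 3 4 85 [1] [27],
  .leib 3 4 85 [1] [81],
  .leib 3 4 85 [9] [1],
  .leib 3 4 85 [9] [3],
  .leib 3 4 85 [9] [9],
  .leib 3 4 85 [9] [27],
  .leib 3 4 85 [9] [81],
  .leib 3 4 85 [81] [27],
  .leib 3 4 85 [81] [81],
  .leib 5 4 81 [1] [27],
  .leib 5 4 81 [1] [81],
  .leib 5 4 81 [81] [27],
  .leib 5 4 81 [81] [81],
  .bok false 5 88 [1] [1],
  .bok false 5 88 [1] [3],
  .bok false 5 88 [1] [9],
  .bok false 5 88 [1] [27],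
  .bok false 5 88 [1] [81],
  .bok false 5 88 [3] [1],
  .bok false 5 88 [3] [3],
  .bok false 5 88 [3] [9],
  .bok false 5 88 [3] [27],
  .bok false 5 88 [3] [81],
  .bok false 5 88 [9] [1],
  .bok false 5 88 [9] [3],
  .bok false 5 88 [9] [9],
  .bok false 5 88 [9] [27],
  .bok false 5 88 [9] [81],
  .bok false 5 88 [27] [1],
  .bok false 5 88 [27] [3],
  .bok false 5 88 [81] [1],
  .bok false 5 88 [81] [3],
  .bok false 5 88 [81] [9],
  .bok false 5 88 [81] [27],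
  .bok false 5 88 [81] [81],
  .leib 1 6 87 [9] [1],
  .leib 1 6 87 [9] [3],
  .leib 1 6 87 [9] [9],
  .leib 1 6 87 [9] [27],
  .leib 1 6 87 [9] [81],
  .leib 1 6 87 [27] [1],
  .leib 1 6 87 [27] [3],
  .leib 1 6 87 [27] [9],
  .leib 1 6 87 [27] [27],
  .leib 1 6 87 [27] [81],
  .leib 1 6 87 [81] [1],
  .leib 1 6 87 [81] [3],
  .leib 1 6 87 [81] [9],
  .leib 1 6 87 [81] [27],
  .leib 1 6 87 [81] [81],
  .leib 3 5 85 [3] [27],
  .leib 3 5 85 [3] [81],
  .leib 3 5 85 [243] [1],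
  .leib 3 5 85 [243] [3],
  .leib 3 5 85 [243] [9],
  .leib 3 5 85 [243] [27],
  .leib 3 5 85 [243] [81],
  .leib 3 5 85 [729] [1],
  .leib 3 5 85 [729] [3],
  .leib 3 5 85 [729] [9],
  .leib 3 5 85 [729] [27],
  .leib 3 5 85 [729] [81],
  .leib 5 5 81 [3] [27],
  .leib 5 5 81 [3] [81],
  .bok false 6 88 [3] [1],
  .bok false 6 88 [3] [3],
  .bok false 6 88 [3] [9],
  .bok false 6 88 [3] [27],
  .bok false 6 88 [3] [81],
  .bok false 6 88 [3] [243],
  .bok false 6 88 [9] [1],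
  .bok false 6 88 [9] [3],
  .bok false 6 88 [9] [9],
  .bok false 6 88 [9] [27],
  .bok false 6 88 [9] [81],
  .bok false 6 88 [9] [243],
  .bok false 6 88 [27] [1],
  .bok false 6 88 [27] [3],
  .bok false 6 88 [27] [9],
  .bok false 6 88 [27] [27],
  .bok false 6 88 [27] [81],
  .bok false 6 88 [27] [243],
  .bok false 6 88 [81] [1],
  .bok false 6 88 [81] [3],
  .bok false 6 88 [81] [9],
  .bok false 6 88 [81] [27],
  .bok false 6 88 [81] [81],
  .bok false 6 88 [81] [243],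
  .leib 1 7 87 [3] [729],
  .leib 1 7 87 [9] [1],
  .leib 1 7 87 [9] [3],
  .leib 1 7 87 [9] [9],
  .leib 1 7 87 [9] [27],
  .leib 1 7 87 [9] [81],
  .leib 1 7 87 [9] [243],
  .leib 1 7 87 [27] [1],
  .leib 1 7 87 [27] [3],
  .leib 1 7 87 [27] [9],
  .leib 1 7 87 [27] [27],
  .leib 1 7 87 [27] [81],
  .leib 1 7 87 [27] [243],
  .bok false 7 88 [1] [3],
  .bok false 7 88 [1] [9],
  .bok false 7 88 [1] [27],
  .bok false 7 88 [1] [81],
  .bok false 7 88 [1] [243],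
  .bok false 7 88 [1] [729],
  .bok false 7 88 [3] [3],
  .bok false 7 88 [3] [9],
  .bok false 7 88 [3] [27],
  .bok false 7 88 [3] [81],
  .bok false 7 88 [3] [243],
  .bok false 7 88 [3] [729],
  .bok false 7 88 [9] [9],
  .bok false 7 88 [9] [27],
  .bok false 7 88 [9] [81],
  .leib 1 8 87 [1] [243],
  .leib 1 8 87 [1] [729],
  .leib 1 8 87 [729] [3],
  .leib 1 8 87 [729] [9],
  .leib 1 8 87 [729] [27],
  .leib 1 8 87 [729] [81],
  .leib 1 8 87 [729] [243],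
  .leib 1 8 87 [729] [729],
  .leib 3 7 85 [1] [243],
  .leib 3 7 85 [1] [729],
  .leib 3 7 85 [9] [243],
  .leib 3 7 85 [9] [729],
  .leib 3 7 85 [81] [3],
  .leib 3 7 85 [81] [27],
  .leib 3 7 85 [81] [81],
  .leib 3 7 85 [81] [243],
  .leib 3 7 85 [81] [729],
  .leib 3 7 85 [729] [3],
  .leib 3 7 85 [729] [9],
  .leib 3 7 85 [729] [27],
  .leib 3 7 85 [729] [81],
  .leib 3 7 85 [729] [243],
  .leib 3 7 85 [729] [729],
  .bok false 8 88 [3] [1],
  .bok false 8 88 [3] [3],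
  .bok false 8 88 [3] [9],
  .bok false 8 88 [3] [27],
  .bok false 8 88 [3] [81],
  .bok false 8 88 [3] [243],
  .bok false 8 88 [9] [1],
  .bok false 8 88 [9] [3],
  .bok false 8 88 [9] [9],
  .bok false 8 88 [9] [27],
  .bok false 8 88 [9] [81],
  .bok false 8 88 [9] [243],
  .bok false 8 88 [27] [1],
  .bok false 8 88 [27] [3],
  .bok false 8 88 [27] [9],
  .bok false 8 88 [27] [27],
  .bok false 8 88 [27] [81],
  .bok false 8 88 [27] [243],
  .leib 1 9 87 [27] [1],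
  .leib 1 9 87 [27] [3],
  .leib 1 9 87 [27] [9],
  .leib 1 9 87 [27] [27],
  .leib 1 9 87 [27] [81],
  .leib 1 9 87 [27] [243],
  .leib 1 9 87 [81] [1],
  .leib 1 9 87 [81] [3],
  .leib 1 9 87 [81] [9],
  .leib 1 9 87 [81] [27],
  .leib 1 9 87 [81] [81],
  .leib 1 9 87 [81] [243],
  .leib 1 9 87 [243] [1],
  .leib 1 9 87 [243] [3],
  .leib 1 9 87 [243] [9],
  .leib 1 9 87 [243] [27],
  .leib 1 9 87 [243] [81],
  .leib 1 9 87 [243] [243],
  .leib 3 8 85 [27] [81],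
  .leib 3 8 85 [27] [243],
  .leib 3 8 85 [81] [1],
  .leib 3 8 85 [81] [3],
  .leib 3 8 85 [81] [9],
  .leib 3 8 85 [81] [27],
  .leib 3 8 85 [81] [81],
  .leib 3 8 85 [81] [243],
  .leib 3 8 85 [243] [1],
  .leib 3 8 85 [243] [3],
  .leib 3 8 85 [243] [9],
  .leib 3 8 85 [243] [27],
  .leib 3 8 85 [243] [81],
  .leib 3 8 85 [243] [243],
  .leib 3 8 85 [729] [81],
  .leib 3 8 85 [729] [243],
  .leib 3 8 85 [2187] [81],
  .leib 3 8 85 [2187] [243],
  .leib 5 8 81 [27] [81],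
  .leib 5 8 81 [27] [243],
  .leib 5 8 81 [729] [81],
  .leib 5 8 81 [2187] [81],
  .bok false 9 88 [1] [1],
  .bok false 9 88 [1] [3],
  .bok false 9 88 [1] [9],
  .bok false 9 88 [1] [27],
  .bok false 9 88 [3] [1],
  .bok false 9 88 [3] [3],
  .bok false 9 88 [3] [9],
  .bok false 9 88 [3] [27],
  .bok false 9 88 [9] [1],
  .bok false 9 88 [9] [3],
  .bok false 9 88 [9] [9],
  .bok false 9 88 [9] [27],
  .bok false 9 88 [27] [1],
  .bok false 9 88 [27] [3],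
  .bok false 9 88 [27] [9],
  .bok false 9 88 [27] [27],
  .bok false 9 88 [27] [81],
  .bok false 9 88 [81] [1],
  .bok false 9 88 [81] [3],
  .bok false 9 88 [81] [9],
  .bok false 9 88 [81] [27],
  .bok false 9 88 [243] [81],
  .bok false 9 88 [729] [81],
  .leib 1 10 87 [9] [1],
  .leib 1 10 87 [9] [3],
  .leib 1 10 87 [9] [9],
  .leib 1 10 87 [9] [27],
  .leib 1 10 87 [9] [81],
  .leib 1 10 87 [27] [1],
  .leib 1 10 87 [27] [3],
  .leib 1 10 87 [27] [9],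
  .leib 1 10 87 [27] [27],
  .leib 1 10 87 [27] [81],
  .leib 3 9 85 [9] [81],
  .leib 3 9 85 [27] [1],
  .leib 3 9 85 [27] [3],
  .leib 3 9 85 [27] [9],
  .leib 3 9 85 [27] [27],
  .leib 3 9 85 [27] [81],
  .leib 3 9 85 [81] [1],
  .leib 3 9 85 [81] [3],
  .leib 3 9 85 [81] [9],
  .leib 3 9 85 [81] [27],
  .leib 3 9 85 [81] [81],
  .leib 5 9 81 [243] [81],
  .bok false 10 88 [1] [1],
  .bok false 10 88 [1] [3],
  .bok false 10 88 [1] [9],
  .bok false 10 88 [1] [27],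
  .bok false 10 88 [9] [1],
  .bok false 10 88 [9] [3],
  .bok false 10 88 [9] [9],
  .bok false 10 88 [9] [27],
  .bok false 10 88 [27] [1],
  .bok false 10 88 [27] [3],
  .bok false 10 88 [27] [9],
  .bok false 10 88 [27] [27],
  .bok false 10 88 [81] [1],
  .bok false 10 88 [81] [3],
  .bok false 10 88 [81] [9],
  .bok false 10 88 [81] [27],
  .bok false 10 88 [6561] [3],
  .leib 1 11 87 [81] [1],
  .leib 1 11 87 [81] [3],
  .leib 1 11 87 [81] [9],
  .leib 1 11 87 [81] [27],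
  .leib 1 11 87 [243] [1],
  .leib 1 11 87 [243] [3],
  .leib 1 11 87 [243] [27],
  .leib 3 10 85 [27] [1],
  .leib 3 10 85 [27] [3],
  .leib 3 10 85 [27] [9],
  .leib 3 10 85 [27] [27],
  .leib 9 10 73 [729] [27],
  .bok false 11 88 [3] [1],
  .bok false 11 88 [3] [3],
  .bok false 11 88 [3] [9],
  .bok false 11 88 [3] [27],
  .bok false 11 88 [3] [81],
  .bok false 11 88 [3] [243],
  .bok false 11 88 [9] [1],
  .bok false 11 88 [9] [3],
  .bok false 11 88 [9] [9],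
  .bok false 11 88 [9] [27],
  .bok false 11 88 [9] [81],
  .bok false 11 88 [9] [243],
  .bok false 11 88 [729] [1],
  .bok false 11 88 [729] [3],
  .bok false 11 88 [729] [9],
  .bok false 11 88 [729] [27],
  .bok false 11 88 [729] [81],
  .bok false 11 88 [729] [243],
  .leib 1 12 87 [243] [1],
  .leib 1 12 87 [243] [3],
  .leib 1 12 87 [243] [9],
  .leib 1 12 87 [243] [27],
  .leib 1 12 87 [243] [81],
  .leib 1 12 87 [243] [243],
  .leib 1 12 87 [729] [1],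
  .leib 1 12 87 [729] [3],
  .leib 1 12 87 [729] [9],
  .leib 1 12 87 [729] [27],
  .leib 1 12 87 [729] [81],
  .leib 1 12 87 [729] [243],
  .leib 3 11 85 [243] [1],
  .leib 3 11 85 [243] [3],
  .leib 3 11 85 [243] [9],
  .leib 3 11 85 [243] [27],
  .leib 3 11 85 [243] [81],
  .leib 3 11 85 [243] [243],
  .leib 7 11 79 [27] [1],
  .leib 7 11 79 [27] [3],
  .leib 7 11 79 [27] [9],
  .bok false 12 88 [3] [1],
  .bok false 12 88 [3] [3],
  .bok false 12 88 [3] [9],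
  .bok false 12 88 [3] [27],
  .bok false 12 88 [3] [81],
  .bok false 12 88 [3] [243],
  .bok false 12 88 [9] [1],
  .bok false 12 88 [9] [3],
  .bok false 12 88 [9] [9],
  .bok false 12 88 [9] [27],
  .bok false 12 88 [9] [81],
  .bok false 12 88 [9] [243],
  .bok false 12 88 [27] [1],
  .bok false 12 88 [27] [3],
  .bok false 12 88 [27] [9],
  .bok false 12 88 [27] [27],
  .bok false 12 88 [27] [81],
  .bok false 12 88 [27] [243],
  .bok false 12 88 [243] [1],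
  .bok false 12 88 [243] [3],
  .bok false 12 88 [243] [9],
  .bok false 12 88 [243] [27],
  .bok false 12 88 [243] [81],
  .bok false 12 88 [243] [243],
  .leib 1 13 87 [81] [1],
  .leib 1 13 87 [81] [3],
  .leib 1 13 87 [81] [9],
  .leib 1 13 87 [81] [27],
  .leib 1 13 87 [81] [81],
  .leib 1 13 87 [81] [243],
  .leib 1 13 87 [243] [1],
  .leib 1 13 87 [243] [3],
  .leib 1 13 87 [243] [9],
  .leib 1 13 87 [243] [27],
  .leib 1 13 87 [243] [81],
  .leib 1 13 87 [243] [243],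
  .leib 3 12 85 [27] [1],
  .leib 3 12 85 [27] [3],
  .leib 3 12 85 [27] [9],
  .leib 3 12 85 [27] [27],
  .leib 3 12 85 [27] [81],
  .leib 3 12 85 [27] [243],
  .leib 3 12 85 [243] [1],
  .leib 3 12 85 [243] [3],
  .leib 3 12 85 [243] [9],
  .leib 3 12 85 [243] [27],
  .leib 3 12 85 [243] [81],
  .leib 3 12 85 [243] [243],
  .bok false 13 88 [3] [1],
  .bok false 13 88 [3] [3],
  .bok false 13 88 [9] [1],
  .bok false 13 88 [9] [3],
  .bok false 13 88 [27] [1],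
  .bok false 13 88 [27] [3],
  .bok false 13 88 [243] [1],
  .bok false 13 88 [243] [3],
  .leib 1 14 87 [81] [1],
  .leib 1 14 87 [81] [3],
  .leib 1 14 87 [243] [1],
  .leib 1 14 87 [243] [3],
  .leib 1 16 87 [27] [243],
  .leib 2 15 87 [9] [243],
  .leib 2 15 87 [27] [243],
  .leib 2 15 87 [81] [243],
  .leib 3 15 85 [27] [243],
  .leib 3 15 85 [81] [243],
  .leib 4 14 85 [729] [243],
  .leib 1 17 87 [81] [27],
  .leib 1 17 87 [81] [81],
  .leib 1 17 87 [243] [27],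
  .leib 1 17 87 [243] [81],
  .leib 2 16 87 [27] [27],
  .leib 2 16 87 [27] [81],
  .leib 4 15 85 [9] [27],
  .leib 4 15 85 [9] [81],
  .leib 4 15 85 [27] [27],
  .leib 4 15 85 [27] [81],
  .leib 4 15 85 [81] [27],
  .leib 4 15 85 [81] [81],
  .leib 1 20 87 [27] [1],
  .leib 1 20 87 [27] [3],
  .leib 1 20 87 [27] [9],
  .leib 2 19 87 [3] [1],
  .leib 2 19 87 [3] [3],
  .leib 2 19 87 [3] [9],
  .leib 2 19 87 [9] [1],
  .leib 2 19 87 [9] [3],
  .leib 2 19 87 [9] [9],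
  .leib 2 19 87 [27] [1],
  .leib 2 19 87 [27] [3],
  .leib 2 19 87 [27] [9],
  .leib 3 19 85 [3] [1],
  .leib 3 19 85 [3] [3],
  .leib 3 19 85 [3] [9],
  .leib 3 19 85 [9] [1],
  .leib 3 19 85 [9] [3],
  .leib 3 19 85 [9] [9],
  .leib 4 18 85 [243] [1],
  .leib 4 18 85 [243] [3],
  .leib 4 18 85 [243] [9],
  .leib 4 18 85 [729] [1],
  .leib 4 18 85 [729] [3],
  .leib 4 18 85 [729] [9],
  .leib 1 4 88 [3] [81],
  .leib 1 4 88 [3] [243],
  .leib 1 4 88 [3] [729],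
  .leib 1 4 88 [27] [81],
  .leib 1 4 88 [27] [243],
  .leib 1 4 88 [27] [729],
  .leib 1 4 88 [81] [81],
  .leib 1 4 88 [81] [243],
  .leib 1 4 88 [81] [729],
  .leib 3 3 86 [1] [81],
  .leib 3 3 86 [1] [243],
  .leib 3 3 86 [1] [729],
  .leib 7 3 80 [1] [243],
  .leib 7 3 80 [1] [729],
  .leib 8 2 80 [1] [81],
  .leib 8 2 80 [1] [243],
  .leib 8 2 80 [1] [729],
  .leib 1 5 88 [3] [6561],
  .leib 1 5 88 [3] [19683],
  .leib 1 5 88 [9] [6561],
  .leib 1 5 88 [9] [19683],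
  .leib 1 5 88 [243] [6561],
  .leib 1 5 88 [243] [19683],
  .leib 2 4 88 [3] [6561],
  .leib 2 4 88 [3] [19683],
  .leib 3 4 86 [1] [6561],
  .leib 3 4 86 [1] [19683],
  .leib 4 3 86 [1] [6561],
  .leib 5 4 82 [9] [6561],
  .leib 5 4 82 [9] [19683],
  .leib 7 4 80 [3] [6561],
  .leib 7 4 80 [3] [19683],
  .leib 8 3 80 [1] [6561],
  .leib 8 3 80 [3] [6561],
  .leib 1 6 88 [243] [1],
  .leib 1 6 88 [243] [3],
  .leib 1 6 88 [243] [9],
  .leib 1 6 88 [243] [27],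
  .leib 1 6 88 [243] [81],
  .leib 1 6 88 [243] [243],
  .leib 1 6 88 [243] [729],
  .leib 2 5 88 [3] [1],
  .leib 2 5 88 [3] [3],
  .leib 2 5 88 [3] [9],
  .leib 2 5 88 [3] [27],
  .leib 2 5 88 [3] [81],
  .leib 2 5 88 [3] [243],
  .leib 2 5 88 [3] [729],
  .leib 2 5 88 [9] [1],
  .leib 2 5 88 [9] [3],
  .leib 2 5 88 [9] [9],
  .leib 2 5 88 [9] [27],
  .leib 2 5 88 [9] [81],
  .leib 2 5 88 [9] [243],
  .leib 2 5 88 [9] [729],
  .leib 5 5 82 [9] [1],
  .leib 5 5 82 [9] [3],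
  .leib 5 5 82 [9] [9],
  .leib 5 5 82 [9] [27],
  .leib 5 5 82 [9] [81],
  .leib 5 5 82 [9] [243],
  .leib 5 5 82 [9] [729],
  .bok false 6 89 [3] [1],
  .bok false 6 89 [3] [3],
  .bok false 6 89 [3] [9],
  .bok false 6 89 [3] [27],
  .bok false 6 89 [3] [81],
  .bok false 6 89 [3] [243],
  .bok false 6 89 [81] [1],
  .bok false 6 89 [81] [3],
  .bok false 6 89 [81] [9],
  .bok false 6 89 [81] [27],
  .bok false 6 89 [81] [81],
  .bok false 6 89 [81] [243],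
  .bok false 6 89 [243] [1],
  .bok false 6 89 [243] [3],
  .leib 1 7 88 [9] [81],
  .leib 1 7 88 [9] [243],
  .leib 1 7 88 [81] [1],
  .leib 1 7 88 [81] [3],
  .leib 1 7 88 [81] [9],
  .leib 1 7 88 [81] [27],
  .leib 1 7 88 [81] [81],
  .leib 1 7 88 [81] [243],
  .leib 1 7 88 [243] [1],
  .leib 1 7 88 [243] [3],
  .leib 1 7 88 [243] [9],
  .leib 1 7 88 [243] [27],
  .leib 1 7 88 [243] [81],
  .leib 1 7 88 [243] [243],
  .leib 5 6 82 [9] [243],
  .bok false 7 89 [1] [1],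
  .bok false 7 89 [1] [3],
  .bok false 7 89 [1] [9],
  .bok false 7 89 [1] [27],
  .bok false 7 89 [1] [81],
  .bok false 7 89 [1] [243],
  .bok false 7 89 [1] [729],
  .bok false 7 89 [1] [2187],
  .bok false 7 89 [1] [6561],
  .bok false 7 89 [1] [19683],
  .bok false 7 89 [3] [1],
  .bok false 7 89 [3] [3],
  .bok false 7 89 [3] [9],
  .bok false 7 89 [3] [27],
  .bok false 7 89 [3] [81],
  .bok false 7 89 [3] [243],
  .bok false 7 89 [3] [729],
  .bok false 7 89 [3] [2187],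
  .bok false 7 89 [3] [6561],
  .bok false 7 89 [3] [19683],
  .bok false 7 89 [81] [1],
  .bok false 7 89 [81] [3],
  .bok false 7 89 [81] [9],
  .bok false 7 89 [81] [27],
  .bok false 7 89 [81] [81],
  .bok false 7 89 [81] [243],
  .bok false 7 89 [81] [729],
  .bok false 7 89 [81] [2187],
  .bok false 7 89 [81] [6561],
  .bok false 7 89 [81] [19683],
  .leib 1 8 88 [81] [1],
  .leib 1 8 88 [81] [3],
  .leib 1 8 88 [81] [9],
  .leib 1 8 88 [81] [27],
  .leib 1 8 88 [81] [81],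
  .leib 1 8 88 [81] [243],
  .leib 1 8 88 [81] [729],
  .leib 1 8 88 [81] [2187],
  .leib 1 8 88 [81] [6561],
  .leib 1 8 88 [81] [19683],
  .leib 3 7 86 [3] [1],
  .leib 3 7 86 [3] [3],
  .leib 3 7 86 [3] [9],
  .leib 3 7 86 [3] [27],
  .leib 3 7 86 [3] [81],
  .leib 3 7 86 [3] [243],
  .leib 3 7 86 [3] [729],
  .leib 3 7 86 [3] [2187],
  .leib 3 7 86 [3] [6561],
  .leib 3 7 86 [3] [19683],
  .leib 3 7 86 [9] [1],
  .leib 3 7 86 [9] [3],
  .leib 3 7 86 [9] [9],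
  .leib 3 7 86 [9] [27],
  .leib 3 7 86 [9] [81],
  .leib 3 7 86 [9] [243],
  .leib 3 7 86 [9] [729],
  .leib 3 7 86 [9] [2187],
  .leib 3 7 86 [9] [6561],
  .leib 3 7 86 [9] [19683],
  .leib 5 7 82 [9] [2187],
  .leib 5 7 82 [9] [6561],
  .leib 7 7 80 [9] [2187],
  .leib 7 7 80 [9] [6561],
  .bok false 8 89 [1] [1],
  .bok false 8 89 [1] [3],
  .bok false 8 89 [1] [9],
  .bok false 8 89 [1] [27],
  .bok false 8 89 [1] [81],
  .bok false 8 89 [1] [243],
  .bok false 8 89 [1] [729],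
  .bok false 8 89 [1] [2187],
  .bok false 8 89 [1] [6561],
  .bok false 8 89 [3] [1],
  .bok false 8 89 [3] [3],
  .bok false 8 89 [3] [9],
  .bok false 8 89 [3] [27],
  .bok false 8 89 [3] [81],
  .bok false 8 89 [3] [243],
  .bok false 8 89 [3] [729],
  .bok false 8 89 [3] [2187],
  .bok false 8 89 [3] [6561],
  .bok false 8 89 [9] [1],
  .bok false 8 89 [9] [3],
  .bok false 8 89 [9] [9],
  .bok false 8 89 [9] [27],
  .bok false 8 89 [9] [81],
  .bok false 8 89 [9] [243],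
  .bok false 8 89 [9] [729],
  .bok false 8 89 [9] [2187],
  .bok false 8 89 [9] [6561],
  .leib 1 9 88 [81] [1],
  .leib 1 9 88 [81] [3],
  .leib 1 9 88 [81] [9],
  .leib 1 9 88 [81] [27],
  .leib 1 9 88 [81] [81],
  .leib 1 9 88 [81] [243],
  .leib 1 9 88 [81] [729],
  .leib 1 9 88 [81] [2187],
  .leib 1 9 88 [81] [6561],
  .leib 3 8 86 [3] [1],
  .leib 3 8 86 [3] [3],
  .leib 3 8 86 [3] [9],
  .leib 3 8 86 [3] [27],
  .leib 3 8 86 [3] [81],
  .leib 3 8 86 [3] [243],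
  .leib 3 8 86 [3] [729],
  .leib 3 8 86 [3] [2187],
  .leib 3 8 86 [3] [6561],
  .bok false 9 89 [1] [1],
  .bok false 9 89 [1] [3],
  .bok false 9 89 [1] [9],
  .bok false 9 89 [1] [27],
  .bok false 9 89 [1] [81],
  .bok false 9 89 [1] [243],
  .bok false 9 89 [3] [1],
  .bok false 9 89 [3] [3],
  .bok false 9 89 [3] [9],
  .bok false 9 89 [3] [27],
  .bok false 9 89 [3] [81],
  .bok false 9 89 [3] [243],
  .bok false 9 89 [9] [1],
  .bok false 9 89 [9] [3],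
  .bok false 9 89 [9] [9],
  .bok false 9 89 [9] [27],
  .bok false 9 89 [9] [81],
  .bok false 9 89 [9] [243],
  .bok false 9 89 [729] [729],
  .leib 1 10 88 [243] [1],
  .leib 1 10 88 [243] [3],
  .leib 1 10 88 [243] [9],
  .leib 1 10 88 [243] [27],
  .leib 1 10 88 [243] [81],
  .leib 1 10 88 [243] [243],
  .leib 1 10 88 [243] [729],
  .leib 1 10 88 [729] [1],
  .leib 1 10 88 [729] [3],
  .leib 1 10 88 [729] [9],
  .leib 1 10 88 [729] [27],
  .leib 1 10 88 [729] [81],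
  .leib 1 10 88 [729] [243],
  .leib 1 10 88 [729] [729],
  .bok false 10 89 [1] [1],
  .bok false 10 89 [1] [3],
  .bok false 10 89 [1] [9],
  .bok false 10 89 [1] [27],
  .bok false 10 89 [1] [81],
  .bok false 10 89 [1] [243],
  .bok false 10 89 [1] [729],
  .bok false 10 89 [1] [2187],
  .bok false 10 89 [3] [1],
  .bok false 10 89 [3] [3],
  .bok false 10 89 [3] [9],
  .bok false 10 89 [3] [27],
  .bok false 10 89 [3] [81],
  .bok false 10 89 [3] [243],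
  .bok false 10 89 [3] [729],
  .bok false 10 89 [27] [3],
  .bok false 10 89 [27] [2187],
  .leib 1 11 88 [27] [1],
  .leib 1 11 88 [27] [3],
  .leib 1 11 88 [27] [9],
  .leib 1 11 88 [27] [27],
  .leib 1 11 88 [27] [81],
  .leib 1 11 88 [27] [243],
  .leib 1 11 88 [27] [729],
  .leib 1 11 88 [27] [2187],
  .leib 1 11 88 [81] [1],
  .leib 1 11 88 [81] [3],
  .leib 1 11 88 [81] [9],
  .leib 1 11 88 [81] [27],
  .leib 1 11 88 [81] [81],
  .leib 1 11 88 [81] [243],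
  .leib 1 11 88 [81] [729],
  .leib 1 11 88 [81] [2187],
  .leib 3 10 86 [243] [1],
  .leib 3 10 86 [243] [3],
  .leib 3 10 86 [243] [9],
  .leib 3 10 86 [243] [27],
  .leib 3 10 86 [243] [81],
  .leib 3 10 86 [243] [243],
  .leib 3 10 86 [243] [729],
  .leib 3 10 86 [243] [2187],
  .bok false 11 89 [3] [1],
  .bok false 11 89 [3] [3],
  .bok false 11 89 [3] [9],
  .bok false 11 89 [3] [27],
  .bok false 11 89 [3] [81],
  .bok false 11 89 [3] [243],
  .bok false 11 89 [9] [1],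
  .bok false 11 89 [9] [3],
  .bok false 11 89 [9] [9],
  .bok false 11 89 [9] [27],
  .bok false 11 89 [9] [81],
  .bok false 11 89 [27] [1],
  .bok false 11 89 [27] [3],
  .bok false 11 89 [27] [9],
  .bok false 11 89 [27] [27],
  .bok false 11 89 [27] [81],
  .bok false 11 89 [27] [243],
  .leib 1 12 88 [81] [1],
  .leib 1 12 88 [81] [3]]
 Pf.done)

theorem cchk10 : (ofTab P236Q.tauF).chunk
    (cex0 ++ (cex4 ++ (cex5 ++ (cex6 ++ (cex7 ++ (cex8 ++ cex9))))))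
    cpf10 cex10 = true := by
  decide +kernel

end Vale.Agent.P236E
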