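import Vale.Agent.P236Et.Ex
import Vale.Agent.P236Qt.TauF

/-!
# P236, block ENG: part 11 of the certificate
-/

namespace Vale.Agent.P236E

set_option maxRecDepth 100000

noncomputable def cpf11 : Pf :=
 (steps [.leib 1 12 88 [81] [9],
  .leib 1 12 88 [81] [27],
  .leib 1 12 88 [81] [81],
  .leib 1 12 88 [81] [243],
  .leib 3 11 86 [27] [1],
  .leib 3 11 86 [27] [3],
  .leib 3 11 86 [27] [9],
  .leib 3 11 86 [27] [27],
  .leib 3 11 86 [27] [81],
  .leib 3 11 86 [27] [243],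
  .leib 3 11 86 [81] [1],
  .leib 3 11 86 [81] [3],
  .leib 3 11 86 [81] [9],
  .leib 3 11 86 [81] [27],
  .leib 3 11 86 [81] [81],
  .leib 3 11 86 [81] [243],
  .bok false 12 89 [1] [1],
  .bok false 12 89 [1] [3],
  .bok false 12 89 [1] [9],
  .bok false 12 89 [1] [27],
  .bok false 12 89 [1] [81],
  .bok false 12 89 [3] [1],
  .bok false 12 89 [3] [3],
  .bok false 12 89 [3] [9],
  .bok false 12 89 [3] [27],
  .bok false 12 89 [3] [81],
  .bok false 12 89 [9] [3],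
  .leib 1 13 88 [243] [1],
  .leib 1 13 88 [243] [3],
  .leib 1 13 88 [243] [9],
  .leib 1 13 88 [243] [27],
  .leib 1 13 88 [243] [81],
  .leib 1 13 88 [729] [1],
  .leib 1 13 88 [729] [3],
  .leib 1 13 88 [729] [9],
  .leib 1 13 88 [729] [27],
  .leib 1 13 88 [729] [81],
  .leib 7 12 80 [2187] [3],
  .bok false 13 89 [27] [1],
  .bok false 13 89 [27] [3],
  .bok false 13 89 [27] [9],
  .bok false 13 89 [27] [27],
  .bok false 13 89 [27] [81],
  .bok false 13 89 [27] [243],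
  .bok false 13 89 [27] [729],
  .bok false 13 89 [27] [2187],
  .bok false 13 89 [243] [1],
  .bok false 13 89 [243] [3],
  .bok false 13 89 [243] [9],
  .bok false 13 89 [243] [27],
  .bok false 13 89 [243] [81],
  .bok false 13 89 [243] [243],
  .bok false 13 89 [243] [729],
  .bok false 13 89 [243] [2187],
  .leib 1 15 88 [27] [1],
  .leib 1 15 88 [27] [3],
  .leib 1 15 88 [27] [9],
  .leib 1 15 88 [27] [27],
  .leib 1 15 88 [27] [81],
  .leib 1 15 88 [27] [243],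
  .leib 1 15 88 [27] [2187],
  .leib 2 14 88 [27] [1],
  .leib 2 14 88 [27] [3],
  .leib 2 14 88 [27] [9],
  .leib 2 14 88 [27] [27],
  .leib 2 14 88 [27] [81],
  .leib 2 14 88 [27] [243],
  .leib 2 14 88 [27] [2187],
  .leib 2 14 88 [81] [1],
  .leib 2 14 88 [81] [3],
  .leib 2 14 88 [81] [9],
  .leib 2 14 88 [81] [27],
  .leib 2 14 88 [81] [81],
  .leib 2 14 88 [81] [243],
  .leib 2 14 88 [81] [2187],
  .leib 3 14 86 [9] [1],
  .leib 3 14 86 [9] [3],
  .leib 3 14 86 [9] [9],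
  .leib 3 14 86 [9] [27],
  .leib 3 14 86 [9] [81],
  .leib 3 14 86 [9] [243],
  .leib 3 14 86 [9] [2187],
  .bok false 15 89 [3] [1],
  .bok false 15 89 [3] [3],
  .bok false 15 89 [3] [9],
  .bok false 15 89 [3] [27],
  .bok false 16 89 [9] [1],
  .leib 1 6 89 [27] [1],
  .leib 1 6 89 [27] [3],
  .leib 1 6 89 [27] [9],
  .leib 1 6 89 [27] [27],
  .leib 1 6 89 [27] [81],
  .leib 1 6 89 [27] [243],
  .leib 1 6 89 [81] [1],
  .leib 1 6 89 [81] [3],
  .leib 1 6 89 [81] [9],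
  .leib 1 6 89 [81] [27],
  .leib 1 6 89 [81] [81],
  .leib 1 6 89 [81] [243],
  .leib 3 5 87 [81] [1],
  .leib 3 5 87 [81] [3],
  .leib 3 5 87 [81] [9],
  .leib 3 5 87 [81] [27],
  .leib 3 5 87 [81] [81],
  .leib 3 5 87 [81] [243],
  .leib 3 5 87 [243] [1],
  .leib 3 5 87 [243] [3],
  .leib 3 5 87 [243] [9],
  .leib 3 5 87 [243] [27],
  .leib 3 5 87 [243] [81],
  .leib 3 5 87 [243] [243],
  .leib 5 5 83 [9] [1],
  .leib 5 5 83 [9] [3],
  .leib 5 5 83 [9] [9],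
  .leib 5 5 83 [9] [27],
  .leib 5 5 83 [9] [81],
  .leib 5 5 83 [9] [243],
  .leib 5 5 83 [27] [1],
  .leib 5 5 83 [27] [3],
  .leib 5 5 83 [27] [9],
  .leib 5 5 83 [27] [27],
  .leib 5 5 83 [27] [81],
  .leib 5 5 83 [27] [243],
  .bok false 6 90 [3] [81],
  .bok false 6 90 [3] [243],
  .bok false 6 90 [9] [81],
  .bok false 6 90 [9] [243],
  .bok false 6 90 [27] [81],
  .bok false 6 90 [27] [243],
  .bok false 6 90 [2187] [81],
  .bok false 6 90 [2187] [243],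
  .leib 3 6 87 [9] [9],
  .leib 3 6 87 [9] [27],
  .leib 3 6 87 [9] [81],
  .leib 3 6 87 [9] [243],
  .leib 3 6 87 [27] [81],
  .leib 3 6 87 [27] [243],
  .leib 3 6 87 [81] [81],
  .leib 3 6 87 [81] [243],
  .bok false 7 90 [1] [27],
  .leib 3 7 87 [9] [3],
  .leib 3 7 87 [9] [9],
  .leib 3 7 87 [9] [27],
  .leib 3 7 87 [27] [3],
  .leib 3 7 87 [27] [9],
  .leib 3 7 87 [27] [27],
  .bok false 8 90 [1] [3],
  .bok false 8 90 [1] [9],
  .bok false 8 90 [1] [81],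
  .bok false 8 90 [3] [3],
  .bok false 8 90 [3] [9],
  .bok false 8 90 [3] [81],
  .leib 1 9 89 [27] [3],
  .leib 1 9 89 [27] [9],
  .leib 1 9 89 [27] [81],
  .leib 1 9 89 [81] [3],
  .leib 1 9 89 [81] [9],
  .leib 1 9 89 [81] [81],
  .leib 1 9 89 [243] [3],
  .leib 1 9 89 [243] [9],
  .leib 1 9 89 [243] [81],
  .leib 3 8 87 [729] [3],
  .leib 3 8 87 [729] [9],
  .leib 3 8 87 [729] [81],
  .leib 5 8 83 [243] [243],
  .bok false 9 90 [1] [27],
  .bok false 9 90 [1] [81],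
  .bok false 9 90 [9] [27],
  .bok false 9 90 [9] [81],
  .bok false 9 90 [81] [27],
  .bok false 9 90 [81] [81],
  .bok false 9 90 [243] [27],
  .bok false 9 90 [243] [81],
  .leib 1 10 89 [3] [27],
  .leib 1 10 89 [3] [81],
  .leib 1 10 89 [9] [27],
  .leib 1 10 89 [9] [81],
  .leib 3 9 87 [27] [27],
  .leib 3 9 87 [27] [81],
  .leib 3 9 87 [81] [27],
  .leib 3 9 87 [81] [81],
  .leib 1 12 89 [81] [1],
  .leib 1 12 89 [81] [9],
  .leib 1 12 89 [81] [27],
  .leib 1 12 89 [81] [81],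
  .leib 1 12 89 [81] [243],
  .leib 1 12 89 [81] [729],
  .leib 1 12 89 [243] [1],
  .leib 1 12 89 [243] [9],
  .leib 1 12 89 [243] [27],
  .leib 1 12 89 [243] [81],
  .leib 1 12 89 [243] [243],
  .leib 1 12 89 [243] [729],
  .leib 3 11 87 [81] [1],
  .leib 3 11 87 [81] [9],
  .leib 3 11 87 [81] [27],
  .leib 3 11 87 [81] [81],
  .leib 3 11 87 [81] [243],
  .leib 3 11 87 [81] [729],
  .leib 3 11 87 [243] [1],
  .leib 3 11 87 [243] [9],
  .leib 3 11 87 [243] [27],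
  .leib 3 11 87 [243] [81],
  .leib 3 11 87 [243] [243],
  .leib 3 11 87 [243] [729],
  .leib 5 11 83 [27] [81],
  .leib 5 11 83 [27] [243],
  .leib 5 11 83 [27] [729],
  .bok false 12 90 [3] [1],
  .bok false 12 90 [81] [1],
  .bok false 12 90 [243] [1],
  .leib 1 13 89 [9] [1],
  .leib 1 13 89 [27] [1],
  .leib 1 13 89 [81] [1],
  .leib 3 12 87 [243] [1],
  .leib 3 12 87 [729] [1],
  .leib 5 12 83 [9] [1],
  .leib 1 17 89 [9] [1],
  .leib 1 17 89 [9] [3],
  .leib 1 17 89 [9] [9],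
  .leib 1 17 89 [9] [27],
  .leib 1 17 89 [9] [81],
  .leib 1 17 89 [9] [243],
  .leib 1 17 89 [9] [729],
  .leib 2 16 89 [9] [3],
  .leib 2 16 89 [9] [9],
  .leib 2 16 89 [9] [27],
  .leib 3 16 87 [27] [1],
  .leib 3 16 87 [27] [3],
  .leib 3 16 87 [27] [9],
  .leib 3 16 87 [27] [27],
  .leib 3 16 87 [27] [81],
  .leib 3 16 87 [27] [243],
  .leib 3 16 87 [27] [729],
  .leib 4 15 87 [9] [3],
  .leib 4 15 87 [9] [9],
  .leib 4 15 87 [9] [27],
  .leib 4 15 87 [27] [3],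
  .leib 4 15 87 [27] [9],
  .leib 4 15 87 [27] [27],
  .leib 4 15 87 [81] [3],
  .leib 4 15 87 [81] [9],
  .leib 4 15 87 [81] [27],
  .bok false 17 90 [1] [3],
  .bok false 17 90 [1] [9],
  .bok false 17 90 [243] [3],
  .bok false 17 90 [243] [9],
  .leib 1 18 89 [243] [3],
  .leib 3 17 87 [81] [3],
  .leib 3 17 87 [81] [9],
  .leib 3 17 87 [243] [3],
  .leib 3 17 87 [243] [9],
  .leib 1 7 90 [243] [1],
  .leib 1 7 90 [243] [3],
  .leib 1 7 90 [243] [9],
  .leib 1 7 90 [243] [27],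
  .leib 1 7 90 [243] [81],
  .leib 1 7 90 [729] [1],
  .leib 1 7 90 [729] [3],
  .leib 1 7 90 [729] [9],
  .leib 1 7 90 [729] [27],
  .leib 1 7 90 [729] [81],
  .leib 3 6 88 [243] [1],
  .leib 3 6 88 [243] [3],
  .leib 3 6 88 [243] [9],
  .leib 3 6 88 [243] [27],
  .leib 3 6 88 [243] [81],
  .leib 4 5 88 [3] [1],
  .leib 4 5 88 [3] [3],
  .leib 4 5 88 [3] [9],
  .leib 4 5 88 [3] [27],
  .leib 4 5 88 [3] [81],
  .leib 4 5 88 [9] [1],
  .leib 4 5 88 [9] [3],
  .leib 4 5 88 [9] [9],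
  .leib 4 5 88 [9] [27],
  .leib 4 5 88 [9] [81],
  .leib 5 6 84 [243] [1],
  .leib 5 6 84 [243] [3],
  .leib 5 6 84 [243] [9],
  .leib 5 6 84 [243] [27],
  .leib 5 6 84 [243] [81],
  .leib 6 5 84 [27] [1],
  .leib 6 5 84 [27] [3],
  .leib 6 5 84 [27] [9],
  .leib 9 6 76 [9] [27],
  .leib 9 6 76 [9] [81],
  .bok false 7 91 [1] [1],
  .bok false 7 91 [1] [3],
  .bok false 7 91 [1] [9],
  .bok false 7 91 [1] [27],
  .bok false 7 91 [1] [81],
  .bok false 7 91 [3] [1],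
  .bok false 7 91 [3] [3],
  .bok false 7 91 [3] [9],
  .bok false 7 91 [3] [27],
  .bok false 7 91 [9] [1],
  .bok false 7 91 [9] [3],
  .bok false 7 91 [9] [9],
  .bok false 7 91 [9] [27],
  .bok false 7 91 [27] [1],
  .bok false 7 91 [27] [3],
  .bok false 7 91 [27] [9],
  .bok false 7 91 [27] [27],
  .bok false 7 91 [243] [1],
  .bok false 7 91 [243] [3],
  .bok false 7 91 [243] [9],
  .bok false 7 91 [243] [27],
  .leib 1 8 90 [9] [1],
  .leib 1 8 90 [9] [3],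
  .leib 1 8 90 [9] [9],
  .leib 1 8 90 [9] [27],
  .leib 1 8 90 [9] [81],
  .leib 1 8 90 [27] [1],
  .leib 1 8 90 [27] [3],
  .leib 1 8 90 [27] [9],
  .leib 1 8 90 [27] [27],
  .leib 1 8 90 [81] [1],
  .leib 1 8 90 [81] [3],
  .leib 1 8 90 [81] [9],
  .leib 1 8 90 [81] [27],
  .leib 3 7 88 [81] [1],
  .leib 3 7 88 [81] [3],
  .leib 3 7 88 [81] [9],
  .leib 3 7 88 [81] [27],
  .leib 3 7 88 [243] [1],
  .leib 3 7 88 [243] [3],
  .leib 3 7 88 [243] [9],
  .leib 3 7 88 [243] [27],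
  .bok false 8 91 [1] [1],
  .bok false 8 91 [1] [3],
  .bok false 8 91 [1] [9],
  .bok false 8 91 [1] [27],
  .bok false 8 91 [1] [81],
  .bok false 8 91 [1] [243],
  .bok false 8 91 [9] [1],
  .bok false 8 91 [9] [9],
  .bok false 8 91 [9] [27],
  .bok false 8 91 [9] [81],
  .bok false 8 91 [9] [243],
  .bok false 8 91 [27] [1],
  .bok false 8 91 [27] [9],
  .bok false 8 91 [27] [27],
  .bok false 8 91 [27] [81],
  .bok false 8 91 [27] [243],
  .bok false 8 91 [243] [1],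
  .bok false 8 91 [243] [9],
  .bok false 8 91 [243] [27],
  .bok false 8 91 [243] [81],
  .bok false 8 91 [243] [243],
  .bok false 8 91 [729] [1],
  .bok false 8 91 [729] [9],
  .bok false 8 91 [729] [27],
  .bok false 8 91 [729] [81],
  .bok false 8 91 [729] [243],
  .leib 1 9 90 [3] [1],
  .leib 1 9 90 [3] [3],
  .leib 1 9 90 [3] [9],
  .leib 1 9 90 [3] [27],
  .leib 1 9 90 [3] [81],
  .leib 1 9 90 [3] [243],
  .leib 1 9 90 [9] [1],
  .leib 1 9 90 [9] [9],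
  .leib 1 9 90 [9] [27],
  .leib 1 9 90 [9] [81],
  .leib 1 9 90 [9] [243],
  .bok false 9 91 [1] [1],
  .bok false 9 91 [1] [3],
  .bok false 9 91 [1] [9],
  .bok false 9 91 [1] [27],
  .bok false 9 91 [1] [81],
  .bok false 9 91 [1] [243],
  .bok false 9 91 [81] [1],
  .bok false 9 91 [81] [3],
  .bok false 9 91 [81] [9],
  .bok false 9 91 [81] [27],
  .leib 1 10 90 [729] [3],
  .leib 1 10 90 [729] [9],
  .leib 1 10 90 [729] [27],
  .leib 1 10 90 [729] [81],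
  .leib 1 10 90 [729] [243],
  .leib 3 9 88 [81] [1],
  .leib 3 9 88 [81] [3],
  .leib 3 9 88 [81] [9],
  .leib 3 9 88 [81] [27],
  .leib 3 9 88 [81] [81],
  .leib 3 9 88 [81] [243],
  .leib 5 9 84 [243] [81],
  .leib 5 9 84 [243] [243],
  .leib 1 18 90 [27] [243],
  .leib 2 17 90 [9] [243],
  .leib 2 17 90 [27] [243],
  .leib 2 17 90 [81] [243],
  .leib 3 17 88 [3] [243],
  .leib 3 17 88 [9] [243],
  .leib 4 16 88 [729] [243],
  .leib 1 19 90 [81] [27],
  .leib 1 19 90 [81] [81],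
  .leib 1 19 90 [243] [27],
  .leib 1 19 90 [243] [81],
  .leib 2 18 90 [27] [27],
  .leib 2 18 90 [27] [81],
  .leib 4 17 88 [3] [27],
  .leib 4 17 88 [3] [81],
  .leib 4 17 88 [9] [27],
  .leib 4 17 88 [9] [81],
  .leib 4 17 88 [27] [27],
  .leib 4 17 88 [27] [81],
  .leib 1 18 91 [729] [81],
  .leib 4 16 89 [9] [81],
  .bok false 18 92 [3] [81],
  .bok false 18 92 [3] [243],
  .leib 1 19 91 [3] [81],
  .leib 1 19 91 [3] [243],
  .leib 1 19 91 [9] [81],
  .leib 1 19 91 [9] [243],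
  .leib 1 19 91 [27] [81],
  .leib 1 19 91 [27] [243],
  .leib 6 17 85 [27] [81],
  .leib 6 17 85 [27] [243],
  .leib 1 19 92 [9] [3],
  .leib 1 19 92 [9] [9],
  .leib 1 19 92 [9] [27],
  .leib 3 18 90 [27] [3],
  .leib 3 18 90 [27] [9],
  .leib 3 18 90 [27] [27],
  .leib 4 17 90 [3] [3],
  .leib 4 17 90 [3] [9],
  .leib 4 17 90 [3] [27],
  .leib 4 17 90 [9] [3],
  .leib 4 17 90 [9] [9],
  .leib 4 17 90 [9] [27],
  .leib 4 17 90 [27] [3],
  .leib 4 17 90 [27] [9],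
  .leib 4 17 90 [27] [27],
  .leib 4 17 90 [81] [3],
  .leib 4 17 90 [81] [9],
  .leib 4 17 90 [81] [27],
  .dd false false 1 81 [3] [1],
  .dd false false 1 81 [3] [3],
  .dd false false 4 82 [3] [729],
  .dd false false 5 82 [1] [6561],
  .dd false false 5 82 [3] [6561],
  .dd false false 5 82 [9] [6561],
  .dd false false 7 83 [27] [243],
  .dd false false 7 83 [27] [729],
  .dd false false 9 83 [27] [81],
  .dd false false 12 84 [3] [9],
  .bok false 13 84 [9] [1],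
  .bok false 13 84 [27] [1],
  .bok false 13 84 [81] [1],
  .perm 0 1 1 [] 1,
  .pbok 0 1 1 1,
  .pact (.gen 0) 1 1 1 1 1,
  .pact (.gen 0) 1 1 2 1 3,
  .pact (.gen 0) 1 1 3 3 1,
  .pact (.gen 0) 1 1 4 1 1,
  .pact (.gen 0) 1 1 5 1 1,
  .pact (.gen 0) 1 1 6 1 3,
  .pact (.gen 0) 1 1 7 3 1,
  .pact (.gen 0) 1 1 8 1 3,
  .pact (.gen 0) 1 1 9 3 3,
  .pact (.gen 0) 1 1 10 3 3,
  .pact (.gen 0) 1 1 11 3 1,
  .pact (.gen 0) 1 1 12 1 1,
  .pact (.gen 0) 1 1 13 1 1,
  .pact (.gen 0) 1 1 14 1 3,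
  .pact (.gen 0) 1 1 15 3 1,
  .pact (.gen 0) 1 1 16 1 1,
  .pact (.gen 0) 1 1 17 1 1]
 (Pf.cases [2496002]
 (steps [.seed9 (.gen 7) [2] 1]
 Pf.done)
 Pf.done
 (steps [.ne true 5 19 1 1]
 Pf.done)
 (cfacts [3744004]
  [])
 (steps [.dd true false 1 27 [5] [1],
  .dd true false 2 52 [1] [1],
  .dd true false 3 55 [1] [1],
  .dd true false 3 55 [1] [3],
  .dd true false 4 55 [1] [1],
  .dd true false 4 55 [3] [1],
  .dd true false 4 55 [9] [1],
  .dd true false 6 60 [16] [1],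
  .dd true false 6 60 [16] [3],
  .dd true false 4 61 [5] [1],
  .dd true false 5 64 [3] [1],
  .dd true false 5 64 [3] [3],
  .dd true false 6 64 [31] [27],
  .dd false true 5 63 [12] [1],
  .dd false true 5 63 [84] [1],
  .dd true false 7 67 [1] [1],
  .dd true false 7 67 [1] [3],
  .dd true false 8 67 [4] [1],
  .dd false true 3 66 [1] [135],
  .dd true false 9 70 [1] [1],
  .dd true false 9 70 [1] [3],
  .dd false true 4 69 [1] [29],
  .dd false true 4 69 [3] [29],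
  .dd true false 10 70 [4] [1],
  .dd false true 6 72 [1] [29],
  .dd false true 6 72 [3] [29],
  .dd false true 6 72 [27] [29],
  .dd true false 5 77 [135] [1],
  .dd true false 5 77 [135] [3],
  .dd true false 5 77 [135] [9],
  .dd true false 6 77 [10] [1],
  .dd true false 4 79 [1] [3],
  .dd true false 4 79 [1] [81],
  .dd true false 4 79 [3] [3],
  .dd true false 4 79 [3] [81],
  .dd true false 5 79 [9] [9],
  .dd true false 5 79 [9] [27],
  .dd true false 7 80 [27] [1],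
  .dd true false 7 80 [27] [3],
  .dd true false 7 80 [27] [9],
  .dd true false 7 80 [81] [1],
  .dd true false 7 80 [81] [3],
  .dd true false 7 80 [81] [9],
  .dd true false 8 80 [5] [1],
  .dd true false 5 82 [1] [1],
  .dd true false 5 82 [1] [81],
  .dd true false 5 82 [15] [1],
  .dd true false 5 82 [15] [81],
  .dd true false 5 82 [30] [1],
  .dd true false 5 82 [30] [81],
  .dd true false 6 82 [1] [3],
  .dd true false 6 82 [1] [27],
  .dd true false 6 82 [12] [3],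
  .dd false true 1 81 [1] [5],
  .dd false true 1 81 [1] [29],
  .dd false true 1 81 [1] [262],
  .dd true false 7 82 [3] [9],
  .dd false true 2 81 [1] [81],
  .dd false true 2 81 [27] [81],
  .dd false true 2 81 [3] [81],
  .dd true false 9 83 [81] [1],
  .dd true false 9 83 [81] [3],
  .dd true false 9 83 [81] [9],
  .dd true false 10 83 [28] [1],
  .dd false true 5 82 [3] [9],
  .dd true false 7 85 [3] [1],
  .dd true false 7 85 [3] [81],
  .dd true false 7 85 [136] [1],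
  .dd true false 7 85 [136] [81],
  .dd true false 7 85 [316] [1],
  .dd true false 7 85 [316] [81],
  .dd false true 3 84 [1] [3],
  .dd true false 11 86 [9] [1],
  .dd true false 11 86 [9] [3],
  .dd true false 11 86 [9] [9],
  .dd false true 6 85 [3] [12],
  .dd false true 6 85 [9] [12],
  .dd false true 7 85 [9] [3],
  .dd false true 9 88 [1] [3],
  .dd false true 9 88 [3] [3],
  .dd false true 10 91 [3] [51],
  .dd false true 10 91 [9] [51],
  .mrec 15 true (.neg (.gen 0)) [] [],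
  .mrec 17 true (.neg (.gen 1)) [] [],
  .mrec 18 true (.gen 7) [] [],
  .mrec 19 true (.gen 2) [] [],
  .mrec 23 true (.neg (.mul (.gen 0) (.bok (.gen 4)))) [([2099715], (.mul (.gen 1) (.mul (.gen 7) (.mul (.gen 7) (.mul (.gen 7) (.mul (.gen 7) (.gen 7)))))))] [],
  .mrec 29 true (.gen 6) [([2754051], (.mul (.gen 7) (.mul (.gen 7) (.mul (.gen 7) (.mul (.bok (.gen 2)) (.bok (.gen 2)))))))] [],
  .bok true 2 16 [1] [1],
  .leib 17 3 16 [1] [1],
  .bok true 4 19 [1] [1],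
  .leib 17 1 31 [1] [1],
  .leib 19 1 27 [5] [1],
  .bok true 2 34 [1] [27],
  .bok true 2 34 [3] [27],
  .leib 17 2 31 [1] [27],
  .bok true 3 37 [3] [1],
  .leib 17 3 34 [1] [1],
  .leib 17 3 34 [3] [1],
  .leib 23 2 21 [3] [1],
  .bok true 4 37 [1] [27],
  .bok true 4 37 [3] [27],
  .leib 17 4 34 [4] [27],
  .leib 17 5 37 [1] [1],
  .leib 17 5 37 [3] [1],
  .bok true 6 40 [1] [27],
  .bok true 6 40 [3] [27],
  .bok true 6 40 [27] [27],
  .leib 17 6 37 [5] [27],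
  .leib 29 1 31 [1] [1],
  .leib 29 1 31 [1] [3],
  .bok true 2 52 [1] [3],
  .bok true 3 55 [1] [1],
  .leib 15 4 54 [17] [1],
  .leib 17 3 52 [1] [1],
  .bok true 4 55 [1] [3],
  .bok true 4 55 [3] [3],
  .bok true 4 55 [9] [3],
  .leib 17 4 52 [1] [3],
  .leib 17 5 55 [1] [1],
  .leib 17 5 55 [1] [3],
  .leib 17 5 55 [3] [1],
  .leib 17 5 55 [3] [3],
  .bok true 6 58 [1] [3],
  .bok true 6 58 [27] [3],
  .leib 17 6 55 [1] [3],
  .bok true 3 61 [1] [9],
  .leib 17 7 58 [1] [1],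
  .leib 17 7 58 [1] [3],
  .leib 17 7 58 [12] [1],
  .leib 17 7 58 [12] [3],
  .leib 29 7 40 [3] [1],
  .bok true 8 61 [1] [3],
  .bok true 8 61 [9] [3],
  .leib 17 4 61 [5] [29],
  .bok true 5 64 [3] [10],
  .leib 17 9 61 [1] [1],
  .leib 17 9 61 [12] [1],
  .leib 17 9 61 [30] [1],
  .leib 19 9 57 [45] [1],
  .leib 19 9 57 [101] [1],
  .leib 17 6 64 [31] [28],
  .leib 19 6 60 [16] [28],
  .bok true 7 67 [1] [135],
  .leib 17 8 67 [4] [29],
  .bok true 9 70 [1] [135],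
  .leib 17 10 70 [4] [29],
  .leib 23 9 57 [45] [29],
  .leib 15 4 78 [9] [29],
  .leib 15 4 78 [9] [88],
  .leib 15 4 78 [9] [734],
  .bok true 4 79 [1] [50],
  .bok true 4 79 [1] [266],
  .bok true 4 79 [1] [2187],
  .bok true 4 79 [3] [50],
  .bok true 4 79 [3] [266],
  .bok true 4 79 [3] [2187],
  .leib 15 5 78 [137] [50],
  .leib 15 5 78 [137] [266],
  .leib 15 5 78 [137] [2187],
  .leib 15 7 79 [945] [48],
  .leib 17 6 77 [10] [48],
  .leib 18 5 77 [135] [48],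
  .bok true 7 80 [27] [3],
  .bok true 7 80 [81] [3],
  .bok true 4 82 [3] [1],
  .leib 17 4 79 [1] [1],
  .leib 29 4 61 [5] [1],
  .bok true 5 82 [1] [5],
  .bok true 5 82 [1] [29],
  .bok true 5 82 [1] [262],
  .bok true 5 82 [15] [5],
  .bok true 5 82 [15] [29],
  .bok true 5 82 [15] [262],
  .bok true 5 82 [30] [5],
  .leib 17 5 79 [9] [5],
  .leib 17 5 79 [9] [29],
  .leib 17 5 79 [9] [262],
  .bok true 6 82 [1] [81],
  .leib 17 8 80 [5] [9],
  .bok true 9 83 [81] [9],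
  .bok true 6 85 [39] [1],
  .bok true 6 85 [81] [1],
  .bok true 6 85 [741] [1],
  .leib 17 6 82 [1] [1],
  .leib 17 6 82 [12] [1],
  .leib 19 6 78 [100] [1],
  .bok true 7 85 [3] [3],
  .bok true 7 85 [136] [3],
  .bok true 7 85 [316] [3],
  .leib 17 7 82 [3] [3],
  .leib 17 10 83 [28] [12],
  .bok true 11 86 [9] [3],
  .leib 18 12 86 [3] [3],
  .leib 17 14 89 [1] [51],
  .leib 23 13 76 [9] [51],
  .zcov false 5 63 3 [6, 3] 110,
  .zcov false 1 81 3 [2, 6, 577] 5,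
  .dd true false 4 79 [1] [9],
  .leib 23 6 69 [250] [3],
  .zcov false 1 81 3 [2, 6, 11, 59] 244,
  .goal1 [2],
  .im 5 28 7 1 [],
  .im 9 29 2 1 [],
  .cl 14 30 9 [] [(false, 0, [([1], 2)])],
  .perm 1 27 5 [([3540515, 3540482], 7)] 1,
  .goal3 2 5,
  .im 5 82 378 3 [],
  .cl 10 83 5 [2, 18, 1458, 13122, 19] [(false, 0, [([1], 378)])],
  .im 9 83 1458 243 [],
  .im 9 83 495 1 [],
  .im 9 83 45 3 [([10888238], 1458)],
  .im 9 83 138 27 [([10888302], 1458)],
  .cl 14 84 5 [2, 162] [(false, 0, [([1], 1458)]), (false, 0, [([0], 495), ([0], 45)]), (false, 0, [([0], 495)]), (false, 0, [([0], 495), ([0], 45), ([0], 138)]), (true, 2, [([10753544, 10753542, 10753540], 495), ([10753551], 1458), ([10753544, 10753540], 45), ([10753540], 138)])],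
  .im 13 84 4374 1 [],
  .im 13 84 4514 9 [],
  .im 13 84 2 27 [],
  .im 13 84 6326 81 [([9050163, 9050161], 2)],
  .cl 18 85 9 [2, 6, 18] [(false, 0, [([1], 4374)]), (false, 0, [([1], 4374), ([1], 4514), ([1], 2), ([1], 6326)]), (true, 162, [([10888849, 10888841, 10888836], 4374), ([10888841], 4514), ([10888841, 10888836, 10888835], 2), ([10888841, 10888837], 6326)]), (false, 0, [([0], 4374), ([0], 2), ([1], 6326)]), (false, 0, [([1], 2)])],
  .im 17 85 45 3 [],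
  .im 17 85 51 27 [],
  .cl 22 86 17 [2, 18] [(false, 0, [([1], 45)]), (false, 0, [([0], 45), ([1], 51)])],
  .im 21 86 4 1 [],
  .cl 26 87 21 [2, 18, 54] [(false, 0, [([0], 4)])],
  .perm 5 82 0 [] 3,
  .perm 5 82 16 [([10753609, 10753607, 10753605, 10753576, 10753574, 10753572, 10753545, 10753543, 10753541], 495), ([10753614, 10753583, 10753550], 1458), ([10753609, 10753605, 10753576, 10753572, 10753545, 10753541], 45), ([10753605, 10753572, 10753541], 138)] 3,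
  .perm 5 82 23 [([10753608, 10753606, 10753604, 10753577, 10753575, 10753573, 10753544, 10753542, 10753540], 495), ([10753615, 10753582, 10753551], 1458), ([10753608, 10753604, 10753577, 10753573, 10753544, 10753540], 45), ([10753604, 10753573, 10753540], 138)] 3]
 (Pf.cases [10617890]
 (Pf.cases [10617898]
 (steps [.goalA 3 3 0 5]
 Pf.done)
 (steps [.goalA 3 4 0 5]
 Pf.done)
 (steps [.goalA 3 7 0 5]
 Pf.done)
 (cfacts []
  [.goal 7])
 Pf.done)
 (Pf.cases [10617898]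
 (steps [.goalA 3 4 16 5]
 Pf.done)
 (steps [.goalA 3 7 23 5]
 Pf.done)
 (steps [.goalA 3 3 16 5]
 Pf.done)
 (cfacts []
  [.goal 7])
 Pf.done)
 (Pf.cases [10617898]
 (steps [.goalA 3 7 16 5]
 Pf.done)
 (steps [.goalA 3 3 23 5]
 Pf.done)
 (steps [.goalA 3 4 23 5]
 Pf.done)
 (cfacts []
  [.goal 7])
 Pf.done)
 (cfacts []
  [.goal 7])
 Pf.done))))

theorem cchk11 : (ofTab P236Q.tauF).chunk
    (cin ++ (cex0 ++ (cex1 ++ (cex2 ++ (cex3 ++ (cex4 ++ (cex5 ++ (cex6 ++ (cex7 ++ (cex8 ++ (cex9 ++ cex10)))))))))))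
    cpf11 cex11 = true := by
  decide +kernel

end Vale.Agent.P236E
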