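import Vale.Agent.P236Et.Ex
import Vale.Agent.P236Qt.TauF

/-!
# P236, block ENG: part 2 of the certificate
-/

namespace Vale.Agent.P236E

set_option maxRecDepth 100000

noncomputable def cpf2 : Pf :=
 (steps [.leib 3 12 63 [243] [3],
  .bok false 13 66 [1] [1],
  .bok false 13 66 [1] [3],
  .bok false 13 66 [9] [1],
  .bok false 13 66 [9] [3],
  .bok false 13 66 [27] [1],
  .bok false 13 66 [27] [3],
  .leib 1 14 65 [3] [1],
  .leib 1 14 65 [3] [3],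
  .leib 3 13 63 [9] [1],
  .leib 3 13 63 [9] [3],
  .leib 3 13 63 [27] [1],
  .leib 3 13 63 [27] [3],
  .leib 3 13 63 [81] [1],
  .leib 3 13 63 [81] [3],
  .leib 1 15 65 [1] [1],
  .leib 1 15 65 [1] [9],
  .leib 1 15 65 [1] [27],
  .leib 2 14 65 [3] [1],
  .leib 2 14 65 [3] [9],
  .leib 2 14 65 [3] [27],
  .leib 4 13 63 [1] [1],
  .leib 4 13 63 [1] [9],
  .leib 4 13 63 [1] [27],
  .leib 4 13 63 [9] [1],
  .leib 4 13 63 [9] [9],
  .leib 4 13 63 [9] [27],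
  .leib 4 13 63 [27] [1],
  .leib 4 13 63 [27] [9],
  .leib 4 13 63 [27] [27],
  .leib 4 13 63 [81] [1],
  .leib 4 13 63 [81] [9],
  .leib 4 13 63 [81] [27],
  .leib 1 3 66 [9] [9],
  .leib 1 3 66 [9] [27],
  .leib 1 3 66 [9] [81],
  .bok false 4 67 [1] [1],
  .bok false 4 67 [1] [3],
  .bok false 4 67 [1] [9],
  .bok false 4 67 [1] [27],
  .bok false 4 67 [3] [1],
  .bok false 4 67 [3] [3],
  .bok false 4 67 [3] [9],
  .bok false 4 67 [3] [27],
  .bok false 4 67 [9] [1],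
  .bok false 4 67 [9] [3],
  .bok false 4 67 [9] [9],
  .bok false 4 67 [9] [27],
  .leib 1 5 66 [1] [9],
  .leib 1 5 66 [1] [27],
  .leib 1 5 66 [3] [1],
  .leib 1 5 66 [3] [3],
  .leib 1 5 66 [3] [9],
  .leib 1 5 66 [3] [27],
  .leib 1 5 66 [9] [1],
  .leib 1 5 66 [9] [3],
  .leib 1 5 66 [9] [9],
  .leib 1 5 66 [9] [27],
  .leib 3 4 64 [3] [1],
  .leib 3 4 64 [3] [3],
  .leib 3 4 64 [3] [9],
  .leib 3 4 64 [3] [27],
  .leib 3 4 64 [9] [1],
  .leib 3 4 64 [9] [3],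
  .leib 3 4 64 [9] [9],
  .leib 3 4 64 [9] [27],
  .bok false 5 67 [3] [1],
  .bok false 5 67 [3] [3],
  .bok false 5 67 [3] [9],
  .bok false 5 67 [3] [27],
  .bok false 5 67 [3] [81],
  .bok false 5 67 [3] [243],
  .bok false 5 67 [3] [729],
  .bok false 5 67 [9] [1],
  .bok false 5 67 [9] [3],
  .bok false 5 67 [9] [9],
  .bok false 5 67 [9] [27],
  .bok false 5 67 [9] [81],
  .bok false 5 67 [9] [243],
  .bok false 5 67 [9] [729],
  .bok false 5 67 [27] [1],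
  .bok false 5 67 [27] [3],
  .bok false 5 67 [27] [9],
  .bok false 5 67 [27] [27],
  .bok false 5 67 [27] [81],
  .bok false 5 67 [27] [243],
  .bok false 5 67 [27] [729],
  .bok false 5 67 [81] [1],
  .bok false 5 67 [81] [3],
  .bok false 5 67 [81] [9],
  .bok false 5 67 [81] [27],
  .bok false 5 67 [81] [81],
  .bok false 5 67 [81] [243],
  .bok false 5 67 [81] [729],
  .leib 1 6 66 [9] [1],
  .leib 1 6 66 [9] [3],
  .leib 1 6 66 [9] [9],
  .leib 1 6 66 [9] [27],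
  .leib 1 6 66 [9] [81],
  .leib 1 6 66 [9] [243],
  .leib 1 6 66 [9] [729],
  .leib 3 5 64 [1] [1],
  .leib 3 5 64 [1] [3],
  .leib 3 5 64 [1] [9],
  .leib 3 5 64 [1] [27],
  .leib 3 5 64 [1] [81],
  .leib 3 5 64 [1] [243],
  .leib 3 5 64 [1] [729],
  .bok false 6 67 [3] [1],
  .bok false 6 67 [3] [3],
  .bok false 6 67 [3] [9],
  .bok false 6 67 [3] [27],
  .bok false 6 67 [9] [1],
  .bok false 6 67 [9] [3],
  .bok false 6 67 [9] [9],
  .bok false 6 67 [9] [27],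
  .leib 1 7 66 [243] [1],
  .leib 1 7 66 [243] [3],
  .leib 1 7 66 [243] [9],
  .leib 1 7 66 [243] [27],
  .leib 5 6 60 [9] [1],
  .leib 5 6 60 [9] [3],
  .leib 5 6 60 [9] [9],
  .leib 5 6 60 [9] [27],
  .bok false 7 67 [1] [1],
  .bok false 7 67 [1] [3],
  .bok false 7 67 [1] [9],
  .leib 1 8 66 [27] [1],
  .leib 1 8 66 [27] [3],
  .leib 1 8 66 [27] [9],
  .leib 1 8 66 [81] [3],
  .leib 1 8 66 [81] [9],
  .leib 3 7 64 [81] [9],
  .leib 5 7 60 [9] [3],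
  .leib 5 7 60 [9] [9],
  .bok false 8 67 [1] [3],
  .bok false 8 67 [1] [9],
  .bok false 8 67 [1] [27],
  .bok false 8 67 [1] [81],
  .bok false 8 67 [3] [3],
  .bok false 8 67 [3] [9],
  .bok false 8 67 [3] [27],
  .bok false 8 67 [3] [81],
  .bok false 8 67 [81] [3],
  .bok false 8 67 [81] [9],
  .bok false 8 67 [81] [27],
  .bok false 8 67 [81] [81],
  .leib 1 9 66 [9] [3],
  .leib 1 9 66 [9] [9],
  .leib 1 9 66 [9] [27],
  .leib 1 9 66 [9] [81],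
  .leib 1 9 66 [27] [3],
  .leib 1 9 66 [27] [9],
  .leib 1 9 66 [27] [27],
  .leib 1 9 66 [27] [81],
  .leib 3 8 64 [9] [3],
  .leib 3 8 64 [9] [9],
  .leib 3 8 64 [9] [27],
  .leib 3 8 64 [9] [81],
  .leib 3 8 64 [27] [3],
  .leib 3 8 64 [27] [9],
  .leib 3 8 64 [27] [27],
  .leib 3 8 64 [27] [81],
  .leib 5 8 60 [27] [81],
  .bok false 9 67 [1] [3],
  .bok false 9 67 [1] [9],
  .bok false 9 67 [1] [27],
  .bok false 9 67 [3] [3],
  .bok false 9 67 [3] [9],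
  .bok false 9 67 [3] [27],
  .bok false 9 67 [9] [3],
  .bok false 9 67 [9] [9],
  .bok false 9 67 [9] [27],
  .bok false 9 67 [81] [3],
  .bok false 9 67 [81] [9],
  .bok false 9 67 [81] [27],
  .leib 1 10 66 [243] [3],
  .leib 1 10 66 [243] [9],
  .leib 1 10 66 [243] [27],
  .leib 1 10 66 [729] [3],
  .leib 1 10 66 [729] [9],
  .leib 1 10 66 [729] [27],
  .leib 1 2 67 [1] [81],
  .leib 1 3 67 [1] [81],
  .leib 1 3 67 [1] [243],
  .leib 1 3 67 [1] [729],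
  .leib 2 2 67 [1] [81],
  .leib 2 2 67 [1] [243],
  .leib 2 2 67 [1] [729],
  .bok false 3 68 [1] [1],
  .bok false 3 68 [1] [3],
  .bok false 3 68 [1] [9],
  .bok false 3 68 [1] [27],
  .bok false 3 68 [1] [81],
  .bok false 3 68 [1] [243],
  .bok false 3 68 [1] [729],
  .bok false 3 68 [1] [2187],
  .bok false 3 68 [3] [1],
  .bok false 3 68 [3] [3],
  .bok false 3 68 [3] [9],
  .bok false 3 68 [3] [27],
  .bok false 3 68 [3] [243],
  .leib 1 6 67 [9] [81],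
  .leib 1 6 67 [81] [3],
  .leib 1 6 67 [81] [81],
  .leib 3 5 65 [81] [3],
  .leib 3 5 65 [81] [81],
  .leib 5 5 61 [3] [81],
  .leib 5 5 61 [9] [81],
  .leib 7 5 59 [1] [3],
  .leib 7 5 59 [9] [3],
  .leib 7 5 59 [9] [81],
  .leib 1 7 67 [9] [1],
  .leib 1 7 67 [9] [3],
  .leib 1 7 67 [9] [9],
  .leib 1 7 67 [9] [27],
  .leib 1 7 67 [9] [81],
  .leib 1 7 67 [9] [243],
  .leib 1 7 67 [9] [729],
  .leib 1 7 67 [9] [2187],
  .leib 2 6 67 [81] [1],
  .leib 2 6 67 [81] [3],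
  .leib 2 6 67 [81] [9],
  .leib 2 6 67 [81] [27],
  .leib 2 6 67 [81] [81],
  .leib 3 6 65 [3] [1],
  .leib 3 6 65 [3] [3],
  .leib 3 6 65 [3] [9],
  .leib 3 6 65 [3] [27],
  .leib 3 6 65 [3] [81],
  .leib 3 6 65 [3] [243],
  .leib 3 6 65 [3] [729],
  .leib 3 6 65 [3] [2187],
  .leib 3 6 65 [9] [1],
  .leib 3 6 65 [9] [3],
  .leib 3 6 65 [9] [9],
  .leib 3 6 65 [9] [27],
  .leib 3 6 65 [9] [81],
  .leib 3 6 65 [9] [243],
  .leib 3 6 65 [9] [729],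
  .leib 3 6 65 [9] [2187],
  .leib 3 6 65 [27] [1],
  .leib 3 6 65 [27] [3],
  .leib 3 6 65 [27] [9],
  .leib 3 6 65 [27] [27],
  .leib 3 6 65 [27] [81],
  .leib 3 6 65 [27] [243],
  .leib 3 6 65 [27] [729],
  .leib 3 6 65 [27] [2187],
  .leib 4 5 65 [81] [3],
  .leib 4 5 65 [81] [27],
  .leib 4 5 65 [81] [81],
  .leib 5 6 61 [3] [1],
  .leib 5 6 61 [3] [243],
  .leib 5 6 61 [3] [729],
  .leib 5 6 61 [3] [2187],
  .leib 5 6 61 [9] [243],
  .leib 5 6 61 [9] [729],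
  .leib 5 6 61 [9] [2187],
  .leib 7 6 59 [1] [243],
  .leib 7 6 59 [1] [729],
  .leib 7 6 59 [1] [2187],
  .leib 8 5 59 [1] [729],
  .bok false 7 68 [1] [3],
  .bok false 7 68 [1] [9],
  .bok false 7 68 [1] [27],
  .bok false 7 68 [1] [81],
  .bok false 7 68 [1] [243],
  .bok false 7 68 [1] [729],
  .bok false 7 68 [1] [2187],
  .bok false 7 68 [3] [3],
  .bok false 7 68 [3] [9],
  .bok false 7 68 [3] [27],
  .bok false 7 68 [3] [81],
  .bok false 7 68 [3] [243],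
  .bok false 7 68 [3] [729],
  .bok false 7 68 [9] [9],
  .bok false 7 68 [9] [27],
  .bok false 7 68 [9] [81],
  .bok false 7 68 [9] [243],
  .bok false 7 68 [9] [729],
  .bok false 7 68 [27] [3],
  .bok false 7 68 [27] [9],
  .bok false 7 68 [243] [3],
  .bok false 7 68 [243] [9],
  .leib 3 7 65 [1] [1],
  .leib 3 7 65 [1] [3],
  .leib 3 7 65 [1] [9],
  .leib 3 7 65 [1] [27],
  .leib 3 7 65 [1] [81],
  .leib 3 7 65 [1] [243],
  .leib 3 7 65 [1] [729],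
  .leib 3 7 65 [1] [2187],
  .leib 4 6 65 [3] [2187],
  .leib 9 7 53 [3] [2187],
  .bok false 8 68 [1] [3],
  .bok false 8 68 [1] [9],
  .bok false 8 68 [1] [27],
  .leib 1 10 67 [9] [1],
  .leib 1 10 67 [9] [3],
  .leib 1 10 67 [9] [9],
  .leib 1 10 67 [9] [27],
  .leib 1 10 67 [27] [1],
  .leib 1 10 67 [27] [3],
  .leib 1 10 67 [27] [9],
  .leib 1 10 67 [27] [27],
  .leib 3 9 65 [81] [1],
  .leib 3 9 65 [81] [3],
  .leib 3 9 65 [81] [9],
  .leib 3 9 65 [81] [27],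
  .leib 3 9 65 [243] [1],
  .leib 3 9 65 [243] [3],
  .leib 3 9 65 [243] [9],
  .leib 3 9 65 [243] [27],
  .leib 5 9 61 [27] [9],
  .leib 5 9 61 [27] [27],
  .bok false 10 68 [1] [1],
  .bok false 10 68 [1] [3],
  .bok false 10 68 [1] [27],
  .bok false 10 68 [1] [81],
  .bok false 10 68 [1] [243],
  .bok false 10 68 [3] [1],
  .bok false 10 68 [3] [3],
  .bok false 10 68 [3] [27],
  .bok false 10 68 [3] [81],
  .bok false 10 68 [3] [243],
  .bok false 10 68 [9] [1],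
  .bok false 10 68 [9] [3],
  .bok false 10 68 [9] [27],
  .bok false 10 68 [9] [81],
  .bok false 10 68 [9] [243],
  .bok false 10 68 [27] [1],
  .bok false 10 68 [27] [3],
  .bok false 10 68 [27] [27],
  .bok false 10 68 [27] [81],
  .leib 3 10 65 [3] [1],
  .leib 3 10 65 [3] [3],
  .leib 3 10 65 [3] [27],
  .leib 3 10 65 [3] [81],
  .leib 3 10 65 [3] [243],
  .leib 3 10 65 [9] [1],
  .leib 3 10 65 [9] [3],
  .leib 3 10 65 [9] [27],
  .leib 3 10 65 [9] [81],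
  .leib 3 10 65 [9] [243],
  .leib 3 10 65 [27] [1],
  .leib 3 10 65 [27] [3],
  .leib 3 10 65 [27] [27],
  .leib 3 10 65 [27] [81],
  .leib 5 10 61 [3] [3],
  .bok false 11 68 [1] [9],
  .bok false 11 68 [1] [27],
  .bok false 11 68 [1] [81],
  .bok false 11 68 [3] [9],
  .bok false 11 68 [3] [27],
  .bok false 11 68 [3] [81],
  .bok false 11 68 [9] [9],
  .bok false 11 68 [9] [27],
  .bok false 11 68 [9] [81],
  .leib 3 11 65 [1] [1],
  .leib 3 11 65 [1] [3],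
  .leib 3 11 65 [1] [9],
  .leib 3 11 65 [1] [27],
  .leib 3 11 65 [1] [81],
  .bok false 12 68 [1] [1],
  .bok false 12 68 [1] [9],
  .leib 1 13 67 [27] [1],
  .leib 1 13 67 [27] [9],
  .leib 1 13 67 [81] [1],
  .leib 1 13 67 [81] [9],
  .bok false 13 68 [1] [1],
  .bok false 13 68 [1] [3],
  .bok false 13 68 [9] [1],
  .bok false 13 68 [9] [3],
  .leib 1 14 67 [3] [1],
  .leib 1 14 67 [3] [3],
  .leib 3 13 65 [9] [1],
  .leib 3 13 65 [9] [3],
  .leib 3 13 65 [27] [1],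
  .leib 3 13 65 [27] [3],
  .bok false 14 68 [3] [9],
  .bok false 14 68 [9] [9],
  .bok false 14 68 [81] [9],
  .leib 3 14 65 [3] [1],
  .leib 3 14 65 [3] [3],
  .leib 3 14 65 [3] [9],
  .bok false 15 68 [1] [9],
  .leib 1 2 68 [1] [3],
  .leib 1 2 68 [1] [9],
  .leib 1 2 68 [1] [27],
  .leib 1 2 68 [1] [81],
  .leib 1 2 68 [1] [243],
  .leib 1 2 68 [1] [729],
  .leib 1 2 68 [1] [2187],
  .leib 1 2 68 [1] [6561],
  .bok false 2 69 [1] [1],
  .bok false 2 69 [1] [3],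
  .bok false 2 69 [1] [9],
  .bok false 2 69 [1] [27],
  .bok false 2 69 [1] [81],
  .bok false 2 69 [1] [243],
  .bok false 2 69 [3] [1],
  .bok false 2 69 [3] [3],
  .bok false 2 69 [3] [27],
  .bok false 2 69 [3] [81],
  .bok false 2 69 [9] [1],
  .bok false 2 69 [9] [3],
  .bok false 2 69 [9] [27],
  .bok false 2 69 [9] [729],
  .bok false 2 69 [9] [2187],
  .leib 1 3 68 [1] [1],
  .leib 1 3 68 [1] [3],
  .leib 1 3 68 [1] [27],
  .leib 1 3 68 [1] [729],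
  .leib 1 3 68 [1] [2187],
  .leib 1 3 68 [3] [729],
  .leib 2 2 68 [1] [729],
  .leib 7 2 60 [1] [1],
  .leib 7 2 60 [1] [3],
  .leib 7 2 60 [1] [9],
  .leib 7 2 60 [1] [27],
  .leib 7 2 60 [1] [81],
  .leib 7 2 60 [1] [243],
  .leib 7 2 60 [3] [1],
  .leib 7 2 60 [3] [3],
  .leib 7 2 60 [3] [27],
  .leib 7 2 60 [3] [729],
  .leib 7 2 60 [3] [2187],
  .leib 1 4 68 [1] [1],
  .leib 1 4 68 [1] [3],
  .leib 1 4 68 [1] [9],
  .leib 1 4 68 [1] [27],
  .leib 1 4 68 [1] [81],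
  .leib 2 3 68 [1] [1],
  .leib 2 3 68 [1] [3],
  .leib 2 3 68 [1] [9],
  .leib 2 3 68 [3] [1],
  .leib 2 3 68 [3] [3],
  .leib 2 3 68 [3] [9],
  .leib 5 3 62 [3] [27],
  .leib 5 3 62 [3] [81],
  .leib 7 3 60 [3] [1],
  .leib 7 3 60 [3] [3],
  .leib 7 3 60 [3] [9],
  .leib 7 3 60 [3] [27],
  .leib 7 3 60 [3] [81],
  .leib 7 3 60 [9] [1],
  .leib 7 3 60 [9] [3],
  .leib 7 3 60 [9] [9],
  .leib 7 3 60 [9] [27],
  .leib 7 3 60 [9] [81],
  .leib 8 2 60 [1] [1],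
  .leib 8 2 60 [1] [3],
  .leib 8 2 60 [1] [9],
  .bok false 4 69 [1] [1],
  .bok false 4 69 [1] [3],
  .bok false 4 69 [1] [9],
  .bok false 4 69 [1] [27],
  .bok false 4 69 [1] [81],
  .bok false 4 69 [1] [243],
  .bok false 4 69 [9] [1],
  .bok false 4 69 [9] [3],
  .bok false 4 69 [9] [9],
  .bok false 4 69 [9] [27],
  .bok false 4 69 [9] [81],
  .bok false 4 69 [9] [243],
  .bok false 4 69 [27] [1],
  .bok false 4 69 [27] [3],
  .bok false 4 69 [27] [9],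
  .bok false 4 69 [81] [1],
  .bok false 4 69 [81] [9],
  .bok false 4 69 [729] [1],
  .bok false 4 69 [729] [9],
  .leib 3 4 66 [9] [1],
  .leib 3 4 66 [9] [3],
  .leib 3 4 66 [9] [9],
  .leib 3 4 66 [9] [27],
  .leib 3 4 66 [9] [81],
  .leib 3 4 66 [9] [243],
  .leib 5 4 62 [1] [1],
  .leib 5 4 62 [1] [3],
  .leib 5 4 62 [1] [9],
  .leib 5 4 62 [1] [27],
  .leib 5 4 62 [1] [81],
  .leib 5 4 62 [1] [243],
  .leib 5 4 62 [3] [1],
  .leib 5 4 62 [3] [3],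
  .leib 5 4 62 [3] [9],
  .leib 5 4 62 [3] [27],
  .leib 5 4 62 [3] [81],
  .leib 5 4 62 [3] [243],
  .bok false 5 69 [1] [1],
  .bok false 5 69 [1] [3],
  .bok false 5 69 [1] [9],
  .bok false 5 69 [1] [27],
  .bok false 5 69 [1] [81],
  .bok false 5 69 [1] [243],
  .bok false 5 69 [1] [729],
  .bok false 5 69 [1] [2187],
  .bok false 5 69 [1] [6561],
  .bok false 5 69 [3] [1],
  .bok false 5 69 [3] [3],
  .bok false 5 69 [3] [9],
  .bok false 5 69 [3] [27],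
  .bok false 5 69 [3] [81],
  .bok false 5 69 [3] [243],
  .bok false 5 69 [3] [729],
  .bok false 5 69 [9] [1],
  .bok false 5 69 [9] [3],
  .bok false 5 69 [9] [9],
  .bok false 5 69 [9] [27],
  .bok false 5 69 [9] [81],
  .bok false 5 69 [9] [243],
  .bok false 5 69 [9] [729],
  .bok false 5 69 [9] [2187],
  .bok false 5 69 [9] [6561],
  .bok false 5 69 [81] [1],
  .bok false 5 69 [81] [3],
  .bok false 5 69 [81] [9],
  .bok false 5 69 [81] [27],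
  .bok false 5 69 [81] [81],
  .bok false 5 69 [81] [243],
  .bok false 5 69 [81] [729],
  .bok false 5 69 [81] [2187],
  .bok false 5 69 [81] [6561],
  .leib 3 5 66 [1] [2187],
  .leib 3 5 66 [1] [6561],
  .leib 3 5 66 [3] [1],
  .leib 3 5 66 [3] [3],
  .leib 3 5 66 [3] [9],
  .leib 3 5 66 [3] [27],
  .leib 3 5 66 [3] [81],
  .leib 3 5 66 [3] [243],
  .leib 3 5 66 [3] [729],
  .leib 3 5 66 [3] [2187],
  .leib 3 5 66 [3] [6561],
  .leib 3 5 66 [9] [1],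
  .leib 3 5 66 [9] [3],
  .leib 3 5 66 [9] [9],
  .leib 3 5 66 [9] [27],
  .leib 3 5 66 [9] [81],
  .leib 3 5 66 [9] [243],
  .leib 3 5 66 [9] [729],
  .leib 3 5 66 [9] [2187],
  .leib 3 5 66 [9] [6561],
  .bok false 6 69 [1] [1],
  .bok false 6 69 [1] [3],
  .bok false 6 69 [1] [9],
  .bok false 6 69 [1] [27],
  .bok false 6 69 [1] [81],
  .bok false 6 69 [1] [243],
  .bok false 6 69 [3] [1],
  .bok false 6 69 [3] [3],
  .bok false 6 69 [3] [9],
  .bok false 6 69 [3] [27],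
  .bok false 6 69 [3] [81],
  .bok false 6 69 [3] [243],
  .bok false 6 69 [9] [1],
  .bok false 6 69 [9] [3],
  .bok false 6 69 [9] [9],
  .bok false 6 69 [9] [27],
  .bok false 6 69 [9] [81],
  .bok false 6 69 [9] [243],
  .leib 1 7 68 [81] [1],
  .leib 1 7 68 [81] [3],
  .leib 1 7 68 [81] [9],
  .leib 1 7 68 [81] [27],
  .leib 1 7 68 [81] [81],
  .leib 1 7 68 [81] [243],
  .leib 7 6 60 [9] [1],
  .leib 7 6 60 [9] [3],
  .leib 7 6 60 [9] [9],
  .leib 7 6 60 [9] [27],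
  .leib 7 6 60 [9] [81],
  .leib 7 6 60 [9] [243],
  .bok false 7 69 [3] [1],
  .bok false 7 69 [3] [3],
  .bok false 7 69 [3] [9],
  .bok false 7 69 [27] [1],
  .bok false 7 69 [27] [3],
  .bok false 7 69 [27] [9],
  .leib 1 8 68 [9] [1],
  .leib 1 8 68 [9] [3],
  .leib 1 8 68 [9] [9],
  .leib 1 8 68 [27] [1],
  .leib 1 8 68 [27] [3],
  .leib 1 8 68 [27] [9],
  .leib 1 8 68 [81] [1],
  .leib 1 8 68 [81] [3],
  .leib 1 8 68 [81] [9],
  .leib 3 7 66 [243] [1],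
  .leib 3 7 66 [243] [3],
  .leib 3 7 66 [243] [9],
  .bok false 8 69 [1] [1],
  .bok false 8 69 [1] [3],
  .bok false 8 69 [1] [9],
  .bok false 8 69 [1] [27],
  .bok false 8 69 [1] [81],
  .bok false 8 69 [1] [243],
  .bok false 8 69 [3] [1],
  .bok false 8 69 [3] [3],
  .bok false 8 69 [3] [9],
  .bok false 8 69 [3] [27],
  .bok false 8 69 [3] [81],
  .bok false 8 69 [3] [243],
  .bok false 8 69 [27] [3],
  .bok false 8 69 [27] [9],
  .bok false 8 69 [27] [27],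
  .bok false 8 69 [81] [1],
  .bok false 8 69 [81] [3],
  .bok false 8 69 [81] [9],
  .bok false 8 69 [81] [27],
  .bok false 8 69 [81] [81],
  .bok false 8 69 [81] [243],
  .bok false 8 69 [729] [1],
  .bok false 8 69 [729] [3],
  .bok false 8 69 [729] [9],
  .bok false 8 69 [729] [27],
  .bok false 8 69 [729] [81],
  .bok false 8 69 [729] [243],
  .leib 1 9 68 [1] [1],
  .leib 1 9 68 [1] [3],
  .leib 1 9 68 [1] [9],
  .leib 1 9 68 [1] [27],
  .leib 1 9 68 [1] [81],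
  .leib 1 9 68 [1] [243],
  .leib 3 8 66 [27] [1],
  .leib 3 8 66 [27] [3],
  .leib 3 8 66 [27] [9],
  .leib 3 8 66 [27] [27],
  .leib 3 8 66 [27] [81],
  .leib 3 8 66 [27] [243],
  .leib 3 8 66 [81] [1],
  .leib 3 8 66 [81] [3],
  .leib 3 8 66 [81] [9],
  .leib 3 8 66 [81] [27],
  .leib 3 8 66 [81] [81],
  .leib 3 8 66 [81] [243],
  .leib 5 8 62 [9] [1],
  .leib 5 8 62 [9] [3],
  .leib 5 8 62 [9] [9],
  .leib 5 8 62 [9] [27],
  .leib 5 8 62 [9] [81],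
  .leib 5 8 62 [9] [243],
  .leib 7 8 60 [27] [81],
  .leib 7 8 60 [27] [243],
  .bok false 9 69 [1] [1],
  .bok false 9 69 [1] [9],
  .bok false 9 69 [1] [27],
  .bok false 9 69 [1] [81],
  .bok false 9 69 [9] [1],
  .bok false 9 69 [9] [9],
  .bok false 9 69 [9] [27],
  .bok false 9 69 [9] [81],
  .bok false 9 69 [27] [1],
  .bok false 9 69 [27] [9],
  .bok false 9 69 [27] [27],
  .bok false 9 69 [27] [81],
  .leib 3 9 66 [9] [1],
  .leib 3 9 66 [9] [3],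
  .leib 3 9 66 [9] [9],
  .leib 3 9 66 [9] [27],
  .leib 3 9 66 [9] [81],
  .leib 3 9 66 [9] [243],
  .leib 3 9 66 [27] [1],
  .leib 3 9 66 [27] [3],
  .leib 3 9 66 [27] [9],
  .leib 3 9 66 [27] [27],
  .leib 3 9 66 [27] [81],
  .leib 3 9 66 [27] [243],
  .bok false 10 69 [1] [1],
  .bok false 10 69 [1] [3],
  .bok false 10 69 [9] [1],
  .bok false 10 69 [9] [3],
  .leib 1 11 68 [729] [3],
  .leib 1 11 68 [729] [9],
  .leib 3 10 66 [81] [1],
  .leib 3 10 66 [81] [3],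
  .leib 3 10 66 [81] [9],
  .bok false 11 69 [3] [3],
  .bok false 11 69 [81] [1],
  .leib 1 12 68 [3] [1],
  .leib 1 12 68 [3] [3],
  .leib 1 12 68 [3] [9],
  .leib 1 12 68 [3] [27],
  .leib 1 12 68 [9] [3],
  .leib 1 12 68 [27] [3],
  .leib 3 11 66 [243] [3],
  .leib 3 11 66 [729] [3],
  .leib 3 11 66 [2187] [3],
  .leib 5 11 62 [9] [3],
  .leib 5 11 62 [27] [3],
  .bok false 12 69 [243] [1],
  .bok false 12 69 [243] [3],
  .bok false 12 69 [243] [81],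
  .bok false 12 69 [243] [243],
  .leib 4 11 66 [1] [1],
  .leib 4 11 66 [1] [3],
  .leib 4 11 66 [1] [81],
  .leib 4 11 66 [1] [243],
  .leib 4 11 66 [9] [1],
  .leib 4 11 66 [9] [3],
  .leib 4 11 66 [9] [81],
  .leib 4 11 66 [9] [243],
  .leib 1 15 68 [9] [1],
  .leib 1 15 68 [9] [3],
  .leib 1 15 68 [27] [1],
  .leib 1 15 68 [27] [3],
  .leib 3 14 66 [243] [1],
  .leib 3 14 66 [243] [3],
  .leib 4 13 66 [3] [1],
  .bok false 15 69 [1] [1],
  .bok false 15 69 [1] [3],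
  .bok false 15 69 [9] [1],
  .bok false 15 69 [9] [3],
  .bok false 15 69 [27] [1],
  .bok false 15 69 [27] [3],
  .leib 1 16 68 [3] [1],
  .leib 1 16 68 [3] [3],
  .leib 3 15 66 [9] [1],
  .leib 3 15 66 [9] [3],
  .leib 3 15 66 [27] [1],
  .leib 3 15 66 [27] [3],
  .leib 3 15 66 [81] [1],
  .leib 3 15 66 [81] [3],
  .leib 1 17 68 [1] [1],
  .leib 1 17 68 [1] [9],
  .leib 2 16 68 [3] [1],
  .leib 2 16 68 [3] [9],
  .leib 4 15 66 [1] [1],
  .leib 4 15 66 [1] [9],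
  .leib 4 15 66 [9] [1],
  .leib 4 15 66 [9] [9],
  .leib 4 15 66 [27] [1],
  .leib 4 15 66 [27] [9],
  .leib 4 15 66 [81] [1],
  .leib 4 15 66 [81] [9],
  .leib 1 2 69 [1] [3],
  .leib 1 2 69 [3] [3],
  .leib 3 1 67 [1] [3],
  .leib 1 3 69 [9] [27],
  .leib 1 3 69 [27] [27],
  .leib 1 3 69 [81] [27],
  .leib 3 2 67 [1] [27],
  .leib 5 2 63 [1] [27],
  .leib 5 2 63 [3] [27],
  .leib 5 2 63 [9] [27],
  .leib 1 4 69 [243] [1],
  .leib 1 4 69 [243] [3],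
  .leib 1 4 69 [243] [9],
  .leib 1 4 69 [243] [27],
  .leib 1 4 69 [243] [81],
  .leib 1 4 69 [243] [243],
  .leib 1 4 69 [243] [729],
  .leib 1 4 69 [243] [2187],
  .leib 1 4 69 [729] [1],
  .leib 1 4 69 [729] [3],
  .leib 1 4 69 [729] [9],
  .leib 1 4 69 [729] [27],
  .leib 1 4 69 [729] [81],
  .leib 1 4 69 [729] [243],
  .leib 1 4 69 [729] [729],
  .leib 1 4 69 [729] [2187],
  .leib 2 3 69 [9] [729],
  .leib 2 3 69 [9] [2187],
  .leib 2 3 69 [27] [729],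
  .leib 2 3 69 [27] [2187],
  .leib 2 3 69 [81] [1],
  .leib 2 3 69 [81] [3],
  .leib 2 3 69 [81] [9],
  .leib 2 3 69 [81] [27],
  .leib 2 3 69 [81] [81],
  .leib 2 3 69 [81] [243],
  .leib 2 3 69 [81] [729],
  .leib 2 3 69 [81] [2187],
  .leib 4 2 67 [1] [729],
  .leib 4 2 67 [1] [2187],
  .leib 5 3 63 [3] [729],
  .leib 5 3 63 [9] [1],
  .leib 5 3 63 [9] [3],
  .leib 5 3 63 [9] [729],
  .leib 5 3 63 [9] [2187],
  .bok false 4 70 [3] [1],
  .bok false 4 70 [3] [3],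
  .bok false 4 70 [3] [9],
  .bok false 4 70 [3] [27],
  .bok false 4 70 [3] [81],
  .bok false 4 70 [3] [243],
  .bok false 4 70 [9] [1],
  .bok false 4 70 [9] [3],
  .bok false 4 70 [9] [9],
  .bok false 4 70 [9] [27],
  .bok false 4 70 [9] [81],
  .bok false 4 70 [9] [243],
  .leib 1 5 69 [729] [1],
  .leib 1 5 69 [729] [3],
  .leib 1 5 69 [729] [9],
  .leib 1 5 69 [729] [27],
  .leib 1 5 69 [729] [81],
  .leib 1 5 69 [729] [243],
  .bok false 6 70 [1] [1],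
  .bok false 6 70 [1] [3],
  .bok false 6 70 [1] [9],
  .bok false 6 70 [1] [27],
  .bok false 6 70 [3] [1],
  .bok false 6 70 [3] [3],
  .bok false 6 70 [3] [9],
  .bok false 6 70 [3] [27],
  .bok false 6 70 [9] [1],
  .bok false 6 70 [9] [3],
  .bok false 6 70 [9] [9],
  .bok false 6 70 [9] [27],
  .bok false 6 70 [81] [1],
  .bok false 6 70 [81] [3],
  .bok false 6 70 [81] [9],
  .bok false 6 70 [81] [27],
  .leib 1 7 69 [1] [1],
  .leib 1 7 69 [1] [3],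
  .leib 1 7 69 [1] [9],
  .leib 1 7 69 [1] [27],
  .leib 1 7 69 [3] [1],
  .leib 1 7 69 [3] [3],
  .leib 1 7 69 [3] [9],
  .leib 1 7 69 [3] [27],
  .leib 1 7 69 [9] [1],
  .leib 1 7 69 [9] [3],
  .leib 1 7 69 [9] [9],
  .leib 1 7 69 [9] [27],
  .leib 1 7 69 [27] [1],
  .leib 1 7 69 [27] [3],
  .leib 1 7 69 [27] [9],
  .leib 1 7 69 [27] [27],
  .leib 3 6 67 [9] [3],
  .leib 3 6 67 [9] [9],
  .leib 3 6 67 [9] [27],
  .leib 3 6 67 [81] [1],
  .leib 3 6 67 [81] [3],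
  .leib 3 6 67 [81] [9],
  .leib 3 6 67 [81] [27],
  .leib 5 6 63 [9] [3],
  .leib 5 6 63 [9] [9],
  .leib 7 6 61 [3] [3],
  .leib 7 6 61 [3] [9],
  .leib 7 6 61 [9] [27],
  .bok false 7 70 [9] [1],
  .bok false 7 70 [9] [3],
  .bok false 7 70 [9] [9],
  .bok false 7 70 [9] [27],
  .bok false 7 70 [9] [81],
  .bok false 7 70 [9] [243],
  .bok false 7 70 [9] [729],
  .bok false 7 70 [27] [3],
  .bok false 7 70 [27] [9],
  .bok false 7 70 [27] [27],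
  .bok false 7 70 [27] [81],
  .bok false 7 70 [27] [243],
  .bok false 7 70 [27] [729],
  .bok false 7 70 [81] [1],
  .bok false 7 70 [81] [3],
  .bok false 7 70 [81] [9],
  .bok false 7 70 [81] [27],
  .bok false 7 70 [81] [81],
  .bok false 7 70 [81] [243],
  .bok false 7 70 [81] [729],
  .leib 1 8 69 [9] [1],
  .leib 1 8 69 [9] [3],
  .leib 1 8 69 [9] [9],
  .leib 1 8 69 [9] [27],
  .leib 1 8 69 [9] [81],
  .leib 1 8 69 [9] [243],
  .leib 1 8 69 [9] [729],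
  .leib 3 7 67 [9] [1],
  .leib 3 7 67 [9] [3],
  .leib 3 7 67 [9] [9],
  .leib 3 7 67 [9] [27],
  .leib 3 7 67 [9] [81],
  .leib 3 7 67 [9] [243],
  .leib 3 7 67 [9] [729],
  .leib 5 7 63 [9] [1],
  .leib 5 7 63 [9] [3],
  .leib 5 7 63 [9] [9],
  .leib 5 7 63 [9] [27],
  .leib 5 7 63 [9] [81],
  .leib 5 7 63 [9] [243],
  .leib 5 7 63 [9] [729],
  .bok false 8 70 [3] [1],
  .bok false 8 70 [3] [3],
  .bok false 8 70 [3] [9],
  .bok false 8 70 [3] [27],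
  .bok false 8 70 [9] [1],
  .bok false 8 70 [9] [3],
  .bok false 8 70 [9] [9],
  .bok false 8 70 [9] [27],
  .bok false 8 70 [27] [1],
  .bok false 8 70 [27] [3],
  .bok false 8 70 [27] [9],
  .bok false 8 70 [27] [27],
  .leib 1 9 69 [729] [1],
  .leib 1 9 69 [729] [3],
  .leib 1 9 69 [729] [9],
  .leib 1 9 69 [729] [27],
  .leib 1 9 69 [2187] [1],
  .leib 1 9 69 [2187] [3],
  .leib 1 9 69 [2187] [9],
  .leib 1 9 69 [2187] [27],
  .bok false 9 70 [1] [1],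
  .bok false 9 70 [1] [3],
  .bok false 9 70 [1] [9],
  .bok false 9 70 [27] [9],
  .leib 1 10 69 [27] [9],
  .leib 1 10 69 [81] [9],
  .leib 1 10 69 [243] [9],
  .leib 5 9 63 [243] [9],
  .bok false 10 70 [1] [3],
  .bok false 10 70 [1] [9],
  .bok false 10 70 [1] [27],
  .bok false 10 70 [1] [81],
  .bok false 10 70 [9] [3],
  .bok false 10 70 [9] [9],
  .bok false 10 70 [9] [27],
  .bok false 10 70 [9] [81],
  .bok false 10 70 [27] [3],
  .bok false 10 70 [27] [9],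
  .bok false 10 70 [27] [27],
  .bok false 10 70 [27] [81],
  .bok false 10 70 [243] [3],
  .bok false 10 70 [243] [9],
  .bok false 10 70 [243] [27],
  .bok false 10 70 [243] [81],
  .leib 1 11 69 [9] [3],
  .leib 1 11 69 [9] [9],
  .leib 1 11 69 [9] [27],
  .leib 1 11 69 [9] [81],
  .leib 1 11 69 [27] [3],
  .leib 1 11 69 [27] [9],
  .leib 1 11 69 [27] [27],
  .leib 1 11 69 [27] [81],
  .leib 3 10 67 [9] [3],
  .leib 3 10 67 [9] [9],
  .leib 3 10 67 [9] [27],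
  .leib 3 10 67 [9] [81],
  .leib 3 10 67 [27] [3],
  .leib 3 10 67 [27] [9],
  .leib 3 10 67 [27] [27],
  .leib 3 10 67 [27] [81],
  .leib 7 10 61 [3] [3],
  .leib 7 10 61 [3] [9],
  .leib 7 10 61 [3] [27],
  .leib 7 10 61 [3] [81],
  .bok false 11 70 [1] [1],
  .bok false 11 70 [1] [3],
  .bok false 11 70 [1] [9],
  .bok false 11 70 [1] [27],
  .bok false 11 70 [3] [1],
  .bok false 11 70 [3] [3],
  .bok false 11 70 [3] [9],
  .bok false 11 70 [3] [27],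
  .bok false 11 70 [9] [1],
  .bok false 11 70 [9] [3],
  .bok false 11 70 [9] [9]]
 Pf.done)

theorem cchk2 : (ofTab P236Q.tauF).chunk
    (cex0 ++ cex1)
    cpf2 cex2 = true := by
  decide +kernel

end Vale.Agent.P236E
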