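import Vale.Agent.P236Et.Ex
import Vale.Agent.P236Qt.TauF

/-!
# P236, block ENG: part 3 of the certificate
-/

namespace Vale.Agent.P236E

set_option maxRecDepth 100000

noncomputable def cpf3 : Pf :=
 (steps [.bok false 11 70 [9] [27],
  .bok false 11 70 [27] [1],
  .bok false 11 70 [27] [3],
  .bok false 11 70 [27] [9],
  .bok false 11 70 [27] [27],
  .bok false 11 70 [729] [1],
  .bok false 11 70 [729] [3],
  .bok false 11 70 [729] [9],
  .bok false 11 70 [729] [27],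
  .leib 1 12 69 [81] [1],
  .leib 1 12 69 [81] [3],
  .leib 1 12 69 [81] [9],
  .leib 1 12 69 [81] [27],
  .bok false 12 70 [3] [1],
  .bok false 12 70 [3] [3],
  .leib 1 13 69 [243] [1],
  .leib 1 13 69 [243] [3],
  .leib 1 13 69 [729] [1],
  .leib 1 13 69 [729] [3],
  .bok false 13 70 [1] [3],
  .leib 6 12 63 [243] [3],
  .leib 1 3 70 [81] [243],
  .leib 1 3 70 [81] [729],
  .leib 1 3 70 [81] [2187],
  .leib 1 4 70 [9] [1],
  .leib 1 4 70 [9] [3],
  .leib 1 4 70 [9] [9],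
  .leib 1 4 70 [9] [27],
  .leib 1 4 70 [9] [81],
  .leib 1 4 70 [9] [243],
  .leib 1 4 70 [9] [729],
  .leib 1 4 70 [81] [1],
  .leib 1 4 70 [81] [3],
  .leib 1 4 70 [81] [9],
  .leib 1 4 70 [81] [27],
  .leib 1 4 70 [81] [81],
  .leib 1 4 70 [81] [243],
  .leib 1 4 70 [81] [729],
  .leib 3 3 68 [1] [1],
  .leib 3 3 68 [1] [3],
  .leib 3 3 68 [1] [9],
  .leib 3 3 68 [1] [27],
  .leib 3 3 68 [1] [81],
  .leib 3 3 68 [1] [243],
  .leib 3 3 68 [3] [1],
  .leib 3 3 68 [3] [243],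
  .leib 3 3 68 [3] [729],
  .leib 4 2 68 [1] [243],
  .leib 7 3 62 [1] [1],
  .leib 7 3 62 [1] [3],
  .leib 7 3 62 [1] [81],
  .leib 7 3 62 [1] [243],
  .leib 7 3 62 [3] [243],
  .bok false 4 71 [1] [1],
  .bok false 4 71 [1] [3],
  .bok false 4 71 [1] [9],
  .bok false 4 71 [1] [27],
  .bok false 4 71 [1] [81],
  .bok false 4 71 [1] [243],
  .bok false 4 71 [1] [729],
  .bok false 4 71 [1] [2187],
  .bok false 4 71 [3] [81],
  .bok false 4 71 [9] [1],
  .bok false 4 71 [9] [3],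
  .bok false 4 71 [9] [9],
  .bok false 4 71 [9] [27],
  .bok false 4 71 [9] [81],
  .bok false 4 71 [9] [243],
  .bok false 4 71 [9] [729],
  .bok false 4 71 [9] [2187],
  .leib 1 5 70 [3] [1],
  .leib 1 5 70 [3] [3],
  .leib 1 5 70 [3] [9],
  .leib 1 5 70 [3] [27],
  .leib 1 5 70 [3] [81],
  .leib 1 5 70 [3] [243],
  .leib 1 5 70 [3] [729],
  .leib 1 5 70 [3] [2187],
  .leib 3 4 68 [1] [1],
  .leib 3 4 68 [1] [3],
  .leib 3 4 68 [1] [9],
  .leib 3 4 68 [1] [27],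
  .leib 3 4 68 [1] [81],
  .leib 3 4 68 [1] [243],
  .leib 3 4 68 [1] [729],
  .leib 3 4 68 [1] [2187],
  .leib 5 4 64 [3] [1],
  .leib 5 4 64 [3] [3],
  .leib 5 4 64 [3] [9],
  .leib 5 4 64 [3] [27],
  .leib 5 4 64 [3] [81],
  .leib 5 4 64 [3] [243],
  .leib 5 4 64 [3] [729],
  .leib 5 4 64 [3] [2187],
  .leib 5 4 64 [9] [3],
  .leib 5 4 64 [9] [243],
  .leib 5 4 64 [9] [729],
  .leib 5 4 64 [9] [2187],
  .leib 7 4 62 [1] [1],
  .leib 7 4 62 [1] [243],
  .leib 7 4 62 [1] [729],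
  .leib 7 4 62 [1] [2187],
  .bok false 5 71 [1] [3],
  .bok false 5 71 [1] [9],
  .bok false 5 71 [1] [27],
  .bok false 5 71 [1] [81],
  .bok false 5 71 [1] [243],
  .bok false 5 71 [1] [729],
  .bok false 5 71 [1] [2187],
  .bok false 5 71 [1] [6561],
  .bok false 5 71 [1] [19683],
  .bok false 5 71 [3] [3],
  .bok false 5 71 [3] [9],
  .bok false 5 71 [3] [27],
  .bok false 5 71 [3] [81],
  .bok false 5 71 [3] [243],
  .bok false 5 71 [3] [729],
  .bok false 5 71 [3] [2187],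
  .bok false 5 71 [3] [6561],
  .bok false 5 71 [3] [19683],
  .bok false 5 71 [9] [3],
  .bok false 5 71 [9] [9],
  .bok false 5 71 [9] [27],
  .bok false 5 71 [9] [81],
  .bok false 5 71 [9] [243],
  .bok false 5 71 [9] [729],
  .bok false 5 71 [9] [2187],
  .bok false 5 71 [9] [6561],
  .bok false 5 71 [9] [19683],
  .leib 5 5 64 [1] [1],
  .leib 5 5 64 [1] [3],
  .leib 5 5 64 [1] [9],
  .leib 5 5 64 [1] [27],
  .leib 5 5 64 [1] [81],
  .leib 5 5 64 [1] [243],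
  .leib 5 5 64 [1] [729],
  .leib 5 5 64 [1] [2187],
  .leib 5 5 64 [1] [6561],
  .leib 5 5 64 [1] [19683],
  .leib 5 5 64 [1] [59049],
  .bok false 6 71 [1] [1],
  .bok false 6 71 [1] [3],
  .bok false 6 71 [1] [9],
  .bok false 6 71 [1] [27],
  .bok false 6 71 [1] [81],
  .bok false 6 71 [1] [243],
  .bok false 6 71 [1] [729],
  .leib 1 8 70 [243] [1],
  .leib 1 8 70 [243] [9],
  .leib 3 7 68 [81] [1],
  .leib 3 7 68 [81] [9],
  .bok false 8 71 [1] [1],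
  .bok false 8 71 [1] [3],
  .bok false 8 71 [1] [9],
  .bok false 8 71 [1] [27],
  .bok false 8 71 [3] [1],
  .bok false 8 71 [3] [3],
  .bok false 8 71 [3] [9],
  .bok false 8 71 [3] [27],
  .bok false 8 71 [27] [1],
  .bok false 8 71 [27] [3],
  .bok false 8 71 [27] [9],
  .bok false 8 71 [27] [27],
  .bok false 8 71 [27] [729],
  .leib 1 9 70 [3] [1],
  .leib 1 9 70 [3] [3],
  .leib 1 9 70 [3] [9],
  .leib 1 9 70 [3] [27],
  .leib 1 9 70 [3] [729],
  .leib 1 9 70 [9] [1],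
  .leib 1 9 70 [9] [3],
  .leib 1 9 70 [9] [9],
  .leib 1 9 70 [9] [27],
  .leib 1 9 70 [9] [81],
  .leib 1 9 70 [9] [243],
  .leib 1 9 70 [9] [729],
  .leib 3 8 68 [9] [1],
  .leib 3 8 68 [9] [3],
  .leib 3 8 68 [9] [9],
  .leib 3 8 68 [9] [27],
  .leib 3 8 68 [9] [81],
  .leib 3 8 68 [9] [243],
  .leib 3 8 68 [9] [729],
  .leib 3 8 68 [27] [1],
  .leib 3 8 68 [27] [3],
  .leib 3 8 68 [27] [9],
  .leib 3 8 68 [27] [27],
  .leib 3 8 68 [27] [81],
  .leib 3 8 68 [27] [243],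
  .leib 3 8 68 [27] [729],
  .leib 3 8 68 [81] [1],
  .leib 3 8 68 [81] [3],
  .leib 3 8 68 [81] [9],
  .leib 3 8 68 [81] [27],
  .leib 3 8 68 [81] [729],
  .leib 7 8 62 [9] [729],
  .bok false 9 71 [1] [1],
  .bok false 9 71 [1] [3],
  .bok false 9 71 [1] [9],
  .bok false 9 71 [1] [27],
  .bok false 9 71 [1] [81],
  .bok false 9 71 [1] [243],
  .bok false 9 71 [1] [729],
  .bok false 9 71 [3] [1],
  .bok false 9 71 [3] [3],
  .bok false 9 71 [3] [9],
  .bok false 9 71 [3] [27],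
  .bok false 9 71 [3] [81],
  .bok false 9 71 [3] [243],
  .bok false 9 71 [3] [729],
  .bok false 9 71 [9] [243],
  .bok false 9 71 [9] [729],
  .bok false 9 71 [27] [243],
  .bok false 9 71 [27] [729],
  .bok false 9 71 [2187] [1],
  .bok false 9 71 [2187] [3],
  .bok false 9 71 [2187] [9],
  .bok false 9 71 [2187] [27],
  .bok false 9 71 [2187] [81],
  .bok false 9 71 [2187] [243],
  .bok false 9 71 [2187] [729],
  .leib 3 9 68 [1] [1],
  .leib 3 9 68 [1] [3],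
  .leib 3 9 68 [1] [9],
  .leib 3 9 68 [1] [27],
  .leib 3 9 68 [1] [81],
  .leib 3 9 68 [1] [243],
  .leib 3 9 68 [1] [729],
  .leib 3 9 68 [1] [2187],
  .bok false 10 71 [1] [3],
  .bok false 10 71 [1] [9],
  .bok false 10 71 [1] [27],
  .leib 1 12 70 [9] [1],
  .leib 1 12 70 [9] [3],
  .leib 1 12 70 [27] [1],
  .leib 1 12 70 [27] [3],
  .leib 1 12 70 [81] [1],
  .leib 1 12 70 [81] [3],
  .leib 3 11 68 [729] [1],
  .leib 3 11 68 [729] [3],
  .bok false 12 71 [1] [1],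
  .bok false 12 71 [1] [27],
  .bok false 12 71 [1] [243],
  .bok false 12 71 [3] [1],
  .bok false 12 71 [3] [27],
  .bok false 12 71 [3] [243],
  .bok false 12 71 [9] [1],
  .bok false 12 71 [9] [3],
  .bok false 12 71 [9] [27],
  .bok false 12 71 [9] [243],
  .bok false 12 71 [27] [1],
  .bok false 12 71 [27] [3],
  .bok false 12 71 [27] [27],
  .bok false 12 71 [27] [243],
  .leib 3 12 68 [3] [1],
  .leib 3 12 68 [3] [3],
  .leib 3 12 68 [3] [27],
  .leib 3 12 68 [3] [243],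
  .leib 3 12 68 [9] [1],
  .leib 3 12 68 [9] [3],
  .leib 3 12 68 [9] [27],
  .leib 3 12 68 [9] [243],
  .leib 3 12 68 [27] [1],
  .leib 3 12 68 [27] [3],
  .leib 3 12 68 [27] [27],
  .leib 3 12 68 [27] [243],
  .bok false 13 71 [1] [9],
  .bok false 13 71 [1] [27],
  .bok false 13 71 [1] [81],
  .bok false 13 71 [3] [9],
  .bok false 13 71 [3] [27],
  .bok false 13 71 [3] [81],
  .bok false 13 71 [9] [9],
  .bok false 13 71 [9] [27],
  .bok false 13 71 [9] [81],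
  .leib 3 13 68 [1] [1],
  .leib 3 13 68 [1] [3],
  .leib 3 13 68 [1] [9],
  .leib 3 13 68 [1] [27],
  .leib 3 13 68 [1] [81],
  .bok false 14 71 [1] [1],
  .bok false 14 71 [1] [9],
  .leib 1 15 70 [27] [1],
  .leib 1 15 70 [27] [9],
  .leib 1 15 70 [81] [1],
  .leib 1 15 70 [81] [9],
  .bok false 15 71 [1] [1],
  .bok false 15 71 [1] [3],
  .bok false 15 71 [9] [1],
  .bok false 15 71 [9] [3],
  .leib 1 16 70 [3] [1],
  .leib 1 16 70 [3] [3],
  .leib 3 15 68 [9] [1],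
  .leib 3 15 68 [9] [3],
  .leib 3 15 68 [27] [1],
  .leib 3 15 68 [27] [3],
  .bok false 16 71 [3] [9],
  .bok false 16 71 [9] [9],
  .bok false 16 71 [81] [9],
  .leib 3 16 68 [3] [1],
  .leib 3 16 68 [3] [3],
  .leib 3 16 68 [3] [9],
  .bok false 17 71 [1] [9],
  .leib 3 17 68 [1] [9],
  .leib 1 3 71 [3] [1],
  .leib 1 3 71 [3] [3],
  .leib 1 3 71 [3] [9],
  .leib 1 3 71 [3] [27],
  .leib 3 2 69 [1] [3],
  .leib 3 2 69 [1] [9],
  .leib 3 2 69 [1] [27],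
  .leib 3 2 69 [3] [1],
  .leib 3 2 69 [3] [3],
  .leib 3 2 69 [3] [9],
  .leib 3 2 69 [3] [27],
  .leib 7 2 63 [3] [3],
  .leib 7 2 63 [3] [9],
  .leib 7 2 63 [3] [27],
  .leib 7 2 63 [9] [1],
  .leib 7 2 63 [9] [9],
  .leib 7 2 63 [9] [27],
  .bok false 3 72 [1] [1],
  .bok false 3 72 [1] [3],
  .bok false 3 72 [1] [9],
  .bok false 3 72 [1] [27],
  .bok false 3 72 [1] [81],
  .bok false 3 72 [1] [243],
  .bok false 3 72 [1] [729],
  .bok false 3 72 [1] [6561],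
  .bok false 3 72 [3] [81],
  .bok false 3 72 [3] [243],
  .bok false 3 72 [3] [729],
  .bok false 3 72 [3] [6561],
  .leib 3 3 69 [9] [1],
  .leib 3 3 69 [9] [3],
  .leib 3 3 69 [9] [9],
  .leib 3 3 69 [9] [27],
  .leib 3 3 69 [9] [81],
  .leib 3 3 69 [9] [243],
  .leib 3 3 69 [9] [729],
  .leib 3 3 69 [9] [2187],
  .leib 3 3 69 [9] [6561],
  .leib 3 3 69 [27] [1],
  .leib 3 3 69 [27] [3],
  .leib 3 3 69 [27] [9],
  .leib 3 3 69 [27] [27],
  .leib 3 3 69 [27] [81],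
  .leib 3 3 69 [27] [243],
  .leib 3 3 69 [27] [729],
  .leib 3 3 69 [27] [2187],
  .leib 3 3 69 [27] [6561],
  .leib 3 3 69 [81] [1],
  .leib 3 3 69 [81] [3],
  .leib 3 3 69 [81] [9],
  .leib 3 3 69 [81] [27],
  .leib 3 3 69 [81] [81],
  .leib 3 3 69 [81] [243],
  .leib 3 3 69 [81] [729],
  .leib 3 3 69 [81] [2187],
  .leib 3 3 69 [81] [6561],
  .leib 7 3 63 [3] [243],
  .leib 7 3 63 [3] [729],
  .leib 7 3 63 [3] [6561],
  .leib 7 3 63 [9] [243],
  .leib 7 3 63 [9] [729],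
  .leib 7 3 63 [9] [6561],
  .bok false 4 72 [1] [1],
  .bok false 4 72 [1] [3],
  .bok false 4 72 [1] [9],
  .bok false 4 72 [1] [27],
  .bok false 4 72 [1] [81],
  .bok false 4 72 [1] [243],
  .bok false 4 72 [1] [729],
  .bok false 4 72 [1] [2187],
  .bok false 4 72 [1] [6561],
  .bok false 4 72 [3] [1],
  .bok false 4 72 [3] [3],
  .bok false 4 72 [3] [9],
  .bok false 4 72 [3] [27],
  .bok false 4 72 [3] [81],
  .bok false 4 72 [3] [243],
  .bok false 4 72 [3] [729],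
  .bok false 4 72 [3] [2187],
  .bok false 4 72 [3] [6561],
  .bok false 4 72 [9] [1],
  .bok false 4 72 [9] [3],
  .bok false 4 72 [9] [9],
  .bok false 4 72 [9] [27],
  .bok false 4 72 [9] [81],
  .bok false 4 72 [9] [243],
  .bok false 4 72 [9] [729],
  .bok false 4 72 [9] [2187],
  .bok false 4 72 [9] [6561],
  .leib 1 5 71 [27] [1],
  .leib 1 5 71 [27] [3],
  .leib 1 5 71 [27] [9],
  .leib 1 5 71 [27] [27],
  .leib 1 5 71 [27] [81],
  .leib 1 5 71 [27] [243],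
  .leib 1 5 71 [27] [729],
  .leib 1 5 71 [27] [2187],
  .leib 1 5 71 [27] [6561],
  .leib 1 5 71 [81] [1],
  .leib 1 5 71 [81] [3],
  .leib 1 5 71 [81] [9],
  .leib 1 5 71 [81] [27],
  .leib 1 5 71 [81] [81],
  .leib 1 5 71 [81] [243],
  .leib 1 5 71 [81] [729],
  .leib 1 5 71 [81] [2187],
  .leib 1 5 71 [81] [6561],
  .leib 3 4 69 [243] [1],
  .leib 3 4 69 [243] [3],
  .leib 3 4 69 [243] [9],
  .leib 3 4 69 [243] [27],
  .leib 3 4 69 [243] [81],
  .leib 3 4 69 [243] [243],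
  .leib 3 4 69 [243] [729],
  .leib 3 4 69 [243] [2187],
  .leib 3 4 69 [243] [6561],
  .leib 4 3 69 [9] [6561],
  .bok false 5 72 [1] [1],
  .bok false 5 72 [1] [3],
  .bok false 5 72 [1] [9],
  .bok false 5 72 [1] [27],
  .bok false 5 72 [1] [81],
  .bok false 5 72 [3] [1],
  .bok false 5 72 [3] [3],
  .bok false 5 72 [3] [9],
  .bok false 5 72 [3] [27],
  .bok false 5 72 [3] [81],
  .bok false 5 72 [27] [1],
  .bok false 5 72 [27] [3],
  .bok false 5 72 [27] [9],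
  .bok false 5 72 [27] [27],
  .bok false 5 72 [27] [81],
  .bok false 5 72 [81] [1],
  .bok false 5 72 [81] [3],
  .bok false 5 72 [81] [9],
  .leib 1 6 71 [9] [1],
  .leib 1 6 71 [9] [3],
  .leib 1 6 71 [9] [9],
  .leib 1 6 71 [9] [27],
  .leib 1 6 71 [9] [81],
  .leib 1 6 71 [27] [1],
  .leib 1 6 71 [27] [3],
  .leib 1 6 71 [27] [9],
  .leib 1 6 71 [27] [27],
  .leib 1 6 71 [27] [81],
  .leib 3 5 69 [3] [27],
  .leib 3 5 69 [3] [81],
  .leib 3 5 69 [729] [1],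
  .leib 3 5 69 [729] [3],
  .leib 3 5 69 [729] [9],
  .leib 3 5 69 [729] [27],
  .leib 3 5 69 [729] [81],
  .bok false 6 72 [1] [1],
  .bok false 6 72 [1] [3],
  .bok false 6 72 [1] [9],
  .bok false 6 72 [1] [27],
  .bok false 6 72 [1] [81],
  .bok false 6 72 [1] [243],
  .bok false 6 72 [3] [1],
  .bok false 6 72 [3] [3],
  .bok false 6 72 [3] [9],
  .bok false 6 72 [3] [27],
  .bok false 6 72 [3] [81],
  .bok false 6 72 [3] [243],
  .bok false 6 72 [9] [1],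
  .bok false 6 72 [9] [3],
  .bok false 6 72 [9] [9],
  .bok false 6 72 [9] [27],
  .bok false 6 72 [9] [81],
  .bok false 6 72 [9] [243],
  .leib 1 7 71 [1] [1],
  .leib 1 7 71 [1] [3],
  .leib 1 7 71 [1] [9],
  .leib 1 7 71 [1] [27],
  .leib 1 7 71 [1] [81],
  .leib 1 7 71 [1] [243],
  .leib 3 6 69 [3] [9],
  .leib 3 6 69 [3] [27],
  .leib 3 6 69 [3] [81],
  .leib 3 6 69 [3] [243],
  .leib 3 6 69 [81] [1],
  .leib 3 6 69 [81] [3],
  .leib 3 6 69 [81] [9],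
  .leib 3 6 69 [81] [27],
  .leib 3 6 69 [81] [81],
  .leib 3 6 69 [81] [243],
  .leib 3 6 69 [243] [1],
  .leib 3 6 69 [243] [3],
  .leib 3 6 69 [243] [9],
  .leib 3 6 69 [243] [27],
  .leib 3 6 69 [243] [81],
  .leib 3 6 69 [243] [243],
  .leib 3 6 69 [729] [1],
  .leib 3 6 69 [729] [3],
  .leib 3 6 69 [729] [9],
  .leib 3 6 69 [729] [27],
  .leib 3 6 69 [729] [81],
  .leib 3 6 69 [729] [243],
  .leib 7 6 63 [9] [9],
  .leib 7 6 63 [9] [27],
  .leib 7 6 63 [9] [81],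
  .leib 7 6 63 [9] [243],
  .bok false 7 72 [1] [1],
  .bok false 7 72 [1] [3],
  .bok false 7 72 [1] [9],
  .bok false 7 72 [1] [27],
  .bok false 7 72 [1] [81],
  .bok false 7 72 [1] [243],
  .bok false 7 72 [1] [729],
  .bok false 7 72 [9] [1],
  .bok false 7 72 [9] [3],
  .bok false 7 72 [9] [9],
  .bok false 7 72 [9] [27],
  .bok false 7 72 [9] [81],
  .bok false 7 72 [9] [243],
  .bok false 7 72 [9] [729],
  .bok false 7 72 [27] [1],
  .bok false 7 72 [27] [3],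
  .bok false 7 72 [27] [9],
  .bok false 7 72 [27] [27],
  .bok false 7 72 [27] [81],
  .bok false 7 72 [27] [243],
  .bok false 7 72 [27] [729],
  .bok false 7 72 [729] [1],
  .bok false 7 72 [729] [3],
  .bok false 7 72 [729] [9],
  .bok false 7 72 [729] [27],
  .bok false 7 72 [729] [81],
  .bok false 7 72 [729] [243],
  .bok false 7 72 [729] [729],
  .bok false 7 72 [729] [2187],
  .leib 3 7 69 [1] [1],
  .leib 3 7 69 [1] [3],
  .leib 3 7 69 [1] [9],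
  .leib 3 7 69 [1] [27],
  .leib 3 7 69 [1] [81],
  .leib 3 7 69 [1] [243],
  .leib 3 7 69 [1] [729],
  .leib 3 7 69 [9] [1],
  .leib 3 7 69 [9] [3],
  .leib 3 7 69 [9] [9],
  .leib 3 7 69 [9] [27],
  .leib 3 7 69 [9] [81],
  .leib 3 7 69 [9] [243],
  .leib 3 7 69 [9] [729],
  .leib 3 7 69 [9] [2187],
  .leib 3 7 69 [27] [1],
  .leib 3 7 69 [27] [3],
  .leib 3 7 69 [27] [9],
  .leib 3 7 69 [27] [27],
  .leib 3 7 69 [27] [81],
  .leib 3 7 69 [27] [243],
  .leib 3 7 69 [27] [729],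
  .leib 5 7 65 [1] [1],
  .leib 5 7 65 [1] [3],
  .leib 5 7 65 [1] [9],
  .leib 5 7 65 [1] [27],
  .leib 5 7 65 [1] [81],
  .leib 5 7 65 [1] [243],
  .leib 5 7 65 [1] [729],
  .leib 7 7 63 [9] [2187],
  .bok false 8 72 [1] [3],
  .bok false 8 72 [1] [9],
  .bok false 8 72 [1] [27],
  .bok false 8 72 [1] [81],
  .bok false 8 72 [3] [3],
  .bok false 8 72 [3] [9],
  .bok false 8 72 [3] [27],
  .bok false 8 72 [3] [81],
  .bok false 8 72 [9] [3],
  .bok false 8 72 [9] [9],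
  .bok false 8 72 [9] [27],
  .bok false 8 72 [9] [81],
  .bok false 8 72 [27] [3],
  .bok false 8 72 [27] [9],
  .bok false 8 72 [27] [27],
  .bok false 8 72 [27] [81],
  .leib 1 9 71 [81] [3],
  .leib 1 9 71 [81] [9],
  .leib 1 9 71 [81] [27],
  .leib 1 9 71 [81] [81],
  .leib 1 9 71 [243] [81],
  .leib 3 8 69 [9] [3],
  .leib 3 8 69 [9] [9],
  .leib 3 8 69 [9] [27],
  .leib 3 8 69 [9] [81],
  .leib 3 8 69 [27] [81],
  .leib 7 8 63 [81] [3],
  .leib 7 8 63 [81] [9],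
  .leib 7 8 63 [81] [27],
  .leib 7 8 63 [81] [81],
  .bok false 9 72 [9] [1],
  .bok false 9 72 [27] [1],
  .leib 1 10 71 [27] [1],
  .leib 1 10 71 [27] [3],
  .leib 1 10 71 [27] [9],
  .leib 1 10 71 [81] [1],
  .leib 1 10 71 [81] [3],
  .leib 1 10 71 [81] [9],
  .leib 1 10 71 [243] [1],
  .leib 1 10 71 [243] [3],
  .leib 1 10 71 [243] [9],
  .leib 3 9 69 [729] [1],
  .leib 3 9 69 [729] [3],
  .leib 3 9 69 [729] [9],
  .leib 3 9 69 [2187] [1],
  .leib 3 9 69 [2187] [3],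
  .leib 3 9 69 [2187] [9],
  .leib 5 9 65 [81] [3],
  .leib 5 9 65 [81] [9],
  .leib 9 9 57 [27] [3],
  .leib 9 9 57 [27] [9],
  .bok false 10 72 [1] [3],
  .bok false 10 72 [1] [9],
  .bok false 10 72 [1] [27],
  .bok false 10 72 [3] [1],
  .bok false 10 72 [3] [3],
  .bok false 10 72 [3] [9],
  .bok false 10 72 [3] [27],
  .bok false 10 72 [9] [3],
  .bok false 10 72 [9] [9],
  .bok false 10 72 [9] [27],
  .bok false 10 72 [27] [3],
  .bok false 10 72 [27] [9],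
  .bok false 10 72 [27] [27],
  .bok false 10 72 [243] [81],
  .bok false 10 72 [243] [243],
  .bok false 10 72 [729] [3],
  .bok false 10 72 [729] [27],
  .bok false 10 72 [2187] [1],
  .bok false 10 72 [2187] [3],
  .bok false 10 72 [2187] [9],
  .bok false 10 72 [2187] [27],
  .leib 1 11 71 [1] [1],
  .leib 1 11 71 [1] [3],
  .leib 1 11 71 [1] [9],
  .leib 1 11 71 [1] [27],
  .leib 1 11 71 [1] [81],
  .leib 1 11 71 [1] [243],
  .leib 3 10 69 [27] [1],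
  .leib 3 10 69 [27] [3],
  .leib 3 10 69 [27] [9],
  .leib 3 10 69 [27] [27],
  .leib 3 10 69 [27] [81],
  .leib 3 10 69 [27] [243],
  .leib 3 10 69 [81] [1],
  .leib 3 10 69 [81] [3],
  .leib 3 10 69 [81] [9],
  .leib 3 10 69 [81] [27],
  .leib 3 10 69 [81] [81],
  .leib 3 10 69 [81] [243],
  .leib 3 10 69 [243] [1],
  .leib 3 10 69 [243] [3],
  .leib 3 10 69 [243] [9],
  .leib 3 10 69 [243] [27],
  .leib 5 10 65 [9] [1],
  .leib 5 10 65 [9] [3],
  .leib 5 10 65 [9] [9],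
  .leib 5 10 65 [9] [27],
  .leib 5 10 65 [9] [81],
  .leib 5 10 65 [9] [243],
  .leib 5 10 65 [27] [81],
  .leib 5 10 65 [27] [243],
  .bok false 11 72 [1] [1],
  .bok false 11 72 [1] [3],
  .bok false 11 72 [1] [9],
  .bok false 11 72 [1] [27],
  .bok false 11 72 [1] [81],
  .bok false 11 72 [1] [243],
  .bok false 11 72 [3] [1],
  .bok false 11 72 [3] [3],
  .bok false 11 72 [3] [9],
  .bok false 11 72 [3] [27],
  .bok false 11 72 [3] [81],
  .bok false 11 72 [3] [243],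
  .bok false 11 72 [9] [1],
  .bok false 11 72 [9] [3],
  .bok false 11 72 [9] [9],
  .bok false 11 72 [9] [27],
  .bok false 11 72 [9] [81],
  .bok false 11 72 [27] [1],
  .bok false 11 72 [27] [3],
  .bok false 11 72 [27] [9],
  .bok false 11 72 [27] [27],
  .bok false 11 72 [27] [81],
  .bok false 11 72 [81] [81],
  .bok false 11 72 [2187] [1],
  .bok false 11 72 [2187] [3],
  .bok false 11 72 [2187] [9],
  .bok false 11 72 [2187] [27],
  .bok false 11 72 [2187] [81],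
  .leib 3 11 69 [9] [1],
  .leib 3 11 69 [9] [3],
  .leib 3 11 69 [9] [9],
  .leib 3 11 69 [9] [27],
  .leib 3 11 69 [9] [81],
  .leib 3 11 69 [9] [243],
  .leib 3 11 69 [27] [1],
  .leib 3 11 69 [27] [3],
  .leib 3 11 69 [27] [9],
  .leib 3 11 69 [27] [27],
  .leib 3 11 69 [27] [243],
  .bok false 12 72 [1] [1],
  .bok false 12 72 [1] [3],
  .bok false 12 72 [9] [1],
  .leib 1 15 71 [1] [1],
  .leib 1 15 71 [1] [3],
  .leib 1 15 71 [1] [81],
  .leib 1 15 71 [1] [243],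
  .leib 2 14 71 [3] [1],
  .leib 2 14 71 [3] [3],
  .leib 2 14 71 [3] [81],
  .leib 4 13 69 [1] [1],
  .leib 4 13 69 [1] [3],
  .leib 4 13 69 [1] [81],
  .leib 4 13 69 [1] [243],
  .leib 4 13 69 [3] [243],
  .leib 4 13 69 [9] [1],
  .leib 4 13 69 [9] [3],
  .leib 4 13 69 [9] [81],
  .leib 4 13 69 [9] [243],
  .leib 1 17 71 [9] [1],
  .leib 1 17 71 [9] [3],
  .leib 1 17 71 [27] [1],
  .leib 1 17 71 [27] [3],
  .leib 3 16 69 [243] [1],
  .leib 3 16 69 [243] [3],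
  .leib 4 15 69 [3] [1],
  .bok false 17 72 [1] [1],
  .bok false 17 72 [1] [3],
  .bok false 17 72 [9] [1],
  .bok false 17 72 [9] [3],
  .bok false 17 72 [27] [1],
  .bok false 17 72 [27] [3],
  .leib 1 18 71 [3] [1],
  .leib 1 18 71 [3] [3],
  .leib 3 17 69 [9] [1],
  .leib 3 17 69 [9] [3],
  .leib 3 17 69 [27] [1],
  .leib 3 17 69 [27] [3],
  .leib 3 17 69 [81] [1],
  .leib 3 17 69 [81] [3],
  .leib 1 19 71 [1] [1],
  .leib 2 18 71 [3] [1],
  .leib 4 17 69 [1] [1],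
  .leib 4 17 69 [9] [1],
  .leib 4 17 69 [27] [1],
  .leib 4 17 69 [81] [1],
  .bok false 2 73 [1] [3],
  .bok false 2 73 [1] [9],
  .bok false 2 73 [1] [27],
  .bok false 2 73 [1] [81],
  .leib 1 3 72 [3] [3],
  .leib 1 3 72 [3] [9],
  .leib 1 3 72 [3] [27],
  .leib 1 3 72 [3] [81],
  .leib 1 4 72 [27] [1],
  .leib 1 4 72 [27] [3],
  .leib 1 4 72 [27] [9],
  .leib 1 4 72 [81] [1],
  .leib 1 4 72 [81] [3],
  .leib 1 4 72 [81] [9],
  .leib 7 3 64 [9] [1],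
  .leib 7 3 64 [9] [3],
  .leib 7 3 64 [9] [9],
  .bok false 4 73 [1] [1],
  .bok false 4 73 [1] [3],
  .bok false 4 73 [1] [9],
  .bok false 4 73 [1] [27],
  .bok false 4 73 [3] [1],
  .bok false 4 73 [9] [1],
  .bok false 4 73 [9] [3],
  .bok false 4 73 [9] [9],
  .bok false 4 73 [9] [27],
  .bok false 4 73 [27] [1],
  .bok false 4 73 [27] [3],
  .bok false 4 73 [27] [9],
  .bok false 4 73 [27] [27],
  .leib 1 5 72 [9] [1],
  .leib 1 5 72 [9] [3],
  .leib 1 5 72 [9] [9],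
  .leib 1 5 72 [9] [27],
  .leib 1 5 72 [27] [1],
  .leib 1 5 72 [27] [3],
  .leib 1 5 72 [27] [9],
  .leib 1 5 72 [27] [27],
  .leib 1 5 72 [81] [1],
  .leib 1 5 72 [81] [3],
  .leib 1 5 72 [81] [9],
  .leib 1 5 72 [81] [27],
  .leib 3 4 70 [9] [1],
  .leib 3 4 70 [9] [3],
  .leib 3 4 70 [9] [9],
  .leib 3 4 70 [9] [27],
  .leib 7 4 64 [3] [1],
  .leib 7 4 64 [3] [3],
  .leib 7 4 64 [3] [9],
  .leib 7 4 64 [3] [27],
  .leib 7 4 64 [9] [9],
  .leib 7 4 64 [9] [27],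
  .bok false 5 73 [1] [1],
  .bok false 5 73 [1] [9],
  .bok false 5 73 [1] [27],
  .bok false 5 73 [1] [81],
  .bok false 5 73 [1] [243],
  .bok false 5 73 [1] [729],
  .bok false 5 73 [1] [2187],
  .bok false 5 73 [1] [6561],
  .bok false 5 73 [9] [1],
  .bok false 5 73 [9] [9],
  .bok false 5 73 [9] [27],
  .bok false 5 73 [9] [81],
  .bok false 5 73 [9] [243],
  .bok false 5 73 [9] [729],
  .bok false 5 73 [9] [2187],
  .bok false 5 73 [9] [6561],
  .bok false 5 73 [27] [1],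
  .bok false 5 73 [27] [9],
  .bok false 5 73 [27] [27],
  .bok false 5 73 [27] [81],
  .bok false 5 73 [27] [243],
  .bok false 5 73 [27] [729],
  .bok false 5 73 [27] [2187],
  .bok false 5 73 [27] [6561],
  .bok false 5 73 [81] [1],
  .bok false 5 73 [81] [9],
  .bok false 5 73 [81] [27],
  .bok false 5 73 [81] [81],
  .bok false 5 73 [81] [243],
  .bok false 5 73 [81] [729],
  .bok false 5 73 [81] [2187],
  .bok false 5 73 [81] [6561],
  .bok false 5 73 [729] [1],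
  .bok false 5 73 [729] [9],
  .bok false 5 73 [729] [27],
  .bok false 5 73 [729] [81],
  .bok false 5 73 [729] [243],
  .bok false 5 73 [729] [729],
  .bok false 5 73 [729] [2187],
  .bok false 5 73 [729] [6561],
  .leib 1 6 72 [27] [1],
  .leib 1 6 72 [27] [9],
  .leib 1 6 72 [27] [27],
  .leib 1 6 72 [27] [81],
  .leib 1 6 72 [27] [243],
  .leib 1 6 72 [27] [729],
  .leib 1 6 72 [27] [2187],
  .leib 1 6 72 [27] [6561],
  .leib 1 6 72 [81] [1],
  .leib 1 6 72 [81] [9],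
  .leib 1 6 72 [81] [27],
  .leib 1 6 72 [81] [81],
  .leib 1 6 72 [81] [243],
  .leib 1 6 72 [81] [729],
  .leib 1 6 72 [81] [2187],
  .leib 1 6 72 [81] [6561],
  .leib 3 5 70 [3] [1],
  .leib 3 5 70 [3] [9],
  .leib 3 5 70 [3] [27],
  .leib 3 5 70 [3] [81],
  .leib 3 5 70 [3] [243],
  .leib 3 5 70 [3] [729],
  .leib 3 5 70 [3] [2187],
  .leib 3 5 70 [3] [6561],
  .leib 7 5 64 [1] [1],
  .leib 7 5 64 [1] [9],
  .leib 7 5 64 [1] [27],
  .leib 7 5 64 [1] [81],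
  .leib 7 5 64 [1] [243],
  .leib 7 5 64 [1] [729],
  .leib 7 5 64 [1] [2187],
  .leib 7 5 64 [1] [6561],
  .bok false 6 73 [3] [1],
  .bok false 6 73 [3] [3],
  .bok false 6 73 [3] [9],
  .bok false 6 73 [3] [27],
  .bok false 6 73 [3] [81],
  .bok false 6 73 [3] [243],
  .bok false 6 73 [3] [729],
  .bok false 6 73 [3] [2187],
  .bok false 6 73 [9] [1],
  .bok false 6 73 [9] [3],
  .bok false 6 73 [9] [9],
  .bok false 6 73 [9] [27],
  .bok false 6 73 [9] [81],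
  .bok false 6 73 [9] [243],
  .bok false 6 73 [9] [729],
  .bok false 6 73 [9] [2187],
  .bok false 6 73 [27] [1],
  .bok false 6 73 [27] [3],
  .bok false 6 73 [27] [9],
  .bok false 6 73 [27] [27],
  .bok false 6 73 [27] [81],
  .bok false 6 73 [27] [243],
  .bok false 6 73 [27] [729],
  .bok false 6 73 [27] [2187],
  .bok false 6 73 [243] [1],
  .bok false 6 73 [243] [3],
  .bok false 6 73 [243] [9],
  .bok false 6 73 [243] [27],
  .bok false 6 73 [243] [81],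
  .bok false 6 73 [243] [243],
  .bok false 6 73 [243] [729],
  .bok false 6 73 [243] [2187],
  .leib 1 7 72 [243] [1],
  .leib 1 7 72 [243] [3],
  .leib 1 7 72 [243] [9],
  .leib 1 7 72 [243] [27],
  .leib 1 7 72 [243] [81],
  .leib 1 7 72 [243] [243],
  .leib 1 7 72 [243] [729],
  .leib 1 7 72 [243] [2187],
  .bok false 8 73 [1] [1],
  .bok false 8 73 [1] [3],
  .bok false 8 73 [1] [9],
  .bok false 8 73 [1] [27],
  .bok false 8 73 [3] [1],
  .bok false 8 73 [3] [3],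
  .bok false 8 73 [3] [9],
  .bok false 8 73 [3] [27],
  .bok false 8 73 [27] [1],
  .bok false 8 73 [27] [3],
  .bok false 8 73 [27] [9],
  .bok false 8 73 [27] [27],
  .leib 1 9 72 [3] [1],
  .leib 1 9 72 [3] [3],
  .leib 1 9 72 [3] [9],
  .leib 1 9 72 [3] [27],
  .leib 1 9 72 [9] [1],
  .leib 1 9 72 [9] [3],
  .leib 1 9 72 [9] [9],
  .leib 1 9 72 [9] [27],
  .leib 1 9 72 [27] [1],
  .leib 1 9 72 [27] [3],
  .leib 1 9 72 [27] [9],
  .leib 1 9 72 [27] [27],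
  .leib 1 9 72 [81] [1],
  .leib 1 9 72 [81] [3],
  .leib 1 9 72 [81] [9],
  .leib 1 9 72 [81] [27],
  .leib 3 8 70 [243] [1],
  .leib 3 8 70 [243] [3],
  .leib 3 8 70 [243] [9],
  .leib 3 8 70 [243] [27],
  .bok false 9 73 [3] [1],
  .bok false 9 73 [3] [3],
  .bok false 9 73 [3] [9],
  .bok false 9 73 [3] [27],
  .bok false 9 73 [3] [81],
  .bok false 9 73 [3] [243],
  .bok false 9 73 [3] [729],
  .bok false 9 73 [9] [1],
  .bok false 9 73 [9] [3],
  .bok false 9 73 [9] [9],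
  .bok false 9 73 [9] [27],
  .bok false 9 73 [9] [81]]
 Pf.done)

theorem cchk3 : (ofTab P236Q.tauF).chunk
    (cex0 ++ (cex1 ++ cex2))
    cpf3 cex3 = true := by
  decide +kernel

end Vale.Agent.P236E
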