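import Vale.Agent.P236Et.Ex
import Vale.Agent.P236Qt.TauF

/-!
# P236, block ENG: part 4 of the certificate
-/

namespace Vale.Agent.P236E

set_option maxRecDepth 100000

noncomputable def cpf4 : Pf :=
 (steps [.bok false 9 73 [9] [243],
  .bok false 9 73 [9] [729],
  .bok false 9 73 [27] [3],
  .bok false 9 73 [27] [9],
  .bok false 9 73 [27] [27],
  .bok false 9 73 [27] [81],
  .bok false 9 73 [27] [243],
  .bok false 9 73 [27] [729],
  .bok false 9 73 [81] [1],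
  .bok false 9 73 [81] [3],
  .bok false 9 73 [81] [9],
  .bok false 9 73 [81] [27],
  .bok false 9 73 [81] [81],
  .bok false 9 73 [81] [243],
  .bok false 9 73 [81] [729],
  .bok false 9 73 [729] [1],
  .bok false 9 73 [729] [3],
  .bok false 9 73 [729] [9],
  .bok false 9 73 [729] [27],
  .bok false 9 73 [729] [81],
  .bok false 9 73 [729] [243],
  .bok false 9 73 [729] [729],
  .bok false 9 73 [2187] [1],
  .bok false 9 73 [2187] [3],
  .bok false 9 73 [2187] [9],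
  .bok false 9 73 [2187] [27],
  .bok false 9 73 [2187] [81],
  .bok false 9 73 [2187] [243],
  .bok false 9 73 [2187] [729],
  .leib 1 10 72 [81] [1],
  .leib 1 10 72 [81] [3],
  .leib 1 10 72 [81] [9],
  .leib 1 10 72 [81] [27],
  .leib 1 10 72 [81] [81],
  .leib 1 10 72 [81] [243],
  .leib 1 10 72 [81] [729],
  .leib 3 9 70 [3] [1],
  .leib 3 9 70 [3] [3],
  .leib 3 9 70 [3] [9],
  .leib 3 9 70 [3] [27],
  .leib 3 9 70 [3] [81],
  .leib 3 9 70 [3] [243],
  .leib 3 9 70 [3] [729],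
  .leib 3 9 70 [9] [1],
  .leib 3 9 70 [9] [3],
  .leib 3 9 70 [9] [9],
  .leib 3 9 70 [9] [27],
  .leib 3 9 70 [9] [81],
  .leib 3 9 70 [9] [243],
  .leib 3 9 70 [9] [729],
  .bok false 10 73 [3] [3],
  .bok false 10 73 [3] [9],
  .bok false 10 73 [3] [27],
  .bok false 10 73 [9] [3],
  .bok false 10 73 [9] [9],
  .bok false 10 73 [9] [27],
  .bok false 10 73 [27] [3],
  .bok false 10 73 [27] [9],
  .bok false 10 73 [27] [27],
  .leib 1 11 72 [6561] [3],
  .leib 1 11 72 [6561] [9],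
  .leib 1 11 72 [6561] [27],
  .leib 1 11 72 [19683] [3],
  .leib 1 11 72 [19683] [9],
  .leib 1 11 72 [19683] [27],
  .bok false 11 73 [3] [9],
  .bok false 11 73 [27] [9],
  .leib 1 12 72 [27] [9],
  .leib 1 12 72 [81] [9],
  .leib 1 12 72 [243] [9],
  .leib 1 12 72 [729] [9],
  .bok false 12 73 [1] [3],
  .bok false 12 73 [1] [9],
  .bok false 12 73 [1] [27],
  .bok false 12 73 [3] [3],
  .bok false 12 73 [3] [9],
  .bok false 12 73 [3] [27],
  .bok false 12 73 [27] [3],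
  .bok false 12 73 [27] [9],
  .bok false 12 73 [27] [27],
  .bok false 12 73 [243] [3],
  .bok false 12 73 [243] [9],
  .bok false 12 73 [243] [27],
  .leib 1 13 72 [3] [3],
  .leib 1 13 72 [3] [9],
  .leib 1 13 72 [3] [27],
  .leib 3 12 70 [9] [3],
  .leib 3 12 70 [9] [9],
  .leib 3 12 70 [9] [27],
  .leib 3 12 70 [27] [3],
  .leib 3 12 70 [27] [9],
  .leib 3 12 70 [27] [27],
  .leib 3 12 70 [81] [3],
  .leib 3 12 70 [81] [9],
  .leib 3 12 70 [81] [27],
  .bok false 13 73 [1] [9],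
  .bok false 13 73 [3] [9],
  .bok false 13 73 [9] [9],
  .bok false 13 73 [27] [9],
  .leib 1 14 72 [27] [9],
  .leib 1 3 73 [1] [243],
  .leib 1 3 73 [3] [243],
  .leib 1 4 73 [1] [2187],
  .leib 1 4 73 [3] [2187],
  .leib 1 4 73 [9] [2187],
  .leib 1 4 73 [81] [2187],
  .leib 2 3 73 [1] [2187],
  .bok false 4 74 [1] [1],
  .bok false 4 74 [1] [3],
  .bok false 4 74 [1] [9],
  .bok false 4 74 [1] [27],
  .bok false 4 74 [1] [81],
  .leib 1 6 73 [729] [1],
  .leib 1 6 73 [729] [3],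
  .leib 1 6 73 [729] [9],
  .leib 1 6 73 [729] [27],
  .leib 1 6 73 [729] [243],
  .leib 1 6 73 [6561] [1],
  .leib 1 6 73 [6561] [3],
  .leib 1 6 73 [6561] [9],
  .leib 1 6 73 [6561] [27],
  .leib 1 6 73 [6561] [243],
  .leib 3 5 71 [27] [1],
  .leib 3 5 71 [27] [3],
  .leib 3 5 71 [27] [9],
  .leib 3 5 71 [27] [27],
  .leib 3 5 71 [27] [243],
  .bok false 6 74 [1] [1],
  .bok false 6 74 [1] [3],
  .bok false 6 74 [1] [9],
  .bok false 6 74 [1] [27],
  .bok false 6 74 [1] [81],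
  .bok false 6 74 [3] [9],
  .bok false 6 74 [9] [1],
  .bok false 6 74 [9] [3],
  .bok false 6 74 [9] [9],
  .bok false 6 74 [9] [27],
  .bok false 6 74 [9] [81],
  .bok false 6 74 [9] [243],
  .bok false 6 74 [9] [729],
  .bok false 6 74 [9] [2187],
  .bok false 6 74 [27] [1],
  .bok false 6 74 [27] [3],
  .bok false 6 74 [27] [9],
  .bok false 6 74 [27] [27],
  .bok false 6 74 [27] [81],
  .leib 1 7 73 [9] [1],
  .leib 1 7 73 [9] [3],
  .leib 1 7 73 [9] [9],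
  .leib 1 7 73 [9] [27],
  .leib 1 7 73 [9] [81],
  .leib 1 7 73 [9] [243],
  .leib 1 7 73 [9] [729],
  .leib 1 7 73 [9] [2187],
  .leib 1 7 73 [27] [1],
  .leib 1 7 73 [27] [3],
  .leib 1 7 73 [27] [9],
  .leib 1 7 73 [27] [27],
  .leib 1 7 73 [27] [81],
  .leib 1 7 73 [27] [243],
  .leib 1 7 73 [27] [729],
  .leib 1 7 73 [27] [2187],
  .leib 3 6 71 [27] [1],
  .leib 3 6 71 [27] [3],
  .leib 3 6 71 [27] [9],
  .leib 3 6 71 [27] [27],
  .leib 3 6 71 [27] [81],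
  .leib 3 6 71 [27] [243],
  .leib 3 6 71 [27] [729],
  .leib 3 6 71 [27] [2187],
  .bok false 7 74 [1] [1],
  .bok false 7 74 [1] [3],
  .bok false 7 74 [1] [9],
  .bok false 7 74 [1] [27],
  .bok false 7 74 [1] [81],
  .bok false 7 74 [1] [243],
  .bok false 7 74 [1] [729],
  .bok false 7 74 [1] [2187],
  .bok false 7 74 [1] [6561],
  .bok false 7 74 [3] [3],
  .bok false 7 74 [3] [9],
  .bok false 7 74 [3] [81],
  .bok false 7 74 [3] [243],
  .bok false 7 74 [3] [729],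
  .bok false 7 74 [3] [2187],
  .bok false 7 74 [3] [6561],
  .bok false 7 74 [243] [3],
  .bok false 7 74 [243] [9],
  .bok false 7 74 [243] [81],
  .bok false 7 74 [243] [243],
  .bok false 7 74 [243] [729],
  .bok false 7 74 [243] [2187],
  .bok false 7 74 [243] [6561],
  .leib 3 7 71 [1] [1],
  .leib 3 7 71 [1] [3],
  .leib 3 7 71 [1] [9],
  .leib 3 7 71 [1] [27],
  .leib 3 7 71 [1] [81],
  .leib 3 7 71 [1] [243],
  .leib 3 7 71 [1] [729],
  .leib 3 7 71 [1] [2187],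
  .leib 3 7 71 [1] [6561],
  .leib 7 7 65 [1] [1],
  .leib 7 7 65 [1] [3],
  .leib 7 7 65 [1] [9],
  .leib 7 7 65 [1] [27],
  .leib 7 7 65 [1] [81],
  .leib 7 7 65 [1] [243],
  .leib 7 7 65 [1] [729],
  .leib 7 7 65 [1] [2187],
  .leib 7 7 65 [1] [6561],
  .leib 7 7 65 [1] [19683],
  .bok false 8 74 [1] [1],
  .bok false 8 74 [1] [3],
  .bok false 8 74 [1] [9],
  .bok false 8 74 [1] [27],
  .bok false 8 74 [1] [81],
  .bok false 8 74 [1] [243],
  .bok false 8 74 [3] [9],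
  .bok false 8 74 [3] [27],
  .bok false 8 74 [3] [81],
  .bok false 8 74 [3] [243],
  .leib 1 9 73 [81] [1],
  .leib 1 9 73 [81] [3],
  .leib 1 9 73 [81] [9],
  .leib 1 9 73 [81] [27],
  .leib 1 9 73 [81] [81],
  .leib 1 9 73 [81] [243],
  .bok false 9 74 [1] [1],
  .bok false 9 74 [1] [9],
  .leib 1 10 73 [729] [1],
  .leib 1 10 73 [729] [9],
  .leib 1 10 73 [2187] [1],
  .leib 1 10 73 [2187] [9],
  .leib 3 9 71 [81] [1],
  .leib 3 9 71 [81] [9],
  .leib 3 9 71 [243] [9],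
  .leib 9 9 59 [3] [9],
  .bok false 10 74 [1] [1],
  .bok false 10 74 [1] [3],
  .bok false 10 74 [1] [9],
  .bok false 10 74 [1] [27],
  .bok false 10 74 [9] [1],
  .bok false 10 74 [9] [3],
  .bok false 10 74 [9] [9],
  .bok false 10 74 [9] [27],
  .bok false 10 74 [9] [81],
  .bok false 10 74 [9] [243],
  .bok false 10 74 [9] [729],
  .bok false 10 74 [27] [1],
  .bok false 10 74 [27] [3],
  .bok false 10 74 [27] [9],
  .bok false 10 74 [27] [27],
  .leib 1 11 73 [3] [1],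
  .leib 1 11 73 [3] [3],
  .leib 1 11 73 [3] [9],
  .leib 1 11 73 [3] [27],
  .leib 1 11 73 [9] [1],
  .leib 1 11 73 [9] [3],
  .leib 1 11 73 [9] [9],
  .leib 1 11 73 [9] [27],
  .leib 1 11 73 [9] [81],
  .leib 1 11 73 [9] [243],
  .leib 1 11 73 [9] [729],
  .leib 3 10 71 [27] [1],
  .leib 3 10 71 [27] [3],
  .leib 3 10 71 [27] [9],
  .leib 3 10 71 [27] [27],
  .leib 3 10 71 [27] [81],
  .leib 3 10 71 [27] [243],
  .leib 3 10 71 [27] [729],
  .leib 3 10 71 [81] [1],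
  .leib 3 10 71 [81] [3],
  .leib 3 10 71 [81] [9],
  .leib 3 10 71 [81] [27],
  .leib 3 10 71 [81] [81],
  .leib 3 10 71 [81] [243],
  .leib 3 10 71 [81] [729],
  .leib 3 10 71 [243] [1],
  .leib 3 10 71 [243] [3],
  .leib 3 10 71 [243] [9],
  .leib 3 10 71 [243] [27],
  .leib 7 10 65 [9] [1],
  .leib 7 10 65 [9] [3],
  .leib 7 10 65 [9] [9],
  .leib 7 10 65 [9] [27],
  .bok false 11 74 [1] [1],
  .bok false 11 74 [1] [3],
  .bok false 11 74 [1] [9],
  .bok false 11 74 [1] [27],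
  .bok false 11 74 [1] [81],
  .bok false 11 74 [1] [243],
  .bok false 11 74 [1] [729],
  .bok false 11 74 [9] [1],
  .bok false 11 74 [9] [3],
  .bok false 11 74 [9] [9],
  .bok false 11 74 [9] [27],
  .bok false 11 74 [9] [81],
  .bok false 11 74 [9] [243],
  .bok false 11 74 [9] [729],
  .bok false 11 74 [27] [243],
  .bok false 11 74 [27] [729],
  .bok false 11 74 [81] [1],
  .bok false 11 74 [81] [3],
  .bok false 11 74 [81] [9],
  .bok false 11 74 [81] [27],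
  .bok false 11 74 [81] [81],
  .bok false 11 74 [81] [243],
  .bok false 11 74 [81] [729],
  .bok false 11 74 [243] [243],
  .bok false 11 74 [243] [729],
  .bok false 11 74 [6561] [1],
  .bok false 11 74 [6561] [3],
  .bok false 11 74 [6561] [9],
  .bok false 11 74 [6561] [27],
  .bok false 11 74 [6561] [81],
  .bok false 11 74 [6561] [243],
  .bok false 11 74 [6561] [729],
  .leib 3 11 71 [1] [1],
  .leib 3 11 71 [1] [3],
  .leib 3 11 71 [1] [9],
  .leib 3 11 71 [1] [27],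
  .leib 3 11 71 [1] [81],
  .leib 3 11 71 [1] [243],
  .leib 3 11 71 [1] [729],
  .leib 3 11 71 [1] [2187],
  .bok false 12 74 [1] [3],
  .bok false 12 74 [1] [9],
  .bok false 12 74 [1] [27],
  .leib 1 14 73 [3] [1],
  .leib 1 14 73 [3] [3],
  .leib 1 14 73 [9] [1],
  .leib 1 14 73 [9] [3],
  .leib 3 13 71 [729] [1],
  .leib 3 13 71 [729] [3],
  .bok false 14 74 [1] [1],
  .bok false 14 74 [1] [27],
  .bok false 14 74 [1] [243],
  .bok false 14 74 [3] [1],
  .bok false 14 74 [3] [27],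
  .bok false 14 74 [3] [243],
  .bok false 14 74 [9] [1],
  .bok false 14 74 [9] [27],
  .bok false 14 74 [9] [243],
  .bok false 14 74 [27] [1],
  .bok false 14 74 [27] [27],
  .leib 3 14 71 [3] [1],
  .leib 3 14 71 [3] [3],
  .leib 3 14 71 [3] [27],
  .leib 3 14 71 [3] [243],
  .leib 3 14 71 [9] [1],
  .leib 3 14 71 [9] [27],
  .leib 3 14 71 [9] [243],
  .leib 3 14 71 [27] [1],
  .leib 3 14 71 [27] [27],
  .bok false 15 74 [1] [9],
  .bok false 15 74 [1] [81],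
  .leib 3 15 71 [1] [1],
  .leib 3 15 71 [1] [3],
  .leib 3 15 71 [1] [9],
  .leib 3 15 71 [1] [27],
  .leib 3 15 71 [1] [81],
  .bok false 16 74 [1] [9],
  .leib 1 17 73 [27] [9],
  .bok false 1 75 [1] [1],
  .bok false 1 75 [1] [3],
  .bok false 1 75 [1] [9],
  .bok false 2 75 [1] [1],
  .bok false 2 75 [1] [3],
  .bok false 2 75 [1] [9],
  .bok false 2 75 [1] [27],
  .bok false 2 75 [1] [81],
  .bok false 2 75 [1] [243],
  .leib 1 3 74 [1] [3],
  .leib 1 3 74 [1] [9],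
  .leib 1 3 74 [1] [27],
  .leib 1 3 74 [1] [81],
  .leib 1 3 74 [1] [243],
  .leib 1 3 74 [1] [729],
  .leib 1 3 74 [1] [2187],
  .leib 5 2 68 [1] [729],
  .leib 5 2 68 [1] [2187],
  .bok false 3 75 [3] [1],
  .bok false 3 75 [3] [3],
  .bok false 3 75 [3] [9],
  .bok false 3 75 [3] [27],
  .bok false 3 75 [3] [81],
  .bok false 3 75 [3] [243],
  .bok false 3 75 [9] [1],
  .bok false 3 75 [9] [3],
  .bok false 3 75 [9] [9],
  .bok false 3 75 [9] [27],
  .bok false 3 75 [9] [81],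
  .bok false 3 75 [9] [243],
  .leib 1 4 74 [1] [1],
  .leib 1 4 74 [1] [3],
  .leib 1 4 74 [1] [9],
  .leib 1 4 74 [1] [81],
  .leib 1 4 74 [1] [243],
  .leib 2 3 74 [1] [81],
  .leib 2 3 74 [1] [243],
  .leib 5 3 68 [3] [81],
  .leib 5 3 68 [3] [243],
  .leib 9 3 60 [9] [1],
  .leib 9 3 60 [9] [3],
  .leib 9 3 60 [9] [9],
  .leib 9 3 60 [9] [27],
  .leib 9 3 60 [9] [81],
  .leib 9 3 60 [9] [243],
  .bok false 4 75 [1] [1],
  .bok false 4 75 [1] [3],
  .bok false 4 75 [3] [1],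
  .bok false 4 75 [3] [3],
  .leib 1 5 74 [1] [9],
  .leib 1 5 74 [1] [27],
  .leib 1 5 74 [1] [81],
  .leib 3 4 72 [27] [1],
  .leib 3 4 72 [27] [3],
  .leib 3 4 72 [27] [9],
  .leib 3 4 72 [27] [27],
  .leib 3 4 72 [27] [81],
  .bok false 5 75 [1] [1],
  .bok false 5 75 [1] [3],
  .bok false 5 75 [1] [9],
  .bok false 5 75 [1] [27],
  .bok false 5 75 [1] [81],
  .bok false 5 75 [1] [243],
  .bok false 5 75 [1] [729],
  .bok false 5 75 [1] [2187],
  .bok false 5 75 [3] [1],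
  .bok false 5 75 [3] [3],
  .bok false 5 75 [3] [9],
  .bok false 5 75 [3] [27],
  .bok false 5 75 [3] [81],
  .bok false 5 75 [27] [1],
  .bok false 5 75 [27] [3],
  .bok false 5 75 [27] [9],
  .bok false 5 75 [27] [27],
  .bok false 5 75 [27] [81],
  .bok false 5 75 [27] [243],
  .bok false 5 75 [27] [729],
  .bok false 5 75 [27] [2187],
  .leib 1 6 74 [3] [1],
  .leib 1 6 74 [3] [3],
  .leib 1 6 74 [3] [9],
  .leib 1 6 74 [3] [27],
  .leib 1 6 74 [3] [81],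
  .leib 1 6 74 [3] [243],
  .leib 1 6 74 [3] [729],
  .leib 1 6 74 [3] [2187],
  .leib 2 5 74 [1] [243],
  .leib 2 5 74 [1] [729],
  .leib 2 5 74 [1] [2187],
  .leib 3 5 72 [3] [243],
  .leib 3 5 72 [3] [729],
  .leib 3 5 72 [3] [2187],
  .leib 3 5 72 [9] [1],
  .leib 3 5 72 [9] [3],
  .leib 3 5 72 [9] [9],
  .leib 3 5 72 [9] [27],
  .leib 3 5 72 [9] [81],
  .leib 3 5 72 [9] [243],
  .leib 3 5 72 [9] [729],
  .leib 3 5 72 [9] [2187],
  .leib 3 5 72 [27] [1],
  .leib 3 5 72 [27] [3],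
  .leib 3 5 72 [27] [9],
  .leib 3 5 72 [27] [27],
  .leib 3 5 72 [27] [81],
  .leib 3 5 72 [27] [243],
  .leib 3 5 72 [27] [729],
  .leib 3 5 72 [27] [2187],
  .leib 3 5 72 [81] [1],
  .leib 3 5 72 [81] [3],
  .leib 3 5 72 [81] [9],
  .leib 3 5 72 [81] [27],
  .leib 3 5 72 [81] [81],
  .leib 3 5 72 [81] [243],
  .leib 3 5 72 [81] [729],
  .leib 3 5 72 [81] [2187],
  .leib 7 5 66 [1] [729],
  .bok false 6 75 [1] [1],
  .bok false 6 75 [1] [3],
  .bok false 6 75 [1] [9],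
  .bok false 6 75 [1] [27],
  .bok false 6 75 [1] [81],
  .bok false 6 75 [1] [243],
  .bok false 6 75 [1] [729],
  .bok false 6 75 [1] [2187],
  .bok false 6 75 [1] [6561],
  .bok false 6 75 [3] [1],
  .bok false 6 75 [3] [3],
  .bok false 6 75 [3] [9],
  .bok false 6 75 [3] [27],
  .bok false 6 75 [3] [81],
  .bok false 6 75 [3] [243],
  .bok false 6 75 [3] [729],
  .bok false 6 75 [3] [2187],
  .bok false 6 75 [3] [6561],
  .bok false 6 75 [9] [1],
  .bok false 6 75 [9] [3],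
  .bok false 6 75 [9] [9],
  .bok false 6 75 [9] [27],
  .bok false 6 75 [9] [81],
  .bok false 6 75 [9] [243],
  .bok false 6 75 [9] [729],
  .bok false 6 75 [9] [2187],
  .bok false 6 75 [9] [6561],
  .bok false 6 75 [27] [1],
  .bok false 6 75 [27] [3],
  .bok false 6 75 [27] [9],
  .bok false 6 75 [27] [27],
  .bok false 6 75 [27] [81],
  .bok false 6 75 [27] [243],
  .bok false 6 75 [27] [729],
  .bok false 6 75 [27] [2187],
  .bok false 6 75 [27] [6561],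
  .leib 1 7 74 [9] [1],
  .leib 1 7 74 [9] [3],
  .leib 1 7 74 [9] [9],
  .leib 1 7 74 [9] [27],
  .leib 1 7 74 [9] [81],
  .leib 1 7 74 [9] [243],
  .leib 1 7 74 [9] [729],
  .leib 1 7 74 [9] [2187],
  .leib 1 7 74 [9] [6561],
  .leib 3 6 72 [27] [1],
  .leib 3 6 72 [27] [3],
  .leib 3 6 72 [27] [9],
  .leib 3 6 72 [27] [27],
  .leib 3 6 72 [27] [81],
  .leib 3 6 72 [27] [243],
  .leib 3 6 72 [27] [729],
  .leib 3 6 72 [27] [2187],
  .leib 3 6 72 [27] [6561],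
  .leib 3 6 72 [81] [1],
  .leib 3 6 72 [81] [3],
  .leib 3 6 72 [81] [9],
  .leib 3 6 72 [81] [27],
  .leib 3 6 72 [81] [81],
  .leib 3 6 72 [81] [243],
  .leib 3 6 72 [81] [729],
  .leib 3 6 72 [81] [2187],
  .leib 3 6 72 [81] [6561],
  .leib 9 6 60 [9] [1],
  .leib 9 6 60 [9] [3],
  .leib 9 6 60 [9] [6561],
  .bok false 7 75 [1] [1],
  .bok false 7 75 [1] [3],
  .bok false 7 75 [1] [9],
  .bok false 7 75 [1] [27],
  .bok false 7 75 [3] [1],
  .bok false 7 75 [3] [3],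
  .bok false 7 75 [3] [9],
  .bok false 7 75 [3] [27],
  .bok false 7 75 [3] [81],
  .bok false 7 75 [3] [243],
  .bok false 7 75 [9] [1],
  .bok false 7 75 [9] [3],
  .bok false 7 75 [9] [9],
  .bok false 7 75 [9] [27],
  .bok false 7 75 [9] [81],
  .bok false 7 75 [9] [243],
  .leib 1 8 74 [81] [1],
  .leib 1 8 74 [81] [3],
  .leib 1 8 74 [81] [9],
  .leib 1 8 74 [81] [27],
  .leib 1 8 74 [81] [81],
  .leib 1 8 74 [81] [243],
  .leib 3 7 72 [243] [1],
  .leib 3 7 72 [243] [3],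
  .leib 3 7 72 [243] [9],
  .leib 3 7 72 [243] [27],
  .leib 3 7 72 [243] [81],
  .leib 3 7 72 [243] [243],
  .bok false 8 75 [1] [1],
  .bok false 8 75 [1] [3],
  .bok false 8 75 [1] [9],
  .bok false 8 75 [1] [27],
  .bok false 8 75 [1] [81],
  .bok false 8 75 [1] [243],
  .bok false 8 75 [3] [1],
  .bok false 8 75 [3] [3],
  .bok false 8 75 [3] [9],
  .bok false 8 75 [3] [27],
  .bok false 8 75 [3] [81],
  .bok false 8 75 [3] [243],
  .bok false 8 75 [9] [1],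
  .bok false 8 75 [9] [3],
  .bok false 8 75 [9] [9],
  .bok false 8 75 [9] [27],
  .bok false 8 75 [9] [81],
  .bok false 8 75 [9] [243],
  .leib 1 9 74 [1] [1],
  .leib 1 9 74 [1] [3],
  .leib 1 9 74 [1] [9],
  .leib 1 9 74 [1] [27],
  .leib 1 9 74 [1] [81],
  .leib 1 9 74 [1] [243],
  .leib 1 9 74 [3] [1],
  .leib 1 9 74 [3] [3],
  .leib 1 9 74 [3] [9],
  .leib 1 9 74 [3] [27],
  .leib 1 9 74 [3] [81],
  .leib 1 9 74 [3] [243],
  .leib 3 8 72 [243] [1],
  .leib 3 8 72 [243] [3],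
  .leib 3 8 72 [243] [9],
  .leib 3 8 72 [243] [27],
  .leib 3 8 72 [243] [81],
  .leib 3 8 72 [243] [243],
  .leib 3 8 72 [729] [1],
  .leib 3 8 72 [729] [3],
  .leib 3 8 72 [729] [9],
  .leib 3 8 72 [729] [27],
  .leib 3 8 72 [729] [81],
  .leib 3 8 72 [729] [243],
  .leib 3 8 72 [2187] [1],
  .leib 3 8 72 [2187] [3],
  .leib 3 8 72 [2187] [9],
  .leib 3 8 72 [2187] [27],
  .leib 3 8 72 [2187] [81],
  .leib 3 8 72 [2187] [243],
  .bok false 9 75 [1] [1],
  .bok false 9 75 [1] [3],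
  .bok false 9 75 [1] [9],
  .bok false 9 75 [1] [27],
  .bok false 9 75 [1] [81],
  .bok false 9 75 [1] [243],
  .bok false 9 75 [1] [729],
  .bok false 9 75 [3] [1],
  .bok false 9 75 [3] [3],
  .bok false 9 75 [3] [9],
  .bok false 9 75 [3] [27],
  .bok false 9 75 [3] [81],
  .bok false 9 75 [3] [243],
  .bok false 9 75 [3] [729],
  .bok false 9 75 [9] [1],
  .bok false 9 75 [9] [3],
  .bok false 9 75 [9] [9],
  .bok false 9 75 [9] [27],
  .bok false 9 75 [9] [81],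
  .bok false 9 75 [9] [243],
  .bok false 9 75 [9] [729],
  .bok false 9 75 [27] [1],
  .bok false 9 75 [27] [3],
  .bok false 9 75 [27] [9],
  .bok false 9 75 [27] [27],
  .bok false 9 75 [27] [81],
  .bok false 9 75 [27] [243],
  .bok false 9 75 [27] [729],
  .bok false 9 75 [2187] [1],
  .bok false 9 75 [2187] [3],
  .bok false 9 75 [2187] [9],
  .bok false 9 75 [2187] [27],
  .bok false 9 75 [2187] [81],
  .bok false 9 75 [2187] [243],
  .bok false 9 75 [2187] [729],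
  .leib 3 9 72 [3] [1],
  .leib 3 9 72 [3] [3],
  .leib 3 9 72 [3] [9],
  .leib 3 9 72 [3] [27],
  .leib 3 9 72 [3] [81],
  .leib 3 9 72 [3] [243],
  .leib 3 9 72 [3] [729],
  .leib 3 9 72 [9] [1],
  .leib 3 9 72 [9] [3],
  .leib 3 9 72 [9] [9],
  .leib 3 9 72 [9] [27],
  .leib 3 9 72 [9] [81],
  .leib 3 9 72 [9] [243],
  .leib 3 9 72 [9] [729],
  .leib 3 9 72 [81] [1],
  .leib 3 9 72 [81] [3],
  .leib 3 9 72 [81] [9],
  .leib 3 9 72 [81] [27],
  .leib 3 9 72 [81] [81],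
  .leib 3 9 72 [81] [243],
  .leib 3 9 72 [81] [729],
  .bok false 10 75 [1] [3],
  .bok false 10 75 [1] [9],
  .bok false 10 75 [1] [27],
  .bok false 10 75 [9] [3],
  .bok false 10 75 [9] [9],
  .bok false 10 75 [9] [27],
  .bok false 10 75 [27] [3],
  .bok false 10 75 [27] [9],
  .bok false 10 75 [27] [27],
  .bok false 10 75 [81] [3],
  .bok false 10 75 [81] [9],
  .bok false 10 75 [81] [27],
  .leib 1 11 74 [729] [3],
  .leib 1 11 74 [729] [9],
  .leib 1 11 74 [729] [27],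
  .leib 3 10 72 [27] [3],
  .leib 3 10 72 [27] [9],
  .leib 3 10 72 [27] [27],
  .leib 3 10 72 [81] [3],
  .leib 3 10 72 [81] [9],
  .leib 3 10 72 [81] [27],
  .leib 1 12 74 [243] [1],
  .leib 1 12 74 [243] [3],
  .leib 1 12 74 [243] [9],
  .leib 1 12 74 [729] [3],
  .leib 1 12 74 [729] [9],
  .leib 1 12 74 [2187] [3],
  .leib 1 12 74 [2187] [9],
  .leib 3 11 72 [2187] [3],
  .leib 3 11 72 [2187] [9],
  .leib 3 11 72 [6561] [3],
  .leib 3 11 72 [6561] [9],
  .leib 3 11 72 [19683] [3],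
  .leib 3 11 72 [19683] [9],
  .leib 5 11 68 [729] [3],
  .leib 5 11 68 [729] [9],
  .bok false 12 75 [1] [1],
  .bok false 12 75 [1] [3],
  .bok false 12 75 [1] [9],
  .bok false 12 75 [3] [1],
  .bok false 12 75 [3] [3],
  .bok false 12 75 [3] [9],
  .bok false 12 75 [9] [1],
  .bok false 12 75 [9] [3],
  .bok false 12 75 [9] [9],
  .bok false 12 75 [243] [1],
  .bok false 12 75 [243] [3],
  .bok false 12 75 [243] [9],
  .bok false 12 75 [243] [81],
  .bok false 12 75 [243] [243],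
  .leib 1 13 74 [1] [1],
  .leib 1 13 74 [1] [3],
  .leib 1 13 74 [1] [9],
  .leib 1 13 74 [1] [81],
  .leib 1 13 74 [1] [243],
  .leib 3 12 72 [27] [1],
  .leib 3 12 72 [27] [3],
  .leib 3 12 72 [27] [9],
  .leib 3 12 72 [27] [81],
  .leib 3 12 72 [27] [243],
  .bok false 13 75 [1] [1],
  .bok false 13 75 [1] [3],
  .bok false 13 75 [1] [9],
  .bok false 13 75 [1] [27],
  .bok false 13 75 [1] [81],
  .bok false 13 75 [3] [1],
  .bok false 13 75 [3] [3],
  .bok false 13 75 [3] [9],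
  .bok false 13 75 [3] [27],
  .bok false 13 75 [3] [81],
  .leib 3 13 72 [3] [1],
  .leib 3 13 72 [3] [3],
  .leib 3 13 72 [3] [9],
  .leib 3 13 72 [3] [27],
  .leib 3 13 72 [3] [81],
  .leib 1 15 74 [729] [3],
  .leib 4 13 72 [3] [3],
  .leib 1 17 74 [1] [1],
  .leib 1 17 74 [1] [3],
  .leib 1 17 74 [1] [81],
  .leib 1 17 74 [1] [243],
  .leib 2 16 74 [3] [1],
  .leib 2 16 74 [3] [3],
  .leib 2 16 74 [3] [81],
  .leib 4 15 72 [1] [1],
  .leib 4 15 72 [1] [3],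
  .leib 4 15 72 [1] [81],
  .leib 4 15 72 [1] [243],
  .leib 4 15 72 [3] [243],
  .leib 4 15 72 [9] [1],
  .leib 4 15 72 [9] [3],
  .leib 4 15 72 [9] [81],
  .leib 4 15 72 [9] [243],
  .bok false 17 75 [9] [1],
  .bok false 17 75 [9] [9],
  .leib 3 17 72 [3] [1],
  .leib 3 17 72 [3] [9],
  .leib 4 17 72 [3] [1],
  .leib 1 1 75 [1] [243],
  .leib 1 1 75 [1] [729],
  .leib 1 3 75 [1] [1],
  .leib 1 3 75 [1] [3],
  .leib 1 3 75 [3] [1],
  .leib 1 3 75 [3] [3],
  .bok false 3 76 [3] [1],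
  .bok false 3 76 [3] [3],
  .bok false 3 76 [3] [9],
  .bok false 3 76 [3] [27],
  .bok false 3 76 [3] [81],
  .bok false 3 76 [9] [1],
  .bok false 3 76 [9] [3],
  .bok false 3 76 [9] [9],
  .bok false 3 76 [9] [27],
  .bok false 3 76 [9] [81],
  .leib 1 4 75 [9] [27],
  .leib 1 4 75 [9] [81],
  .leib 3 3 73 [1] [27],
  .leib 3 3 73 [1] [81],
  .leib 3 3 73 [3] [1],
  .leib 3 3 73 [3] [3],
  .leib 3 3 73 [3] [9],
  .leib 3 3 73 [3] [27],
  .leib 3 3 73 [3] [81],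
  .leib 5 3 69 [9] [27],
  .leib 5 3 69 [9] [81],
  .bok false 4 76 [3] [1],
  .bok false 4 76 [3] [3],
  .bok false 4 76 [3] [9],
  .bok false 4 76 [3] [27],
  .bok false 4 76 [3] [81],
  .bok false 4 76 [3] [243],
  .bok false 4 76 [3] [729],
  .bok false 4 76 [27] [3],
  .bok false 4 76 [27] [9],
  .bok false 4 76 [27] [27],
  .bok false 4 76 [27] [81],
  .bok false 4 76 [27] [243],
  .bok false 4 76 [27] [729],
  .bok false 4 76 [81] [3],
  .bok false 4 76 [81] [9],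
  .bok false 4 76 [81] [27],
  .bok false 4 76 [81] [81],
  .bok false 4 76 [81] [243],
  .bok false 4 76 [81] [729],
  .leib 1 5 75 [81] [1],
  .leib 1 5 75 [81] [3],
  .leib 1 5 75 [81] [9],
  .leib 1 5 75 [81] [27],
  .leib 1 5 75 [81] [81],
  .leib 1 5 75 [81] [243],
  .leib 1 5 75 [81] [729],
  .leib 5 4 69 [243] [1],
  .leib 5 4 69 [243] [3],
  .leib 5 4 69 [243] [9],
  .leib 5 4 69 [243] [27],
  .leib 5 4 69 [243] [81],
  .leib 5 4 69 [243] [243],
  .leib 5 4 69 [243] [729],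
  .bok false 5 76 [1] [1],
  .bok false 5 76 [1] [3],
  .bok false 5 76 [1] [9],
  .bok false 5 76 [3] [1],
  .bok false 5 76 [3] [3],
  .bok false 5 76 [3] [9],
  .bok false 5 76 [81] [1],
  .bok false 5 76 [81] [3],
  .bok false 5 76 [81] [9],
  .leib 1 6 75 [81] [1],
  .leib 1 6 75 [81] [3],
  .leib 1 6 75 [81] [9],
  .bok false 6 76 [3] [9],
  .bok false 6 76 [81] [9],
  .leib 1 7 75 [27] [9],
  .leib 1 7 75 [81] [9],
  .leib 1 7 75 [243] [9],
  .leib 3 6 73 [3] [9],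
  .leib 3 6 73 [27] [9],
  .bok false 7 76 [1] [1],
  .bok false 7 76 [1] [9],
  .bok false 7 76 [1] [27],
  .bok false 7 76 [1] [81],
  .bok false 7 76 [1] [729],
  .bok false 7 76 [1] [2187],
  .bok false 7 76 [1] [6561],
  .bok false 7 76 [3] [1],
  .bok false 7 76 [3] [9],
  .bok false 7 76 [3] [27],
  .bok false 7 76 [3] [81],
  .bok false 7 76 [3] [729],
  .bok false 7 76 [3] [2187],
  .bok false 7 76 [3] [6561],
  .bok false 7 76 [81] [1],
  .bok false 7 76 [81] [9],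
  .bok false 7 76 [81] [27],
  .bok false 7 76 [81] [81],
  .bok false 7 76 [81] [729],
  .bok false 7 76 [81] [2187],
  .bok false 7 76 [81] [6561],
  .bok false 7 76 [243] [1],
  .bok false 7 76 [243] [9],
  .bok false 7 76 [243] [27],
  .bok false 7 76 [243] [81],
  .bok false 7 76 [243] [729],
  .bok false 7 76 [243] [2187],
  .bok false 7 76 [243] [6561],
  .leib 1 8 75 [1] [729],
  .leib 1 8 75 [1] [2187],
  .leib 1 8 75 [1] [6561],
  .leib 1 8 75 [27] [1],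
  .leib 1 8 75 [27] [9],
  .leib 1 8 75 [27] [27],
  .leib 1 8 75 [27] [81],
  .leib 1 8 75 [27] [729],
  .leib 1 8 75 [27] [2187],
  .leib 1 8 75 [27] [6561],
  .leib 1 8 75 [81] [1],
  .leib 1 8 75 [81] [9],
  .leib 1 8 75 [81] [27],
  .leib 1 8 75 [81] [81],
  .leib 1 8 75 [81] [729],
  .leib 1 8 75 [81] [2187],
  .leib 1 8 75 [81] [6561],
  .leib 3 7 73 [9] [1],
  .leib 3 7 73 [9] [9],
  .leib 3 7 73 [9] [27],
  .leib 3 7 73 [9] [81],
  .leib 3 7 73 [9] [729],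
  .leib 3 7 73 [9] [2187],
  .leib 3 7 73 [9] [6561],
  .leib 3 7 73 [27] [1],
  .leib 3 7 73 [27] [9],
  .leib 3 7 73 [27] [27],
  .leib 3 7 73 [27] [81],
  .leib 3 7 73 [27] [729],
  .leib 3 7 73 [27] [2187],
  .leib 3 7 73 [27] [6561],
  .leib 5 7 69 [27] [729],
  .leib 5 7 69 [27] [2187],
  .bok false 8 76 [3] [9],
  .bok false 8 76 [3] [27],
  .bok false 8 76 [3] [81],
  .bok false 8 76 [3] [243],
  .bok false 8 76 [3] [729],
  .bok false 8 76 [9] [9],
  .bok false 8 76 [9] [27],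
  .bok false 8 76 [9] [81],
  .bok false 8 76 [9] [243],
  .bok false 8 76 [9] [729],
  .bok false 8 76 [27] [9],
  .bok false 8 76 [27] [27],
  .bok false 8 76 [27] [81],
  .bok false 8 76 [27] [243],
  .bok false 8 76 [27] [729],
  .bok false 8 76 [81] [9],
  .bok false 8 76 [81] [27],
  .bok false 8 76 [81] [81],
  .bok false 8 76 [81] [243],
  .bok false 8 76 [81] [729],
  .leib 1 9 75 [243] [9],
  .leib 1 9 75 [243] [27],
  .leib 1 9 75 [243] [81],
  .leib 1 9 75 [243] [243],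
  .leib 1 9 75 [243] [729],
  .bok false 10 76 [1] [1],
  .bok false 10 76 [1] [3],
  .bok false 10 76 [1] [9],
  .bok false 10 76 [1] [27],
  .bok false 10 76 [27] [1],
  .bok false 10 76 [27] [3],
  .bok false 10 76 [27] [9],
  .bok false 10 76 [27] [27],
  .bok false 10 76 [81] [1],
  .bok false 10 76 [81] [3],
  .bok false 10 76 [81] [9],
  .bok false 10 76 [81] [27],
  .leib 1 11 75 [9] [1],
  .leib 1 11 75 [9] [3],
  .leib 1 11 75 [9] [9],
  .leib 1 11 75 [9] [27],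
  .leib 1 11 75 [27] [1],
  .leib 1 11 75 [27] [3]]
 Pf.done)

theorem cchk4 : (ofTab P236Q.tauF).chunk
    (cex0 ++ (cex1 ++ (cex2 ++ cex3)))
    cpf4 cex4 = true := by
  decide +kernel

end Vale.Agent.P236E
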