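import Vale.Agent.P236Et.Ex
import Vale.Agent.P236Qt.TauF

/-!
# P236, block ENG: part 5 of the certificate
-/

namespace Vale.Agent.P236E

set_option maxRecDepth 100000

noncomputable def cpf5 : Pf :=
 (steps [.leib 1 11 75 [27] [9],
  .leib 1 11 75 [27] [27],
  .leib 1 11 75 [81] [1],
  .leib 1 11 75 [81] [3],
  .leib 1 11 75 [81] [9],
  .leib 1 11 75 [81] [27],
  .leib 3 10 73 [729] [1],
  .leib 3 10 73 [729] [3],
  .leib 3 10 73 [729] [9],
  .leib 3 10 73 [729] [27],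
  .leib 3 10 73 [2187] [1],
  .leib 3 10 73 [2187] [3],
  .leib 3 10 73 [2187] [9],
  .leib 3 10 73 [2187] [27],
  .leib 9 10 61 [3] [3],
  .leib 9 10 61 [3] [9],
  .leib 9 10 61 [3] [27],
  .bok false 11 76 [3] [1],
  .bok false 11 76 [3] [3],
  .bok false 11 76 [3] [9],
  .bok false 11 76 [3] [27],
  .bok false 11 76 [3] [81],
  .bok false 11 76 [3] [243],
  .bok false 11 76 [3] [729],
  .bok false 11 76 [9] [1],
  .bok false 11 76 [9] [3],
  .bok false 11 76 [9] [9],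
  .bok false 11 76 [9] [27],
  .bok false 11 76 [9] [81],
  .bok false 11 76 [9] [243],
  .bok false 11 76 [9] [729],
  .bok false 11 76 [27] [1],
  .bok false 11 76 [27] [3],
  .bok false 11 76 [27] [9],
  .bok false 11 76 [27] [27],
  .bok false 11 76 [27] [81],
  .bok false 11 76 [27] [243],
  .bok false 11 76 [27] [729],
  .bok false 11 76 [81] [1],
  .bok false 11 76 [81] [3],
  .bok false 11 76 [81] [9],
  .bok false 11 76 [81] [27],
  .bok false 11 76 [81] [81],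
  .bok false 11 76 [81] [243],
  .bok false 11 76 [81] [729],
  .bok false 11 76 [729] [1],
  .bok false 11 76 [729] [3],
  .bok false 11 76 [729] [9],
  .bok false 11 76 [729] [27],
  .bok false 11 76 [729] [81],
  .bok false 11 76 [729] [243],
  .bok false 11 76 [729] [729],
  .leib 1 12 75 [81] [1],
  .leib 1 12 75 [81] [3],
  .leib 1 12 75 [81] [9],
  .leib 1 12 75 [81] [27],
  .leib 1 12 75 [81] [81],
  .leib 1 12 75 [81] [243],
  .leib 1 12 75 [81] [729],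
  .leib 3 11 73 [3] [1],
  .leib 3 11 73 [3] [3],
  .leib 3 11 73 [3] [9],
  .leib 3 11 73 [3] [27],
  .leib 3 11 73 [3] [81],
  .leib 3 11 73 [3] [243],
  .leib 3 11 73 [3] [729],
  .leib 3 11 73 [9] [1],
  .leib 3 11 73 [9] [3],
  .leib 3 11 73 [9] [9],
  .leib 3 11 73 [9] [27],
  .leib 3 11 73 [9] [81],
  .leib 3 11 73 [9] [243],
  .leib 3 11 73 [9] [729],
  .bok false 12 76 [3] [1],
  .bok false 12 76 [3] [3],
  .bok false 12 76 [3] [9],
  .bok false 12 76 [3] [27],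
  .bok false 12 76 [9] [1],
  .bok false 12 76 [9] [3],
  .bok false 12 76 [9] [9],
  .bok false 12 76 [9] [27],
  .bok false 12 76 [27] [1],
  .bok false 12 76 [27] [3],
  .bok false 12 76 [27] [9],
  .bok false 12 76 [27] [27],
  .bok false 12 76 [81] [1],
  .bok false 12 76 [81] [3],
  .bok false 12 76 [81] [9],
  .bok false 12 76 [81] [27],
  .leib 1 13 75 [2187] [1],
  .leib 1 13 75 [2187] [3],
  .leib 1 13 75 [2187] [9],
  .leib 1 13 75 [2187] [27],
  .leib 1 13 75 [6561] [1],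
  .leib 1 13 75 [6561] [3],
  .leib 1 13 75 [6561] [9],
  .leib 1 13 75 [6561] [27],
  .leib 1 16 75 [27] [9],
  .leib 2 15 75 [3] [9],
  .leib 4 14 73 [3] [9],
  .leib 4 14 73 [9] [9],
  .leib 4 14 73 [27] [9],
  .leib 1 4 76 [27] [729],
  .leib 1 4 76 [27] [2187],
  .leib 1 4 76 [81] [1],
  .leib 1 4 76 [81] [3],
  .leib 1 4 76 [81] [9],
  .leib 1 4 76 [81] [27],
  .leib 1 4 76 [81] [81],
  .leib 1 4 76 [81] [243],
  .leib 1 4 76 [81] [729],
  .leib 1 4 76 [81] [2187],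
  .leib 3 3 74 [1] [1],
  .leib 3 3 74 [1] [3],
  .leib 3 3 74 [1] [9],
  .leib 3 3 74 [1] [27],
  .leib 3 3 74 [1] [81],
  .leib 3 3 74 [1] [243],
  .leib 3 3 74 [1] [729],
  .leib 3 3 74 [1] [2187],
  .leib 7 3 68 [1] [729],
  .leib 7 3 68 [1] [2187],
  .leib 9 3 62 [3] [2187],
  .bok false 4 77 [1] [1],
  .bok false 4 77 [1] [3],
  .bok false 4 77 [1] [9],
  .bok false 4 77 [1] [27],
  .bok false 4 77 [1] [81],
  .bok false 4 77 [1] [243],
  .bok false 4 77 [1] [729],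
  .bok false 4 77 [1] [2187],
  .bok false 4 77 [1] [6561],
  .bok false 4 77 [9] [1],
  .bok false 4 77 [9] [3],
  .bok false 4 77 [9] [9],
  .bok false 4 77 [9] [81],
  .bok false 4 77 [9] [243],
  .bok false 4 77 [9] [729],
  .bok false 4 77 [9] [2187],
  .bok false 4 77 [27] [1],
  .bok false 4 77 [27] [3],
  .bok false 4 77 [27] [9],
  .bok false 4 77 [27] [81],
  .leib 1 5 76 [9] [2187],
  .leib 1 5 76 [27] [1],
  .leib 1 5 76 [27] [3],
  .leib 1 5 76 [27] [9],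
  .leib 1 5 76 [27] [27],
  .leib 1 5 76 [27] [81],
  .leib 1 5 76 [27] [243],
  .leib 1 5 76 [27] [729],
  .leib 1 5 76 [27] [2187],
  .leib 1 5 76 [27] [6561],
  .leib 1 5 76 [81] [1],
  .leib 1 5 76 [81] [3],
  .leib 1 5 76 [81] [9],
  .leib 1 5 76 [81] [27],
  .leib 1 5 76 [81] [81],
  .leib 1 5 76 [81] [243],
  .leib 1 5 76 [81] [729],
  .leib 1 5 76 [81] [2187],
  .leib 1 5 76 [81] [6561],
  .leib 3 4 74 [1] [3],
  .leib 3 4 74 [1] [9],
  .leib 3 4 74 [1] [81],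
  .leib 3 4 74 [1] [243],
  .leib 3 4 74 [1] [729],
  .leib 3 4 74 [1] [2187],
  .leib 4 3 74 [1] [2187],
  .leib 5 4 70 [9] [2187],
  .leib 5 4 70 [9] [6561],
  .leib 7 4 68 [1] [2187],
  .leib 1 6 76 [3] [1],
  .leib 1 6 76 [3] [3],
  .leib 1 6 76 [3] [9],
  .leib 1 6 76 [3] [27],
  .leib 1 6 76 [3] [81],
  .leib 1 6 76 [3] [243],
  .leib 1 6 76 [3] [729],
  .leib 1 6 76 [3] [2187],
  .leib 1 6 76 [3] [6561],
  .leib 1 6 76 [3] [19683],
  .leib 1 6 76 [3] [59049],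
  .leib 1 6 76 [9] [1],
  .leib 1 6 76 [9] [3],
  .leib 1 6 76 [9] [9],
  .leib 1 6 76 [9] [27],
  .leib 1 6 76 [9] [81],
  .leib 1 6 76 [9] [243],
  .leib 1 6 76 [9] [729],
  .leib 1 6 76 [9] [2187],
  .leib 1 6 76 [9] [6561],
  .leib 1 6 76 [9] [19683],
  .leib 1 6 76 [9] [59049],
  .leib 2 5 76 [27] [1],
  .leib 2 5 76 [27] [3],
  .leib 2 5 76 [27] [9],
  .leib 2 5 76 [27] [27],
  .leib 2 5 76 [27] [81],
  .leib 2 5 76 [27] [243],
  .leib 2 5 76 [27] [729],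
  .leib 2 5 76 [27] [2187],
  .leib 2 5 76 [81] [1],
  .leib 2 5 76 [81] [3],
  .leib 2 5 76 [81] [9],
  .leib 2 5 76 [81] [27],
  .leib 2 5 76 [81] [81],
  .leib 2 5 76 [81] [243],
  .leib 2 5 76 [81] [729],
  .leib 2 5 76 [81] [2187],
  .leib 4 4 74 [1] [27],
  .leib 4 4 74 [1] [81],
  .leib 4 4 74 [1] [243],
  .leib 4 4 74 [1] [729],
  .leib 4 4 74 [1] [2187],
  .leib 5 5 70 [3] [1],
  .leib 5 5 70 [3] [3],
  .leib 5 5 70 [3] [9],
  .leib 5 5 70 [3] [27],
  .leib 5 5 70 [3] [81],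
  .leib 5 5 70 [3] [243],
  .leib 5 5 70 [3] [729],
  .leib 5 5 70 [3] [2187],
  .leib 5 5 70 [3] [6561],
  .leib 5 5 70 [3] [19683],
  .leib 5 5 70 [3] [59049],
  .bok false 6 77 [1] [1],
  .bok false 6 77 [1] [3],
  .bok false 6 77 [1] [9],
  .bok false 6 77 [3] [1],
  .bok false 6 77 [3] [3],
  .bok false 6 77 [3] [9],
  .bok false 6 77 [3] [27],
  .bok false 6 77 [3] [81],
  .bok false 6 77 [3] [243],
  .bok false 6 77 [3] [729],
  .bok false 6 77 [3] [2187],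
  .bok false 6 77 [3] [6561],
  .bok false 6 77 [3] [19683],
  .bok false 6 77 [9] [1],
  .bok false 6 77 [9] [3],
  .bok false 6 77 [9] [9],
  .bok false 6 77 [27] [1],
  .bok false 6 77 [27] [3],
  .bok false 6 77 [27] [9],
  .bok false 6 77 [27] [27],
  .bok false 6 77 [27] [81],
  .bok false 6 77 [27] [243],
  .bok false 6 77 [27] [729],
  .bok false 6 77 [27] [2187],
  .bok false 6 77 [27] [6561],
  .bok false 6 77 [27] [19683],
  .bok false 6 77 [243] [1],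
  .bok false 6 77 [243] [3],
  .bok false 6 77 [243] [9],
  .bok false 6 77 [243] [27],
  .bok false 6 77 [243] [81],
  .bok false 6 77 [243] [243],
  .bok false 6 77 [243] [729],
  .bok false 6 77 [243] [2187],
  .bok false 6 77 [243] [6561],
  .bok false 6 77 [243] [19683],
  .bok false 6 77 [729] [1],
  .bok false 6 77 [729] [3],
  .bok false 6 77 [729] [9],
  .bok false 6 77 [729] [27],
  .bok false 6 77 [729] [81],
  .bok false 6 77 [729] [243],
  .bok false 6 77 [729] [729],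
  .bok false 6 77 [729] [2187],
  .bok false 6 77 [729] [6561],
  .bok false 6 77 [729] [19683],
  .leib 3 6 74 [3] [1],
  .leib 3 6 74 [3] [3],
  .leib 3 6 74 [3] [9],
  .leib 3 6 74 [3] [27],
  .leib 3 6 74 [3] [81],
  .leib 3 6 74 [3] [243],
  .leib 3 6 74 [3] [729],
  .leib 3 6 74 [3] [2187],
  .leib 3 6 74 [3] [6561],
  .leib 3 6 74 [3] [19683],
  .bok false 7 77 [1] [3],
  .bok false 7 77 [1] [9],
  .bok false 7 77 [1] [27],
  .bok false 7 77 [1] [81],
  .leib 3 7 74 [9] [1],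
  .leib 3 7 74 [9] [3],
  .leib 3 7 74 [9] [9],
  .leib 3 7 74 [9] [27],
  .leib 3 7 74 [9] [81],
  .leib 3 7 74 [9] [243],
  .bok false 8 77 [1] [1],
  .bok false 8 77 [1] [9],
  .bok false 8 77 [1] [27],
  .leib 1 9 76 [9] [1],
  .leib 1 9 76 [9] [3],
  .leib 1 9 76 [9] [9],
  .leib 1 9 76 [9] [27],
  .leib 1 9 76 [9] [81],
  .leib 1 9 76 [9] [243],
  .leib 1 9 76 [9] [729],
  .leib 1 9 76 [27] [1],
  .leib 1 9 76 [27] [3],
  .leib 1 9 76 [27] [9],
  .leib 1 9 76 [27] [27],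
  .leib 1 9 76 [27] [81],
  .leib 1 9 76 [27] [243],
  .leib 1 9 76 [27] [729],
  .leib 3 8 74 [81] [1],
  .leib 3 8 74 [81] [3],
  .leib 3 8 74 [81] [9],
  .leib 3 8 74 [81] [27],
  .leib 3 8 74 [81] [81],
  .leib 3 8 74 [81] [243],
  .leib 3 8 74 [81] [729],
  .bok false 9 77 [1] [1],
  .bok false 9 77 [1] [3],
  .bok false 9 77 [1] [9],
  .bok false 9 77 [1] [27],
  .bok false 9 77 [1] [81],
  .bok false 9 77 [1] [243],
  .bok false 9 77 [1] [729],
  .bok false 9 77 [1] [2187],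
  .bok false 9 77 [1] [6561],
  .bok false 9 77 [3] [1],
  .bok false 9 77 [3] [3],
  .bok false 9 77 [3] [9],
  .bok false 9 77 [3] [27],
  .bok false 9 77 [3] [81],
  .bok false 9 77 [3] [243],
  .bok false 9 77 [3] [729],
  .bok false 9 77 [3] [2187],
  .bok false 9 77 [3] [6561],
  .bok false 9 77 [27] [1],
  .bok false 9 77 [27] [3],
  .bok false 9 77 [27] [9],
  .bok false 9 77 [27] [27],
  .bok false 9 77 [27] [81],
  .bok false 9 77 [27] [243],
  .bok false 9 77 [27] [729],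
  .bok false 9 77 [27] [2187],
  .bok false 9 77 [27] [6561],
  .bok false 9 77 [81] [1],
  .bok false 9 77 [81] [3],
  .bok false 9 77 [81] [9],
  .bok false 9 77 [81] [27],
  .bok false 9 77 [81] [81],
  .bok false 9 77 [81] [243],
  .bok false 9 77 [81] [729],
  .bok false 9 77 [81] [2187],
  .bok false 9 77 [81] [6561],
  .leib 3 9 74 [1] [1],
  .leib 3 9 74 [1] [3],
  .leib 3 9 74 [1] [9],
  .leib 3 9 74 [1] [27],
  .leib 3 9 74 [1] [81],
  .leib 3 9 74 [1] [243],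
  .leib 3 9 74 [1] [729],
  .leib 3 9 74 [1] [2187],
  .leib 3 9 74 [1] [6561],
  .leib 3 9 74 [3] [1],
  .leib 3 9 74 [3] [3],
  .leib 3 9 74 [3] [9],
  .leib 3 9 74 [3] [27],
  .leib 3 9 74 [3] [81],
  .leib 3 9 74 [3] [243],
  .leib 3 9 74 [3] [729],
  .leib 3 9 74 [3] [2187],
  .leib 3 9 74 [3] [6561],
  .leib 5 9 70 [3] [1],
  .leib 5 9 70 [3] [3],
  .leib 5 9 70 [3] [9],
  .leib 5 9 70 [3] [27],
  .leib 5 9 70 [3] [81],
  .leib 5 9 70 [3] [243],
  .leib 5 9 70 [3] [729],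
  .leib 5 9 70 [3] [2187],
  .leib 5 9 70 [3] [6561],
  .bok false 10 77 [1] [9],
  .bok false 10 77 [1] [27],
  .bok false 10 77 [1] [81],
  .bok false 10 77 [1] [243],
  .bok false 10 77 [3] [9],
  .bok false 10 77 [3] [27],
  .bok false 10 77 [3] [81],
  .bok false 10 77 [3] [243],
  .bok false 10 77 [9] [9],
  .bok false 10 77 [9] [27],
  .bok false 10 77 [9] [81],
  .bok false 10 77 [9] [243],
  .leib 1 12 76 [81] [9],
  .leib 1 12 76 [729] [1],
  .leib 1 12 76 [729] [9],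
  .leib 1 12 76 [2187] [1],
  .leib 1 12 76 [2187] [9],
  .leib 3 11 74 [729] [1],
  .leib 3 11 74 [729] [9],
  .bok false 12 77 [1] [1],
  .bok false 12 77 [1] [3],
  .bok false 12 77 [1] [9],
  .bok false 12 77 [1] [27],
  .bok false 12 77 [3] [1],
  .bok false 12 77 [3] [3],
  .bok false 12 77 [3] [9],
  .bok false 12 77 [3] [27],
  .bok false 12 77 [3] [81],
  .bok false 12 77 [3] [243],
  .bok false 12 77 [3] [729],
  .bok false 12 77 [9] [1],
  .bok false 12 77 [9] [3],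
  .bok false 12 77 [9] [9],
  .bok false 12 77 [9] [81],
  .bok false 12 77 [9] [243],
  .bok false 12 77 [9] [729],
  .leib 1 13 76 [3] [1],
  .leib 1 13 76 [3] [3],
  .leib 1 13 76 [3] [9],
  .leib 1 13 76 [3] [81],
  .leib 1 13 76 [3] [243],
  .leib 1 13 76 [3] [729],
  .leib 1 13 76 [9] [1],
  .leib 1 13 76 [9] [3],
  .leib 1 13 76 [9] [9],
  .leib 1 13 76 [9] [81],
  .leib 1 13 76 [9] [243],
  .leib 1 13 76 [9] [729],
  .leib 1 13 76 [27] [1],
  .leib 1 13 76 [27] [3],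
  .leib 1 13 76 [27] [9],
  .leib 1 13 76 [27] [81],
  .leib 1 13 76 [27] [243],
  .leib 1 13 76 [27] [729],
  .leib 3 12 74 [9] [81],
  .leib 3 12 74 [9] [243],
  .leib 3 12 74 [9] [729],
  .leib 3 12 74 [243] [1],
  .leib 3 12 74 [243] [3],
  .leib 3 12 74 [243] [9],
  .leib 3 12 74 [243] [81],
  .leib 3 12 74 [243] [243],
  .leib 3 12 74 [243] [729],
  .leib 3 12 74 [729] [1],
  .leib 3 12 74 [729] [3],
  .leib 3 12 74 [729] [9],
  .leib 3 12 74 [729] [243],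
  .leib 3 12 74 [729] [729],
  .leib 5 12 70 [27] [81],
  .leib 5 12 70 [27] [243],
  .leib 5 12 70 [27] [729],
  .bok false 13 77 [1] [9],
  .bok false 13 77 [1] [27],
  .bok false 13 77 [1] [81],
  .bok false 13 77 [1] [243],
  .bok false 13 77 [1] [729],
  .bok false 13 77 [9] [9],
  .bok false 13 77 [9] [27],
  .bok false 13 77 [9] [81],
  .bok false 13 77 [9] [243],
  .bok false 13 77 [9] [729],
  .bok false 13 77 [81] [9],
  .bok false 13 77 [81] [27],
  .bok false 13 77 [81] [81],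
  .bok false 13 77 [81] [243],
  .bok false 13 77 [81] [729],
  .bok false 13 77 [729] [9],
  .bok false 13 77 [729] [27],
  .bok false 13 77 [729] [81],
  .bok false 13 77 [729] [243],
  .bok false 13 77 [729] [729],
  .bok false 13 77 [2187] [9],
  .bok false 13 77 [2187] [27],
  .bok false 13 77 [2187] [81],
  .bok false 13 77 [2187] [243],
  .bok false 13 77 [2187] [729],
  .leib 3 13 74 [1] [1],
  .leib 3 13 74 [1] [3],
  .leib 3 13 74 [1] [9],
  .leib 3 13 74 [1] [27],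
  .leib 3 13 74 [1] [81],
  .leib 3 13 74 [1] [243],
  .leib 3 13 74 [1] [729],
  .leib 3 13 74 [1] [2187],
  .bok false 14 77 [1] [3],
  .bok false 14 77 [1] [9],
  .bok false 14 77 [1] [27],
  .leib 1 16 76 [3] [1],
  .leib 1 16 76 [3] [3],
  .leib 1 16 76 [9] [1],
  .leib 1 16 76 [9] [3],
  .leib 1 16 76 [27] [1],
  .leib 1 16 76 [27] [3],
  .leib 3 15 74 [729] [1],
  .leib 3 15 74 [729] [3],
  .bok false 16 77 [1] [243],
  .bok false 16 77 [3] [243],
  .bok false 16 77 [9] [243],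
  .bok false 16 77 [27] [243],
  .leib 3 16 74 [9] [243],
  .leib 3 16 74 [27] [243],
  .leib 3 17 74 [1] [1],
  .leib 3 17 74 [1] [3],
  .leib 3 17 74 [1] [9],
  .leib 3 17 74 [1] [27],
  .leib 3 17 74 [1] [81],
  .bok false 18 77 [1] [9],
  .leib 1 19 76 [27] [9],
  .leib 1 3 77 [3] [81],
  .leib 1 3 77 [3] [243],
  .leib 3 2 75 [1] [81],
  .leib 3 2 75 [1] [243],
  .leib 3 2 75 [3] [1],
  .leib 3 2 75 [3] [3],
  .leib 3 2 75 [3] [9],
  .leib 3 2 75 [3] [81],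
  .leib 3 2 75 [3] [243],
  .leib 7 2 69 [3] [81],
  .leib 7 2 69 [3] [243],
  .bok false 3 78 [1] [1],
  .bok false 3 78 [1] [3],
  .bok false 3 78 [1] [9],
  .bok false 3 78 [1] [27],
  .bok false 3 78 [1] [81],
  .leib 1 4 77 [9] [1],
  .leib 1 4 77 [9] [3],
  .leib 1 4 77 [9] [9],
  .leib 1 4 77 [9] [27],
  .leib 1 4 77 [9] [81],
  .leib 2 3 77 [3] [9],
  .leib 2 3 77 [3] [27],
  .leib 2 3 77 [3] [81],
  .leib 3 3 75 [1] [1],
  .leib 3 3 75 [1] [3],
  .leib 3 3 75 [1] [9],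
  .leib 3 3 75 [1] [27],
  .leib 3 3 75 [1] [81],
  .leib 3 3 75 [3] [1],
  .leib 3 3 75 [3] [3],
  .leib 3 3 75 [3] [9],
  .leib 3 3 75 [3] [27],
  .leib 3 3 75 [3] [81],
  .leib 7 3 69 [9] [9],
  .leib 7 3 69 [9] [27],
  .leib 7 3 69 [9] [81],
  .leib 7 3 69 [27] [9],
  .leib 7 3 69 [27] [27],
  .leib 7 3 69 [27] [81],
  .leib 9 3 63 [9] [9],
  .leib 9 3 63 [9] [27],
  .bok false 4 78 [1] [1],
  .bok false 4 78 [1] [3],
  .bok false 4 78 [1] [9],
  .bok false 4 78 [1] [27],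
  .bok false 4 78 [1] [81],
  .bok false 4 78 [1] [243],
  .bok false 4 78 [1] [729],
  .bok false 4 78 [1] [2187],
  .bok false 4 78 [3] [1],
  .bok false 4 78 [3] [3],
  .bok false 4 78 [3] [9],
  .bok false 4 78 [3] [27],
  .bok false 4 78 [3] [81],
  .bok false 4 78 [3] [243],
  .bok false 4 78 [3] [729],
  .bok false 4 78 [3] [2187],
  .bok false 4 78 [27] [1],
  .bok false 4 78 [27] [3],
  .bok false 4 78 [27] [9],
  .bok false 4 78 [27] [27],
  .bok false 4 78 [27] [81],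
  .bok false 4 78 [27] [243],
  .bok false 4 78 [27] [729],
  .bok false 4 78 [27] [2187],
  .leib 1 5 77 [9] [1],
  .leib 1 5 77 [9] [3],
  .leib 1 5 77 [9] [9],
  .leib 1 5 77 [9] [27],
  .leib 1 5 77 [9] [81],
  .leib 1 5 77 [9] [243],
  .leib 1 5 77 [9] [729],
  .leib 1 5 77 [9] [2187],
  .leib 3 4 75 [9] [1],
  .leib 3 4 75 [9] [3],
  .leib 3 4 75 [9] [9],
  .leib 3 4 75 [9] [729],
  .leib 3 4 75 [9] [2187],
  .leib 7 4 69 [243] [1],
  .leib 7 4 69 [243] [3],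
  .leib 7 4 69 [243] [9],
  .leib 7 4 69 [243] [27],
  .leib 7 4 69 [243] [81],
  .leib 7 4 69 [243] [243],
  .leib 7 4 69 [243] [729],
  .leib 7 4 69 [243] [2187],
  .bok false 5 78 [1] [1],
  .bok false 5 78 [1] [3],
  .bok false 5 78 [1] [9],
  .bok false 5 78 [1] [27],
  .bok false 5 78 [1] [81],
  .bok false 5 78 [1] [243],
  .bok false 5 78 [1] [729],
  .bok false 5 78 [3] [1],
  .bok false 5 78 [3] [3],
  .bok false 5 78 [3] [9],
  .bok false 5 78 [3] [27],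
  .bok false 5 78 [3] [81],
  .bok false 5 78 [3] [243],
  .bok false 5 78 [3] [729],
  .bok false 5 78 [27] [1],
  .bok false 5 78 [27] [3],
  .bok false 5 78 [27] [9],
  .bok false 5 78 [27] [27],
  .bok false 5 78 [27] [81],
  .leib 1 6 77 [27] [243],
  .leib 1 6 77 [27] [729],
  .leib 1 6 77 [81] [1],
  .leib 1 6 77 [81] [3],
  .leib 1 6 77 [81] [9],
  .leib 1 6 77 [81] [27],
  .leib 1 6 77 [81] [81],
  .leib 1 6 77 [81] [243],
  .leib 1 6 77 [81] [729],
  .leib 3 5 75 [3] [243],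
  .leib 3 5 75 [3] [729],
  .leib 3 5 75 [27] [1],
  .leib 3 5 75 [27] [3],
  .leib 3 5 75 [27] [9],
  .leib 3 5 75 [27] [27],
  .leib 3 5 75 [27] [81],
  .leib 3 5 75 [27] [243],
  .leib 3 5 75 [27] [729],
  .leib 3 5 75 [81] [1],
  .leib 3 5 75 [81] [3],
  .leib 3 5 75 [81] [27],
  .leib 3 5 75 [81] [81],
  .leib 3 5 75 [81] [243],
  .leib 3 5 75 [81] [729],
  .leib 7 5 69 [243] [243],
  .leib 7 5 69 [243] [729],
  .bok false 6 78 [3] [1],
  .bok false 6 78 [3] [3],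
  .bok false 6 78 [3] [9],
  .bok false 6 78 [3] [27],
  .bok false 6 78 [3] [81],
  .bok false 6 78 [9] [1],
  .bok false 6 78 [9] [3],
  .bok false 6 78 [9] [9],
  .bok false 6 78 [9] [27],
  .bok false 6 78 [9] [81],
  .bok false 6 78 [81] [1],
  .bok false 6 78 [81] [3],
  .bok false 6 78 [81] [9],
  .bok false 6 78 [81] [27],
  .bok false 6 78 [81] [81],
  .leib 1 7 77 [27] [9],
  .leib 1 7 77 [27] [27],
  .leib 1 7 77 [27] [81],
  .leib 1 7 77 [81] [1],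
  .leib 1 7 77 [81] [3],
  .leib 1 7 77 [81] [9],
  .leib 1 7 77 [81] [27],
  .leib 1 7 77 [81] [81],
  .leib 3 6 75 [3] [9],
  .leib 3 6 75 [3] [27],
  .leib 3 6 75 [3] [81],
  .leib 3 6 75 [81] [1],
  .leib 3 6 75 [81] [3],
  .leib 3 6 75 [81] [9],
  .leib 3 6 75 [81] [27],
  .leib 3 6 75 [81] [81],
  .leib 3 6 75 [243] [1],
  .leib 3 6 75 [243] [3],
  .leib 3 6 75 [243] [9],
  .leib 3 6 75 [243] [27],
  .leib 3 6 75 [243] [81],
  .leib 7 6 69 [243] [9],
  .leib 7 6 69 [243] [27],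
  .leib 7 6 69 [243] [81],
  .bok false 7 78 [1] [9],
  .bok false 7 78 [1] [27],
  .bok false 7 78 [1] [81],
  .bok false 7 78 [3] [9],
  .bok false 7 78 [3] [27],
  .bok false 7 78 [3] [81],
  .bok false 7 78 [243] [3],
  .bok false 7 78 [243] [9],
  .bok false 7 78 [243] [27],
  .bok false 7 78 [243] [81],
  .bok false 7 78 [243] [243],
  .bok false 7 78 [243] [729],
  .bok false 7 78 [243] [2187],
  .bok false 7 78 [243] [6561],
  .leib 1 8 77 [3] [3],
  .leib 1 8 77 [3] [9],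
  .leib 1 8 77 [3] [27],
  .leib 1 8 77 [3] [81],
  .leib 1 8 77 [3] [243],
  .leib 1 8 77 [3] [729],
  .leib 1 8 77 [3] [2187],
  .leib 1 8 77 [3] [6561],
  .leib 3 7 75 [27] [3],
  .leib 3 7 75 [27] [9],
  .leib 3 7 75 [27] [27],
  .leib 3 7 75 [27] [81],
  .leib 3 7 75 [27] [243],
  .leib 3 7 75 [27] [729],
  .leib 3 7 75 [27] [2187],
  .leib 3 7 75 [27] [6561],
  .leib 3 7 75 [81] [3],
  .leib 3 7 75 [81] [9],
  .leib 3 7 75 [81] [27],
  .leib 3 7 75 [81] [81],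
  .leib 3 7 75 [81] [243],
  .leib 3 7 75 [81] [729],
  .leib 3 7 75 [81] [2187],
  .leib 3 7 75 [81] [6561],
  .leib 5 7 71 [1] [3],
  .leib 5 7 71 [1] [9],
  .leib 5 7 71 [1] [27],
  .leib 5 7 71 [1] [81],
  .leib 5 7 71 [1] [243],
  .leib 5 7 71 [1] [729],
  .leib 5 7 71 [1] [2187],
  .leib 5 7 71 [1] [6561],
  .leib 7 7 69 [27] [243],
  .leib 7 7 69 [27] [2187],
  .leib 7 7 69 [27] [6561],
  .leib 9 7 63 [9] [243],
  .bok false 8 78 [1] [1],
  .bok false 8 78 [1] [3],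
  .bok false 8 78 [1] [9],
  .bok false 8 78 [1] [27],
  .bok false 8 78 [1] [81],
  .bok false 8 78 [1] [243],
  .bok false 8 78 [1] [729],
  .bok false 8 78 [1] [2187],
  .bok false 8 78 [1] [6561],
  .bok false 8 78 [3] [1],
  .bok false 8 78 [3] [3],
  .bok false 8 78 [3] [9],
  .bok false 8 78 [3] [27],
  .bok false 8 78 [3] [81],
  .bok false 8 78 [3] [243],
  .bok false 8 78 [3] [729],
  .bok false 8 78 [3] [2187],
  .bok false 8 78 [3] [6561],
  .bok false 8 78 [9] [1],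
  .bok false 8 78 [9] [3],
  .bok false 8 78 [9] [9],
  .bok false 8 78 [9] [27],
  .bok false 8 78 [9] [81],
  .bok false 8 78 [9] [243],
  .bok false 8 78 [9] [729],
  .bok false 8 78 [9] [2187],
  .bok false 8 78 [9] [6561],
  .bok false 8 78 [27] [1],
  .bok false 8 78 [27] [3],
  .bok false 8 78 [27] [9],
  .bok false 8 78 [27] [27],
  .bok false 8 78 [27] [81],
  .bok false 8 78 [27] [243],
  .bok false 8 78 [27] [729],
  .bok false 8 78 [27] [2187],
  .bok false 8 78 [27] [6561],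
  .leib 1 9 77 [3] [1],
  .leib 1 9 77 [3] [3],
  .leib 1 9 77 [3] [9],
  .leib 1 9 77 [3] [27],
  .leib 1 9 77 [3] [81],
  .leib 1 9 77 [3] [243],
  .leib 1 9 77 [3] [729],
  .leib 1 9 77 [3] [2187],
  .leib 1 9 77 [3] [6561],
  .leib 1 9 77 [9] [1],
  .leib 1 9 77 [9] [3],
  .leib 1 9 77 [9] [9],
  .leib 1 9 77 [9] [27],
  .leib 1 9 77 [9] [81],
  .leib 1 9 77 [9] [243],
  .leib 1 9 77 [9] [729],
  .leib 1 9 77 [9] [2187],
  .leib 1 9 77 [9] [6561],
  .leib 3 8 75 [1] [6561],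
  .leib 3 8 75 [27] [1],
  .leib 3 8 75 [27] [3],
  .leib 3 8 75 [27] [9],
  .leib 3 8 75 [27] [27],
  .leib 3 8 75 [27] [81],
  .leib 3 8 75 [27] [243],
  .leib 3 8 75 [27] [729],
  .leib 3 8 75 [27] [2187],
  .leib 3 8 75 [27] [6561],
  .leib 3 8 75 [81] [1],
  .leib 3 8 75 [81] [3],
  .leib 3 8 75 [81] [9],
  .leib 3 8 75 [81] [27],
  .leib 3 8 75 [81] [81],
  .leib 3 8 75 [81] [243],
  .leib 3 8 75 [81] [729],
  .leib 3 8 75 [81] [2187],
  .leib 3 8 75 [81] [6561],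
  .leib 5 8 71 [1] [6561],
  .bok false 9 78 [1] [1],
  .bok false 9 78 [1] [3],
  .bok false 9 78 [1] [9],
  .bok false 9 78 [3] [1],
  .bok false 9 78 [3] [3],
  .bok false 9 78 [3] [9],
  .bok false 9 78 [9] [1],
  .bok false 9 78 [9] [3],
  .bok false 9 78 [9] [9],
  .bok false 9 78 [243] [1],
  .bok false 9 78 [243] [3],
  .bok false 9 78 [243] [9],
  .leib 1 10 77 [243] [1],
  .leib 1 10 77 [243] [3],
  .leib 1 10 77 [243] [9],
  .leib 1 10 77 [243] [27],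
  .leib 1 10 77 [243] [81],
  .leib 1 10 77 [729] [1],
  .leib 1 10 77 [729] [3],
  .leib 1 10 77 [729] [9],
  .leib 1 10 77 [729] [27],
  .leib 1 10 77 [729] [81],
  .leib 3 9 75 [81] [1],
  .leib 3 9 75 [81] [3],
  .leib 3 9 75 [81] [9],
  .leib 3 9 75 [81] [27],
  .leib 3 9 75 [81] [81],
  .leib 3 9 75 [243] [1],
  .leib 3 9 75 [243] [3],
  .leib 3 9 75 [243] [9],
  .leib 3 9 75 [243] [27],
  .leib 3 9 75 [243] [81],
  .leib 4 8 75 [9] [27],
  .leib 4 8 75 [9] [81],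
  .leib 5 9 71 [81] [27],
  .leib 5 9 71 [81] [81],
  .leib 5 9 71 [243] [27],
  .leib 5 9 71 [243] [81],
  .leib 9 9 63 [243] [27],
  .leib 9 9 63 [243] [81],
  .bok false 10 78 [1] [1],
  .bok false 10 78 [1] [3],
  .bok false 10 78 [9] [1],
  .bok false 10 78 [9] [3],
  .bok false 10 78 [27] [1],
  .bok false 10 78 [27] [3],
  .bok false 10 78 [81] [1],
  .bok false 10 78 [81] [3],
  .bok false 10 78 [6561] [1],
  .bok false 10 78 [6561] [3],
  .bok false 10 78 [6561] [9],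
  .bok false 10 78 [6561] [27],
  .bok false 10 78 [6561] [81],
  .bok false 10 78 [6561] [243],
  .leib 1 11 77 [1] [1],
  .leib 1 11 77 [1] [3],
  .leib 1 11 77 [1] [9],
  .leib 1 11 77 [1] [27],
  .leib 1 11 77 [1] [81],
  .leib 1 11 77 [1] [243],
  .leib 1 11 77 [3] [1],
  .leib 1 11 77 [3] [3],
  .leib 1 11 77 [3] [9],
  .leib 1 11 77 [3] [27],
  .leib 1 11 77 [3] [81],
  .leib 1 11 77 [3] [243],
  .leib 1 11 77 [9] [1],
  .leib 1 11 77 [9] [3],
  .leib 1 11 77 [9] [9],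
  .leib 1 11 77 [9] [27],
  .leib 1 11 77 [9] [81],
  .leib 1 11 77 [9] [243],
  .leib 3 10 75 [9] [9],
  .leib 3 10 75 [9] [27],
  .leib 3 10 75 [9] [81],
  .leib 3 10 75 [9] [243],
  .leib 3 10 75 [729] [1],
  .leib 3 10 75 [729] [3],
  .leib 3 10 75 [729] [9],
  .leib 3 10 75 [729] [27],
  .leib 3 10 75 [729] [81],
  .leib 3 10 75 [729] [243],
  .leib 3 10 75 [2187] [1],
  .leib 3 10 75 [2187] [3],
  .leib 3 10 75 [2187] [9],
  .leib 3 10 75 [2187] [27],
  .leib 3 10 75 [2187] [81],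
  .leib 3 10 75 [2187] [243],
  .leib 3 10 75 [6561] [1],
  .leib 3 10 75 [6561] [9],
  .leib 3 10 75 [6561] [27],
  .leib 3 10 75 [6561] [81],
  .leib 3 10 75 [6561] [243],
  .leib 5 10 71 [81] [9],
  .leib 5 10 71 [81] [27],
  .leib 5 10 71 [81] [81],
  .leib 5 10 71 [81] [243],
  .bok false 11 78 [1] [1],
  .bok false 11 78 [1] [3],
  .bok false 11 78 [1] [9],
  .bok false 11 78 [1] [27],
  .bok false 11 78 [1] [81],
  .bok false 11 78 [1] [243],
  .bok false 11 78 [1] [729],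
  .bok false 11 78 [3] [1],
  .bok false 11 78 [3] [3],
  .bok false 11 78 [3] [9],
  .bok false 11 78 [3] [27],
  .bok false 11 78 [3] [81],
  .bok false 11 78 [3] [243],
  .bok false 11 78 [3] [729],
  .bok false 11 78 [27] [1],
  .bok false 11 78 [27] [3],
  .bok false 11 78 [27] [9],
  .bok false 11 78 [27] [27],
  .bok false 11 78 [27] [81],
  .bok false 11 78 [27] [243],
  .bok false 11 78 [27] [729],
  .bok false 11 78 [81] [1],
  .bok false 11 78 [81] [3],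
  .bok false 11 78 [81] [9],
  .bok false 11 78 [81] [27],
  .bok false 11 78 [81] [81],
  .bok false 11 78 [81] [243],
  .bok false 11 78 [81] [729],
  .bok false 11 78 [243] [1],
  .bok false 11 78 [243] [3],
  .bok false 11 78 [243] [9],
  .bok false 11 78 [243] [27],
  .bok false 11 78 [243] [81],
  .bok false 11 78 [243] [243],
  .bok false 11 78 [243] [729],
  .bok false 11 78 [19683] [1],
  .bok false 11 78 [19683] [3],
  .bok false 11 78 [19683] [9],
  .bok false 11 78 [19683] [27],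
  .bok false 11 78 [19683] [81],
  .bok false 11 78 [19683] [243],
  .bok false 11 78 [19683] [729],
  .bok false 11 78 [59049] [1],
  .bok false 11 78 [59049] [3],
  .bok false 11 78 [59049] [9],
  .bok false 11 78 [59049] [81],
  .leib 3 11 75 [9] [1],
  .leib 3 11 75 [9] [3],
  .leib 3 11 75 [9] [9],
  .leib 3 11 75 [9] [27],
  .leib 3 11 75 [9] [81],
  .leib 3 11 75 [9] [243],
  .leib 3 11 75 [9] [729],
  .leib 3 11 75 [27] [1],
  .leib 3 11 75 [27] [3],
  .leib 3 11 75 [27] [9],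
  .leib 3 11 75 [27] [27],
  .leib 3 11 75 [27] [81],
  .leib 3 11 75 [27] [243],
  .leib 3 11 75 [27] [729],
  .leib 3 11 75 [81] [1]]
 Pf.done)

theorem cchk5 : (ofTab P236Q.tauF).chunk
    (cex0 ++ (cex1 ++ (cex2 ++ (cex3 ++ cex4))))
    cpf5 cex5 = true := by
  decide +kernel

end Vale.Agent.P236E
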