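import Vale.Agent.P236Et.Ex
import Vale.Agent.P236Qt.TauF

/-!
# P236, block ENG: part 6 of the certificate
-/

namespace Vale.Agent.P236E

set_option maxRecDepth 100000

noncomputable def cpf6 : Pf :=
 (steps [.leib 3 11 75 [81] [3],
  .leib 3 11 75 [81] [9],
  .leib 3 11 75 [81] [27],
  .leib 3 11 75 [81] [81],
  .leib 3 11 75 [81] [243],
  .leib 3 11 75 [81] [729],
  .bok false 12 78 [1] [3],
  .bok false 12 78 [1] [9],
  .bok false 12 78 [1] [27],
  .bok false 12 78 [9] [3],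
  .bok false 12 78 [9] [9],
  .bok false 12 78 [9] [27],
  .bok false 12 78 [27] [3],
  .bok false 12 78 [27] [9],
  .bok false 12 78 [27] [27],
  .bok false 12 78 [81] [3],
  .bok false 12 78 [81] [9],
  .bok false 12 78 [81] [27],
  .leib 1 13 77 [243] [3],
  .leib 1 13 77 [243] [9],
  .leib 1 13 77 [243] [27],
  .leib 3 12 75 [81] [3],
  .leib 3 12 75 [81] [9],
  .leib 3 12 75 [81] [27],
  .leib 1 15 77 [1] [1],
  .leib 1 15 77 [1] [3],
  .leib 1 15 77 [1] [9],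
  .leib 1 15 77 [1] [243],
  .leib 2 14 77 [81] [1],
  .leib 2 14 77 [81] [3],
  .leib 2 14 77 [81] [9],
  .leib 3 14 75 [9] [1],
  .leib 3 14 75 [9] [3],
  .leib 3 14 75 [9] [9],
  .leib 3 14 75 [9] [243],
  .leib 4 13 75 [3] [243],
  .bok false 15 78 [1] [3],
  .bok false 15 78 [1] [9],
  .bok false 15 78 [1] [27],
  .bok false 15 78 [1] [81],
  .bok false 15 78 [3] [3],
  .bok false 15 78 [3] [9],
  .bok false 15 78 [3] [27],
  .bok false 15 78 [3] [81],
  .leib 3 15 75 [3] [3],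
  .leib 3 15 75 [3] [9],
  .leib 3 15 75 [3] [27],
  .leib 3 15 75 [3] [81],
  .leib 4 17 75 [1] [1],
  .leib 4 17 75 [1] [3],
  .leib 4 17 75 [1] [81],
  .leib 4 17 75 [1] [243],
  .leib 4 18 75 [27] [1],
  .leib 4 18 75 [27] [9],
  .leib 4 19 75 [3] [1],
  .bok false 1 79 [1] [3],
  .bok false 1 79 [1] [9],
  .leib 1 4 78 [9] [1],
  .leib 1 4 78 [9] [3],
  .leib 1 4 78 [9] [9],
  .leib 1 4 78 [9] [27],
  .leib 11 3 60 [9] [1],
  .leib 11 3 60 [9] [3],
  .leib 11 3 60 [9] [9],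
  .leib 11 3 60 [9] [27],
  .bok false 4 79 [1] [1],
  .bok false 4 79 [1] [3],
  .bok false 4 79 [1] [9],
  .bok false 4 79 [3] [1],
  .bok false 4 79 [3] [3],
  .bok false 4 79 [3] [9],
  .leib 1 5 78 [1] [9],
  .leib 1 5 78 [81] [1],
  .leib 1 5 78 [81] [3],
  .leib 1 5 78 [81] [9],
  .leib 3 4 76 [27] [3],
  .leib 3 4 76 [27] [9],
  .leib 3 4 76 [81] [3],
  .leib 3 4 76 [81] [9],
  .bok false 5 79 [3] [1],
  .bok false 5 79 [3] [3],
  .bok false 5 79 [3] [9],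
  .bok false 5 79 [3] [81],
  .bok false 5 79 [3] [243],
  .bok false 5 79 [3] [729],
  .bok false 5 79 [9] [1],
  .bok false 5 79 [9] [3],
  .bok false 5 79 [9] [9],
  .bok false 5 79 [9] [81],
  .bok false 5 79 [9] [243],
  .bok false 5 79 [9] [729],
  .bok false 5 79 [27] [1],
  .bok false 5 79 [27] [3],
  .bok false 5 79 [27] [9],
  .bok false 5 79 [27] [81],
  .bok false 5 79 [27] [243],
  .bok false 5 79 [27] [729],
  .leib 1 6 78 [81] [1],
  .leib 1 6 78 [81] [3],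
  .leib 1 6 78 [81] [9],
  .leib 1 6 78 [81] [81],
  .leib 1 6 78 [81] [243],
  .leib 1 6 78 [81] [729],
  .leib 3 5 76 [3] [81],
  .leib 3 5 76 [3] [729],
  .leib 3 5 76 [9] [81],
  .leib 3 5 76 [9] [729],
  .leib 3 5 76 [27] [1],
  .leib 3 5 76 [27] [3],
  .leib 3 5 76 [27] [9],
  .leib 3 5 76 [27] [81],
  .leib 3 5 76 [27] [243],
  .leib 3 5 76 [27] [729],
  .leib 3 5 76 [81] [1],
  .leib 3 5 76 [81] [3],
  .leib 3 5 76 [81] [9],
  .leib 3 5 76 [81] [81],
  .leib 3 5 76 [81] [243],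
  .leib 3 5 76 [81] [729],
  .leib 5 5 72 [81] [1],
  .leib 5 5 72 [81] [3],
  .leib 5 5 72 [81] [9],
  .leib 5 5 72 [81] [81],
  .leib 5 5 72 [81] [243],
  .leib 5 5 72 [81] [729],
  .leib 7 5 70 [3] [1],
  .leib 7 5 70 [3] [81],
  .leib 7 5 70 [3] [729],
  .leib 9 5 64 [1] [81],
  .leib 9 5 64 [1] [729],
  .bok false 6 79 [3] [1],
  .bok false 6 79 [3] [3],
  .bok false 6 79 [3] [9],
  .bok false 6 79 [3] [27],
  .bok false 6 79 [3] [81],
  .bok false 6 79 [3] [243],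
  .bok false 6 79 [3] [729],
  .bok false 6 79 [3] [2187],
  .bok false 6 79 [27] [1],
  .bok false 6 79 [27] [3],
  .bok false 6 79 [27] [9],
  .bok false 6 79 [27] [27],
  .bok false 6 79 [27] [81],
  .bok false 6 79 [27] [243],
  .bok false 6 79 [27] [729],
  .bok false 6 79 [27] [2187],
  .bok false 6 79 [81] [1],
  .bok false 6 79 [81] [3],
  .bok false 6 79 [81] [9],
  .bok false 6 79 [81] [27],
  .bok false 6 79 [81] [81],
  .bok false 6 79 [81] [243],
  .bok false 6 79 [81] [729],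
  .bok false 6 79 [81] [2187],
  .bok false 6 79 [243] [1],
  .bok false 6 79 [243] [3],
  .bok false 6 79 [243] [9],
  .bok false 6 79 [243] [27],
  .bok false 6 79 [243] [81],
  .bok false 6 79 [243] [243],
  .bok false 6 79 [243] [729],
  .bok false 6 79 [243] [2187],
  .leib 1 7 78 [27] [1],
  .leib 1 7 78 [27] [3],
  .leib 1 7 78 [27] [9],
  .leib 1 7 78 [27] [27],
  .leib 1 7 78 [27] [81],
  .leib 1 7 78 [27] [243],
  .leib 1 7 78 [27] [729],
  .leib 1 7 78 [27] [2187],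
  .leib 3 6 76 [3] [1],
  .leib 3 6 76 [3] [3],
  .leib 3 6 76 [3] [9],
  .leib 3 6 76 [3] [27],
  .leib 3 6 76 [3] [81],
  .leib 3 6 76 [3] [243],
  .leib 3 6 76 [3] [729],
  .leib 3 6 76 [3] [2187],
  .leib 3 6 76 [9] [1],
  .leib 3 6 76 [9] [3],
  .leib 3 6 76 [9] [9],
  .leib 3 6 76 [9] [27],
  .leib 3 6 76 [9] [81],
  .leib 3 6 76 [9] [243],
  .leib 3 6 76 [9] [729],
  .leib 3 6 76 [9] [2187],
  .leib 5 6 72 [81] [1],
  .leib 5 6 72 [81] [3],
  .leib 5 6 72 [81] [9],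
  .leib 5 6 72 [81] [27],
  .leib 5 6 72 [81] [81],
  .leib 5 6 72 [81] [243],
  .leib 5 6 72 [81] [729],
  .leib 5 6 72 [81] [2187],
  .bok false 7 79 [1] [1],
  .bok false 7 79 [1] [3],
  .bok false 7 79 [1] [9],
  .bok false 7 79 [3] [1],
  .bok false 7 79 [3] [3],
  .bok false 7 79 [3] [9],
  .bok false 7 79 [9] [1],
  .bok false 7 79 [9] [3],
  .bok false 7 79 [9] [9],
  .bok false 7 79 [27] [1],
  .bok false 7 79 [27] [3],
  .bok false 7 79 [27] [9],
  .leib 1 8 78 [81] [1],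
  .leib 1 8 78 [81] [3],
  .leib 1 8 78 [81] [9],
  .bok false 8 79 [1] [1],
  .bok false 8 79 [1] [3],
  .bok false 8 79 [1] [9],
  .bok false 8 79 [3] [1],
  .bok false 8 79 [3] [3],
  .bok false 8 79 [3] [9],
  .leib 1 9 78 [27] [1],
  .leib 1 9 78 [27] [3],
  .leib 1 9 78 [27] [9],
  .leib 1 9 78 [81] [1],
  .leib 1 9 78 [81] [3],
  .leib 1 9 78 [81] [9],
  .leib 1 9 78 [243] [1],
  .leib 1 9 78 [243] [3],
  .leib 1 9 78 [243] [9],
  .bok false 9 79 [1] [1],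
  .bok false 9 79 [1] [3],
  .bok false 9 79 [1] [9],
  .bok false 9 79 [1] [27],
  .bok false 9 79 [1] [81],
  .bok false 9 79 [1] [243],
  .bok false 9 79 [1] [729],
  .bok false 9 79 [1] [2187],
  .bok false 9 79 [3] [1],
  .bok false 9 79 [3] [3],
  .bok false 9 79 [3] [9],
  .bok false 9 79 [3] [27],
  .bok false 9 79 [3] [81],
  .bok false 9 79 [3] [243],
  .bok false 9 79 [3] [729],
  .bok false 9 79 [3] [2187],
  .bok false 9 79 [27] [1],
  .bok false 9 79 [27] [3],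
  .bok false 9 79 [27] [9],
  .bok false 9 79 [27] [27],
  .bok false 9 79 [27] [81],
  .bok false 9 79 [27] [243],
  .bok false 9 79 [27] [729],
  .bok false 9 79 [27] [2187],
  .leib 1 10 78 [81] [729],
  .leib 1 10 78 [81] [2187],
  .leib 1 10 78 [243] [1],
  .leib 1 10 78 [243] [3],
  .leib 1 10 78 [243] [9],
  .leib 1 10 78 [243] [27],
  .leib 1 10 78 [243] [81],
  .leib 1 10 78 [243] [243],
  .leib 1 10 78 [243] [729],
  .leib 1 10 78 [243] [2187],
  .leib 1 10 78 [729] [1],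
  .leib 1 10 78 [729] [3],
  .leib 1 10 78 [729] [9],
  .leib 1 10 78 [729] [27],
  .leib 1 10 78 [729] [81],
  .leib 1 10 78 [729] [243],
  .leib 1 10 78 [729] [729],
  .leib 1 10 78 [729] [2187],
  .leib 3 9 76 [9] [1],
  .leib 3 9 76 [9] [3],
  .leib 3 9 76 [9] [9],
  .leib 3 9 76 [9] [27],
  .leib 3 9 76 [9] [81],
  .leib 3 9 76 [9] [243],
  .leib 3 9 76 [9] [729],
  .leib 3 9 76 [9] [2187],
  .leib 3 9 76 [27] [1],
  .leib 3 9 76 [27] [3],
  .leib 3 9 76 [27] [9],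
  .leib 3 9 76 [27] [27],
  .leib 3 9 76 [27] [81],
  .leib 3 9 76 [27] [243],
  .leib 3 9 76 [27] [729],
  .leib 3 9 76 [27] [2187],
  .bok false 10 79 [3] [1],
  .bok false 10 79 [3] [3],
  .bok false 10 79 [3] [9],
  .bok false 10 79 [3] [27],
  .bok false 10 79 [3] [81],
  .bok false 10 79 [3] [243],
  .bok false 10 79 [9] [1],
  .bok false 10 79 [9] [3],
  .bok false 10 79 [9] [9],
  .bok false 10 79 [9] [27],
  .bok false 10 79 [9] [81],
  .bok false 10 79 [9] [243],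
  .bok false 10 79 [27] [1],
  .bok false 10 79 [27] [3],
  .bok false 10 79 [27] [9],
  .bok false 10 79 [27] [27],
  .bok false 10 79 [27] [81],
  .bok false 10 79 [27] [243],
  .bok false 10 79 [81] [1],
  .bok false 10 79 [81] [3],
  .bok false 10 79 [81] [9],
  .bok false 10 79 [81] [27],
  .bok false 10 79 [81] [81],
  .bok false 10 79 [81] [243],
  .bok false 10 79 [243] [1],
  .bok false 10 79 [243] [3],
  .bok false 10 79 [243] [9],
  .bok false 10 79 [243] [27],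
  .bok false 10 79 [243] [81],
  .bok false 10 79 [243] [243],
  .leib 1 11 78 [729] [1],
  .leib 1 11 78 [729] [3],
  .leib 1 11 78 [729] [9],
  .leib 1 11 78 [729] [27],
  .leib 1 11 78 [729] [81],
  .leib 1 11 78 [729] [243],
  .leib 1 11 78 [2187] [1],
  .leib 1 11 78 [2187] [3],
  .leib 1 11 78 [2187] [9],
  .leib 1 11 78 [2187] [27],
  .leib 1 11 78 [2187] [81],
  .leib 1 11 78 [2187] [243],
  .bok false 12 79 [3] [1],
  .bok false 12 79 [3] [3],
  .bok false 12 79 [3] [9],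
  .bok false 12 79 [3] [27],
  .bok false 12 79 [9] [1],
  .bok false 12 79 [9] [3],
  .bok false 12 79 [9] [9],
  .bok false 12 79 [9] [27],
  .bok false 12 79 [81] [1],
  .bok false 12 79 [81] [3],
  .bok false 12 79 [81] [9],
  .bok false 12 79 [81] [27],
  .leib 1 13 78 [3] [1],
  .leib 1 13 78 [3] [3],
  .leib 1 13 78 [3] [9],
  .leib 1 13 78 [3] [27],
  .leib 1 13 78 [9] [1],
  .leib 1 13 78 [9] [3],
  .leib 1 13 78 [9] [9],
  .leib 1 13 78 [9] [27],
  .leib 1 13 78 [27] [1],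
  .leib 1 13 78 [27] [3],
  .leib 1 13 78 [27] [9],
  .leib 1 13 78 [27] [27],
  .leib 1 13 78 [81] [1],
  .leib 1 13 78 [81] [3],
  .leib 1 13 78 [81] [9],
  .leib 1 13 78 [81] [27],
  .leib 3 12 76 [81] [3],
  .leib 3 12 76 [81] [9],
  .leib 3 12 76 [81] [27],
  .leib 3 12 76 [729] [1],
  .leib 3 12 76 [729] [3],
  .leib 3 12 76 [729] [9],
  .leib 3 12 76 [729] [27],
  .leib 3 12 76 [2187] [1],
  .leib 3 12 76 [2187] [3],
  .leib 3 12 76 [2187] [9],
  .leib 3 12 76 [2187] [27],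
  .leib 5 12 72 [243] [3],
  .leib 5 12 72 [243] [9],
  .leib 5 12 72 [243] [27],
  .bok false 13 79 [3] [1],
  .bok false 13 79 [3] [3],
  .bok false 13 79 [3] [9],
  .bok false 13 79 [3] [27],
  .bok false 13 79 [3] [81],
  .bok false 13 79 [3] [243],
  .bok false 13 79 [3] [729],
  .bok false 13 79 [27] [1],
  .bok false 13 79 [27] [3],
  .bok false 13 79 [27] [9],
  .bok false 13 79 [27] [27],
  .bok false 13 79 [27] [81],
  .bok false 13 79 [27] [243],
  .bok false 13 79 [27] [729],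
  .bok false 13 79 [81] [1],
  .bok false 13 79 [81] [3],
  .bok false 13 79 [81] [9],
  .bok false 13 79 [81] [27],
  .bok false 13 79 [81] [81],
  .bok false 13 79 [81] [243],
  .bok false 13 79 [81] [729],
  .bok false 13 79 [243] [1],
  .bok false 13 79 [243] [3],
  .bok false 13 79 [243] [9],
  .bok false 13 79 [243] [27],
  .bok false 13 79 [243] [81],
  .bok false 13 79 [243] [243],
  .bok false 13 79 [243] [729],
  .bok false 13 79 [729] [1],
  .bok false 13 79 [729] [3],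
  .bok false 13 79 [729] [9],
  .bok false 13 79 [729] [27],
  .bok false 13 79 [729] [81],
  .bok false 13 79 [729] [243],
  .bok false 13 79 [729] [729],
  .bok false 13 79 [2187] [1],
  .bok false 13 79 [2187] [3],
  .bok false 13 79 [2187] [9],
  .bok false 13 79 [2187] [27],
  .bok false 13 79 [2187] [81],
  .bok false 13 79 [2187] [243],
  .bok false 13 79 [2187] [729],
  .leib 1 14 78 [27] [1],
  .leib 1 14 78 [27] [3],
  .leib 1 14 78 [27] [9],
  .leib 1 14 78 [27] [27],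
  .leib 1 14 78 [27] [81],
  .leib 1 14 78 [27] [243],
  .leib 1 14 78 [27] [729],
  .leib 3 13 76 [3] [1],
  .leib 3 13 76 [3] [3],
  .leib 3 13 76 [3] [9],
  .leib 3 13 76 [3] [27],
  .leib 3 13 76 [3] [81],
  .leib 3 13 76 [3] [243],
  .leib 3 13 76 [3] [729],
  .leib 3 13 76 [9] [1],
  .leib 3 13 76 [9] [3],
  .leib 3 13 76 [9] [9],
  .leib 1 15 78 [2187] [1],
  .leib 1 15 78 [2187] [3],
  .leib 1 15 78 [2187] [9],
  .leib 1 15 78 [2187] [27],
  .leib 1 15 78 [6561] [1],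
  .leib 1 15 78 [6561] [3],
  .leib 1 15 78 [6561] [9],
  .leib 1 15 78 [6561] [27],
  .leib 2 14 78 [27] [1],
  .leib 2 14 78 [27] [3],
  .leib 2 14 78 [27] [9],
  .leib 2 14 78 [27] [27],
  .leib 4 13 76 [3] [1],
  .leib 4 13 76 [3] [3],
  .leib 4 13 76 [3] [9],
  .leib 4 13 76 [3] [27],
  .leib 4 13 76 [9] [1],
  .leib 4 13 76 [9] [3],
  .leib 4 13 76 [9] [9],
  .leib 4 13 76 [9] [27],
  .leib 1 18 78 [27] [9],
  .leib 2 17 78 [3] [9],
  .leib 4 16 76 [3] [9],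
  .leib 4 16 76 [9] [9],
  .leib 4 16 76 [27] [9],
  .leib 1 1 79 [1] [729],
  .leib 1 2 79 [1] [2187],
  .leib 1 2 79 [1] [6561],
  .bok false 2 80 [1] [1],
  .bok false 2 80 [1] [3],
  .bok false 2 80 [1] [9],
  .bok false 2 80 [1] [27],
  .bok false 2 80 [1] [81],
  .bok false 2 80 [1] [243],
  .bok false 2 80 [1] [729],
  .bok false 2 80 [1] [2187],
  .bok false 2 80 [1] [6561],
  .bok false 3 80 [1] [3],
  .bok false 3 80 [1] [9],
  .bok false 3 80 [1] [27],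
  .bok false 3 80 [1] [81],
  .bok false 3 80 [1] [243],
  .leib 3 3 77 [3] [1],
  .leib 3 3 77 [3] [3],
  .leib 3 3 77 [3] [9],
  .leib 3 3 77 [3] [27],
  .leib 3 3 77 [3] [81],
  .leib 3 3 77 [3] [243],
  .leib 3 3 77 [3] [729],
  .leib 5 3 73 [3] [729],
  .bok false 4 80 [1] [1],
  .bok false 4 80 [1] [3],
  .bok false 4 80 [1] [9],
  .bok false 4 80 [1] [27],
  .bok false 4 80 [1] [81],
  .bok false 4 80 [1] [243],
  .bok false 4 80 [1] [729],
  .leib 3 4 77 [9] [1],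
  .leib 3 4 77 [9] [3],
  .leib 3 4 77 [9] [9],
  .leib 3 4 77 [9] [27],
  .leib 3 4 77 [9] [81],
  .leib 3 4 77 [9] [243],
  .leib 3 4 77 [9] [729],
  .leib 4 3 77 [3] [729],
  .bok false 5 80 [1] [27],
  .bok false 5 80 [1] [81],
  .bok false 5 80 [1] [243],
  .bok false 5 80 [1] [729],
  .leib 3 5 77 [9] [1],
  .leib 3 5 77 [9] [3],
  .leib 3 5 77 [9] [9],
  .leib 3 5 77 [9] [27],
  .leib 3 5 77 [9] [81],
  .leib 3 5 77 [9] [243],
  .leib 3 5 77 [9] [729],
  .leib 3 5 77 [9] [2187],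
  .bok false 6 80 [1] [1],
  .bok false 6 80 [1] [3],
  .bok false 6 80 [1] [9],
  .bok false 6 80 [1] [27],
  .bok false 6 80 [1] [81],
  .bok false 6 80 [1] [243],
  .bok false 6 80 [1] [729],
  .bok false 6 80 [1] [2187],
  .bok false 6 80 [3] [1],
  .bok false 6 80 [3] [3],
  .bok false 6 80 [3] [9],
  .bok false 6 80 [3] [27],
  .bok false 6 80 [3] [81],
  .bok false 6 80 [3] [243],
  .bok false 6 80 [3] [729],
  .bok false 6 80 [3] [2187],
  .leib 1 7 79 [243] [1],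
  .leib 1 7 79 [243] [3],
  .leib 1 7 79 [243] [9],
  .leib 1 7 79 [243] [27],
  .leib 1 7 79 [243] [81],
  .leib 1 7 79 [243] [243],
  .leib 1 7 79 [243] [729],
  .leib 1 7 79 [243] [2187],
  .leib 1 7 79 [729] [1],
  .leib 1 7 79 [729] [3],
  .leib 1 7 79 [729] [9],
  .leib 1 7 79 [729] [27],
  .leib 1 7 79 [729] [81],
  .leib 1 7 79 [729] [243],
  .leib 1 7 79 [729] [729],
  .leib 1 7 79 [729] [2187],
  .leib 3 6 77 [27] [1],
  .leib 3 6 77 [27] [729],
  .leib 3 6 77 [81] [1],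
  .leib 3 6 77 [81] [3],
  .leib 3 6 77 [81] [9],
  .leib 3 6 77 [81] [27],
  .leib 3 6 77 [81] [81],
  .leib 3 6 77 [81] [243],
  .leib 3 6 77 [81] [729],
  .leib 3 6 77 [81] [2187],
  .bok false 7 80 [1] [1],
  .bok false 7 80 [1] [3],
  .bok false 7 80 [1] [9],
  .bok false 7 80 [1] [27],
  .bok false 7 80 [1] [81],
  .bok false 7 80 [1] [243],
  .bok false 7 80 [1] [729],
  .bok false 7 80 [1] [2187],
  .bok false 7 80 [1] [6561],
  .bok false 7 80 [1] [19683],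
  .bok false 7 80 [3] [1],
  .bok false 7 80 [3] [3],
  .bok false 7 80 [3] [9],
  .bok false 7 80 [3] [27],
  .bok false 7 80 [3] [81],
  .bok false 7 80 [3] [243],
  .bok false 7 80 [3] [729],
  .bok false 7 80 [3] [2187],
  .bok false 7 80 [3] [6561],
  .bok false 7 80 [3] [19683],
  .bok false 7 80 [9] [1],
  .bok false 7 80 [9] [3],
  .bok false 7 80 [9] [9],
  .bok false 7 80 [9] [27],
  .bok false 7 80 [9] [81],
  .bok false 7 80 [9] [243],
  .bok false 7 80 [9] [729],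
  .bok false 7 80 [9] [2187],
  .bok false 7 80 [9] [6561],
  .bok false 7 80 [9] [19683],
  .leib 1 8 79 [9] [1],
  .leib 1 8 79 [9] [3],
  .leib 1 8 79 [9] [9],
  .leib 1 8 79 [9] [27],
  .leib 1 8 79 [9] [81],
  .leib 1 8 79 [9] [243],
  .leib 1 8 79 [9] [729],
  .leib 1 8 79 [9] [2187],
  .leib 1 8 79 [9] [6561],
  .leib 1 8 79 [9] [19683],
  .leib 1 8 79 [27] [1],
  .leib 1 8 79 [27] [3],
  .leib 1 8 79 [27] [9],
  .leib 1 8 79 [27] [27],
  .leib 1 8 79 [27] [81],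
  .leib 1 8 79 [27] [243],
  .leib 1 8 79 [27] [729],
  .leib 1 8 79 [27] [2187],
  .leib 1 8 79 [27] [6561],
  .leib 1 8 79 [27] [19683],
  .leib 3 7 77 [27] [2187],
  .leib 3 7 77 [27] [6561],
  .leib 3 7 77 [27] [19683],
  .leib 3 7 77 [81] [1],
  .leib 3 7 77 [81] [3],
  .leib 3 7 77 [81] [9],
  .leib 3 7 77 [81] [27],
  .leib 3 7 77 [81] [81],
  .leib 3 7 77 [81] [243],
  .leib 3 7 77 [81] [729],
  .leib 3 7 77 [81] [2187],
  .leib 3 7 77 [81] [6561],
  .leib 3 7 77 [81] [19683],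
  .leib 5 7 73 [9] [2187],
  .leib 5 7 73 [9] [6561],
  .leib 5 7 73 [9] [19683],
  .bok false 8 80 [1] [1],
  .bok false 8 80 [1] [3],
  .bok false 8 80 [1] [9],
  .bok false 8 80 [1] [27],
  .bok false 8 80 [1] [81],
  .bok false 8 80 [1] [243],
  .bok false 8 80 [1] [729],
  .bok false 8 80 [1] [2187],
  .bok false 8 80 [1] [6561],
  .bok false 8 80 [9] [1],
  .bok false 8 80 [9] [3],
  .bok false 8 80 [9] [9],
  .bok false 8 80 [9] [27],
  .bok false 8 80 [9] [243],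
  .bok false 8 80 [9] [729],
  .bok false 8 80 [9] [2187],
  .bok false 8 80 [9] [6561],
  .bok false 8 80 [81] [1],
  .bok false 8 80 [81] [3],
  .bok false 8 80 [81] [9],
  .bok false 8 80 [81] [27],
  .bok false 8 80 [81] [81],
  .bok false 8 80 [81] [243],
  .bok false 8 80 [81] [729],
  .bok false 8 80 [81] [2187],
  .bok false 8 80 [81] [6561],
  .leib 3 8 77 [3] [1],
  .leib 3 8 77 [3] [3],
  .leib 3 8 77 [3] [9],
  .leib 3 8 77 [3] [27],
  .leib 3 8 77 [3] [81],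
  .leib 3 8 77 [3] [243],
  .leib 3 8 77 [3] [729],
  .leib 3 8 77 [3] [2187],
  .leib 3 8 77 [3] [6561],
  .bok false 9 80 [1] [1],
  .bok false 9 80 [1] [3],
  .bok false 9 80 [1] [9],
  .bok false 9 80 [1] [27],
  .leib 1 10 79 [243] [1],
  .leib 1 10 79 [243] [3],
  .leib 1 10 79 [243] [9],
  .leib 1 10 79 [243] [27],
  .leib 1 10 79 [243] [81],
  .leib 3 9 77 [3] [1],
  .leib 3 9 77 [3] [3],
  .leib 3 9 77 [3] [9],
  .leib 3 9 77 [3] [27],
  .leib 3 9 77 [3] [81],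
  .leib 3 9 77 [9] [81],
  .leib 5 9 73 [81] [81],
  .bok false 10 80 [1] [1],
  .bok false 10 80 [1] [3],
  .bok false 10 80 [1] [9],
  .bok false 10 80 [1] [27],
  .bok false 10 80 [1] [81],
  .bok false 10 80 [1] [243],
  .bok false 10 80 [1] [729],
  .bok false 10 80 [3] [1],
  .bok false 10 80 [3] [3],
  .bok false 10 80 [3] [9],
  .bok false 10 80 [3] [27],
  .bok false 10 80 [3] [81],
  .bok false 10 80 [3] [243],
  .bok false 10 80 [3] [729],
  .bok false 10 80 [9] [1],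
  .leib 1 11 79 [9] [1],
  .leib 1 11 79 [9] [3],
  .leib 1 11 79 [9] [9],
  .leib 1 11 79 [9] [27],
  .leib 1 11 79 [9] [81],
  .leib 1 11 79 [9] [243],
  .leib 1 11 79 [9] [729],
  .leib 1 11 79 [27] [1],
  .leib 1 11 79 [27] [3],
  .leib 1 11 79 [27] [9],
  .leib 1 11 79 [27] [27],
  .leib 1 11 79 [27] [81],
  .leib 1 11 79 [27] [243],
  .leib 1 11 79 [27] [729],
  .leib 1 11 79 [81] [1],
  .leib 1 11 79 [81] [3],
  .leib 1 11 79 [81] [9],
  .leib 1 11 79 [81] [27],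
  .leib 1 11 79 [81] [81],
  .leib 1 11 79 [81] [243],
  .leib 1 11 79 [81] [729],
  .leib 3 10 77 [243] [1],
  .leib 3 10 77 [243] [3],
  .leib 3 10 77 [243] [9],
  .leib 3 10 77 [243] [27],
  .leib 3 10 77 [729] [81],
  .leib 3 10 77 [729] [243],
  .leib 3 10 77 [729] [729],
  .leib 5 10 73 [729] [81],
  .leib 5 10 73 [729] [243],
  .leib 5 10 73 [729] [729],
  .bok false 11 80 [1] [1],
  .bok false 11 80 [1] [3],
  .bok false 11 80 [1] [9],
  .bok false 11 80 [1] [27],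
  .bok false 11 80 [1] [81],
  .bok false 11 80 [1] [729],
  .bok false 11 80 [1] [2187],
  .bok false 11 80 [1] [6561],
  .bok false 11 80 [3] [2187],
  .bok false 11 80 [3] [6561],
  .bok false 11 80 [9] [9],
  .bok false 11 80 [9] [81],
  .bok false 11 80 [9] [729],
  .bok false 11 80 [9] [2187],
  .bok false 11 80 [9] [6561],
  .bok false 11 80 [81] [1],
  .bok false 11 80 [81] [3],
  .bok false 11 80 [81] [9],
  .bok false 11 80 [81] [27],
  .bok false 11 80 [81] [81],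
  .bok false 11 80 [81] [729],
  .bok false 11 80 [81] [2187],
  .bok false 11 80 [81] [6561],
  .bok false 11 80 [729] [9],
  .bok false 11 80 [729] [81],
  .bok false 11 80 [729] [729],
  .bok false 11 80 [729] [2187],
  .bok false 11 80 [729] [6561],
  .leib 3 11 77 [1] [1],
  .leib 3 11 77 [1] [3],
  .leib 3 11 77 [1] [9],
  .leib 3 11 77 [1] [27],
  .leib 3 11 77 [1] [81],
  .leib 3 11 77 [1] [729],
  .leib 3 11 77 [1] [2187],
  .leib 3 11 77 [1] [6561],
  .leib 3 11 77 [3] [1],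
  .leib 3 11 77 [3] [3],
  .leib 3 11 77 [3] [9],
  .leib 3 11 77 [3] [27],
  .leib 3 11 77 [3] [81],
  .leib 3 11 77 [3] [729],
  .leib 3 11 77 [3] [2187],
  .leib 3 11 77 [3] [6561],
  .leib 3 11 77 [9] [1],
  .leib 3 11 77 [9] [3],
  .leib 3 11 77 [9] [9],
  .leib 3 11 77 [9] [27],
  .leib 3 11 77 [9] [81],
  .leib 3 11 77 [9] [729],
  .leib 3 11 77 [9] [2187],
  .leib 3 11 77 [9] [6561],
  .bok false 12 80 [1] [9],
  .bok false 12 80 [1] [27],
  .bok false 12 80 [1] [81],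
  .bok false 12 80 [1] [243],
  .bok false 12 80 [3] [9],
  .bok false 12 80 [3] [27],
  .bok false 12 80 [3] [81],
  .bok false 12 80 [3] [243],
  .bok false 12 80 [9] [9],
  .bok false 12 80 [9] [27],
  .bok false 12 80 [9] [81],
  .bok false 12 80 [9] [243],
  .leib 3 15 77 [1] [1],
  .leib 3 15 77 [1] [3],
  .leib 3 15 77 [1] [9],
  .leib 3 15 77 [1] [27],
  .leib 3 15 77 [1] [81],
  .leib 3 15 77 [1] [243],
  .leib 3 15 77 [1] [729],
  .leib 3 15 77 [1] [2187],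
  .bok false 16 80 [1] [3],
  .bok false 16 80 [1] [9],
  .bok false 16 80 [1] [27],
  .leib 1 18 79 [3] [1],
  .leib 1 18 79 [3] [3],
  .leib 1 18 79 [9] [1],
  .leib 1 18 79 [9] [3],
  .leib 1 18 79 [27] [1],
  .leib 1 18 79 [27] [3],
  .leib 3 17 77 [729] [1],
  .leib 3 17 77 [729] [3],
  .bok false 18 80 [1] [243],
  .bok false 18 80 [3] [243],
  .bok false 18 80 [27] [243],
  .leib 3 18 77 [3] [243],
  .leib 3 19 77 [1] [1],
  .leib 3 19 77 [1] [3],
  .leib 3 19 77 [1] [9],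
  .leib 3 19 77 [1] [27],
  .leib 3 19 77 [1] [81],
  .bok false 20 80 [1] [9],
  .leib 1 21 79 [27] [9],
  .bok false 1 81 [1] [1],
  .bok false 1 81 [1] [3],
  .bok false 1 81 [1] [9],
  .bok false 1 81 [1] [27],
  .bok false 1 81 [1] [81],
  .bok false 1 81 [1] [243],
  .bok false 1 81 [3] [1],
  .bok false 1 81 [3] [3],
  .bok false 1 81 [3] [9],
  .bok false 1 81 [3] [27],
  .bok false 1 81 [3] [81],
  .bok false 1 81 [3] [243],
  .leib 1 2 80 [1] [1],
  .leib 1 2 80 [1] [3],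
  .leib 1 2 80 [1] [9],
  .leib 1 2 80 [1] [27],
  .leib 1 2 80 [1] [81],
  .leib 1 2 80 [1] [243],
  .bok false 2 81 [3] [1],
  .bok false 2 81 [3] [3],
  .bok false 2 81 [3] [9],
  .bok false 2 81 [3] [27],
  .bok false 2 81 [3] [81],
  .bok false 2 81 [3] [243],
  .bok false 2 81 [3] [729],
  .bok false 2 81 [3] [2187],
  .bok false 2 81 [9] [1],
  .bok false 2 81 [9] [3],
  .bok false 2 81 [9] [9],
  .bok false 2 81 [9] [27],
  .bok false 2 81 [9] [81],
  .bok false 2 81 [9] [243],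
  .bok false 2 81 [9] [729],
  .bok false 2 81 [9] [2187],
  .leib 1 3 80 [1] [1],
  .leib 1 3 80 [1] [3],
  .leib 1 3 80 [1] [9],
  .leib 1 3 80 [1] [27],
  .leib 1 3 80 [1] [81],
  .leib 1 3 80 [1] [243],
  .leib 1 3 80 [1] [729],
  .leib 1 3 80 [1] [2187],
  .leib 1 3 80 [3] [3],
  .leib 1 3 80 [3] [9],
  .leib 1 3 80 [3] [27],
  .leib 1 3 80 [3] [81],
  .leib 1 3 80 [3] [243],
  .leib 1 3 80 [3] [729],
  .leib 1 3 80 [3] [2187],
  .leib 13 2 60 [3] [1],
  .leib 13 2 60 [3] [3],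
  .leib 13 2 60 [3] [27],
  .leib 13 2 60 [3] [81],
  .leib 13 2 60 [3] [243],
  .leib 13 2 60 [3] [729],
  .leib 13 2 60 [3] [2187],
  .bok false 3 81 [1] [1],
  .bok false 3 81 [1] [3],
  .bok false 3 81 [1] [9],
  .bok false 3 81 [1] [27],
  .bok false 3 81 [1] [81],
  .bok false 3 81 [1] [243],
  .bok false 3 81 [1] [729],
  .bok false 3 81 [1] [2187],
  .bok false 3 81 [1] [6561],
  .bok false 3 81 [1] [19683],
  .bok false 3 81 [3] [1],
  .bok false 3 81 [3] [3],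
  .bok false 3 81 [3] [9],
  .bok false 3 81 [3] [27],
  .bok false 3 81 [3] [81],
  .bok false 3 81 [3] [243],
  .bok false 3 81 [3] [729],
  .bok false 3 81 [3] [19683],
  .bok false 3 81 [81] [1],
  .bok false 3 81 [81] [3],
  .bok false 3 81 [81] [9],
  .bok false 3 81 [81] [27],
  .bok false 3 81 [81] [81],
  .bok false 3 81 [81] [243],
  .bok false 3 81 [81] [729],
  .bok false 3 81 [81] [2187],
  .bok false 3 81 [81] [6561],
  .bok false 3 81 [81] [19683],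
  .leib 1 4 80 [3] [1],
  .leib 1 4 80 [3] [3],
  .leib 1 4 80 [3] [9],
  .leib 1 4 80 [3] [27],
  .leib 1 4 80 [3] [81],
  .leib 1 4 80 [3] [243],
  .leib 1 4 80 [3] [729],
  .leib 1 4 80 [3] [2187],
  .leib 1 4 80 [3] [6561],
  .leib 1 4 80 [3] [19683],
  .leib 13 3 60 [9] [1],
  .leib 13 3 60 [9] [3],
  .leib 13 3 60 [9] [9],
  .leib 13 3 60 [9] [27],
  .leib 13 3 60 [9] [81],
  .leib 13 3 60 [9] [243],
  .leib 13 3 60 [9] [729],
  .leib 13 3 60 [9] [19683],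
  .bok false 4 81 [1] [27],
  .bok false 4 81 [1] [81],
  .bok false 4 81 [1] [243],
  .bok false 4 81 [9] [1],
  .bok false 4 81 [9] [9],
  .bok false 4 81 [9] [27],
  .bok false 4 81 [9] [81],
  .bok false 4 81 [9] [243],
  .bok false 4 81 [9] [729],
  .bok false 4 81 [9] [2187],
  .bok false 4 81 [27] [27],
  .bok false 4 81 [27] [81],
  .bok false 4 81 [27] [243],
  .leib 3 4 78 [9] [1],
  .leib 3 4 78 [9] [9],
  .leib 3 4 78 [9] [27],
  .leib 3 4 78 [9] [81],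
  .leib 3 4 78 [9] [243],
  .leib 3 4 78 [9] [729],
  .leib 3 4 78 [9] [2187],
  .leib 5 4 74 [1] [1],
  .leib 5 4 74 [1] [9],
  .leib 5 4 74 [1] [27],
  .leib 5 4 74 [1] [81],
  .leib 5 4 74 [1] [243],
  .leib 5 4 74 [1] [729],
  .leib 5 4 74 [1] [2187],
  .bok false 5 81 [1] [1],
  .bok false 5 81 [1] [3],
  .bok false 5 81 [1] [9],
  .bok false 5 81 [1] [27],
  .bok false 5 81 [1] [81],
  .bok false 5 81 [1] [243],
  .bok false 5 81 [1] [729],
  .bok false 5 81 [3] [1],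
  .bok false 5 81 [3] [3],
  .bok false 5 81 [3] [9],
  .bok false 5 81 [3] [27],
  .bok false 5 81 [3] [81],
  .bok false 5 81 [3] [243],
  .bok false 5 81 [3] [729],
  .bok false 5 81 [9] [1],
  .bok false 5 81 [9] [3],
  .bok false 5 81 [9] [9],
  .bok false 5 81 [9] [27],
  .bok false 5 81 [9] [81],
  .bok false 5 81 [9] [243],
  .bok false 5 81 [9] [729],
  .leib 1 6 80 [3] [81],
  .leib 1 6 80 [3] [243],
  .leib 1 6 80 [3] [729],
  .leib 1 6 80 [9] [1],
  .leib 1 6 80 [9] [3],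
  .leib 1 6 80 [9] [9],
  .leib 1 6 80 [9] [27],
  .leib 1 6 80 [9] [81],
  .leib 1 6 80 [9] [243]]
 Pf.done)

theorem cchk6 : (ofTab P236Q.tauF).chunk
    (cex0 ++ (cex1 ++ (cex2 ++ (cex3 ++ (cex4 ++ cex5)))))
    cpf6 cex6 = true := by
  decide +kernel

end Vale.Agent.P236E
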