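import Vale.Agent.P236Et.Ex
import Vale.Agent.P236Qt.TauF

/-!
# P236, block ENG: part 7 of the certificate
-/

namespace Vale.Agent.P236E

set_option maxRecDepth 100000

noncomputable def cpf7 : Pf :=
 (steps [.leib 1 6 80 [9] [729],
  .leib 3 5 78 [1] [81],
  .leib 3 5 78 [1] [243],
  .leib 3 5 78 [1] [729],
  .leib 3 5 78 [81] [1],
  .leib 3 5 78 [81] [3],
  .leib 3 5 78 [81] [9],
  .leib 3 5 78 [81] [27],
  .leib 3 5 78 [81] [81],
  .leib 3 5 78 [81] [243],
  .leib 3 5 78 [81] [729],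
  .leib 7 5 72 [81] [1],
  .leib 7 5 72 [81] [3],
  .leib 7 5 72 [81] [9],
  .leib 7 5 72 [81] [27],
  .leib 7 5 72 [81] [81],
  .leib 7 5 72 [81] [243],
  .leib 7 5 72 [81] [729],
  .bok false 6 81 [1] [1],
  .bok false 6 81 [1] [3],
  .bok false 6 81 [1] [9],
  .bok false 6 81 [1] [27],
  .bok false 6 81 [1] [81],
  .bok false 6 81 [1] [243],
  .bok false 6 81 [1] [729],
  .bok false 6 81 [3] [1],
  .bok false 6 81 [3] [3],
  .bok false 6 81 [3] [9],
  .bok false 6 81 [3] [27],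
  .bok false 6 81 [3] [81],
  .bok false 6 81 [3] [243],
  .bok false 6 81 [3] [729],
  .bok false 6 81 [3] [2187],
  .bok false 6 81 [3] [6561],
  .bok false 6 81 [27] [1],
  .bok false 6 81 [27] [3],
  .bok false 6 81 [27] [9],
  .bok false 6 81 [27] [27],
  .bok false 6 81 [27] [81],
  .bok false 6 81 [27] [243],
  .bok false 6 81 [27] [729],
  .bok false 6 81 [27] [2187],
  .bok false 6 81 [27] [6561],
  .bok false 6 81 [243] [1],
  .bok false 6 81 [243] [3],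
  .bok false 6 81 [243] [9],
  .bok false 6 81 [243] [27],
  .bok false 6 81 [243] [81],
  .bok false 6 81 [243] [243],
  .bok false 6 81 [243] [729],
  .bok false 6 81 [243] [2187],
  .bok false 6 81 [243] [6561],
  .leib 1 7 80 [3] [1],
  .leib 1 7 80 [3] [3],
  .leib 1 7 80 [3] [9],
  .leib 1 7 80 [3] [27],
  .leib 1 7 80 [3] [81],
  .leib 1 7 80 [3] [243],
  .leib 1 7 80 [3] [729],
  .leib 1 7 80 [3] [2187],
  .leib 1 7 80 [3] [6561],
  .leib 1 7 80 [9] [3],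
  .leib 1 7 80 [9] [9],
  .leib 1 7 80 [9] [27],
  .leib 1 7 80 [9] [81],
  .leib 1 7 80 [9] [243],
  .leib 1 7 80 [9] [2187],
  .leib 1 7 80 [9] [6561],
  .leib 3 6 78 [27] [2187],
  .leib 3 6 78 [27] [6561],
  .leib 3 6 78 [81] [1],
  .leib 3 6 78 [81] [3],
  .leib 3 6 78 [81] [9],
  .leib 3 6 78 [81] [27],
  .leib 3 6 78 [81] [81],
  .leib 3 6 78 [81] [243],
  .leib 3 6 78 [81] [729],
  .leib 3 6 78 [81] [2187],
  .leib 3 6 78 [81] [6561],
  .leib 5 6 74 [3] [2187],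
  .leib 5 6 74 [3] [6561],
  .leib 7 6 72 [81] [3],
  .leib 7 6 72 [81] [9],
  .leib 7 6 72 [81] [27],
  .leib 7 6 72 [81] [81],
  .leib 7 6 72 [81] [243],
  .leib 7 6 72 [81] [729],
  .leib 7 6 72 [81] [2187],
  .leib 7 6 72 [81] [6561],
  .bok false 7 81 [1] [1],
  .bok false 7 81 [1] [3],
  .bok false 7 81 [1] [9],
  .bok false 7 81 [1] [27],
  .bok false 7 81 [1] [81],
  .bok false 7 81 [1] [243],
  .bok false 7 81 [1] [729],
  .bok false 7 81 [1] [2187],
  .bok false 7 81 [3] [1],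
  .bok false 7 81 [3] [3],
  .bok false 7 81 [3] [9],
  .bok false 7 81 [3] [27],
  .bok false 7 81 [3] [81],
  .bok false 7 81 [3] [243],
  .bok false 7 81 [3] [729],
  .bok false 7 81 [3] [2187],
  .bok false 7 81 [9] [1],
  .bok false 7 81 [9] [3],
  .bok false 7 81 [9] [9],
  .bok false 7 81 [9] [27],
  .bok false 7 81 [9] [81],
  .bok false 7 81 [9] [243],
  .bok false 7 81 [243] [1],
  .bok false 7 81 [243] [3],
  .bok false 7 81 [243] [9],
  .bok false 7 81 [243] [27],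
  .bok false 7 81 [243] [81],
  .bok false 7 81 [243] [243],
  .bok false 7 81 [729] [1],
  .bok false 7 81 [729] [3],
  .bok false 7 81 [729] [9],
  .bok false 7 81 [729] [27],
  .bok false 7 81 [729] [81],
  .bok false 7 81 [729] [243],
  .bok false 7 81 [729] [729],
  .bok false 7 81 [729] [2187],
  .leib 1 8 80 [27] [1],
  .leib 1 8 80 [27] [3],
  .leib 1 8 80 [27] [9],
  .leib 1 8 80 [27] [27],
  .leib 1 8 80 [27] [81],
  .leib 1 8 80 [27] [243],
  .leib 1 8 80 [27] [729],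
  .leib 1 8 80 [27] [2187],
  .leib 3 7 78 [27] [1],
  .leib 3 7 78 [27] [3],
  .leib 3 7 78 [27] [9],
  .leib 3 7 78 [27] [27],
  .leib 3 7 78 [27] [81],
  .leib 3 7 78 [27] [243],
  .leib 3 7 78 [27] [729],
  .leib 3 7 78 [27] [2187],
  .bok false 8 81 [1] [3],
  .bok false 8 81 [1] [9],
  .bok false 8 81 [1] [81],
  .bok false 8 81 [1] [243],
  .bok false 8 81 [3] [3],
  .bok false 8 81 [3] [9],
  .bok false 8 81 [3] [81],
  .bok false 8 81 [3] [243],
  .bok false 8 81 [81] [9],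
  .bok false 8 81 [2187] [9],
  .leib 1 9 80 [27] [3],
  .leib 1 9 80 [27] [9],
  .leib 1 9 80 [27] [81],
  .leib 1 9 80 [27] [243],
  .leib 3 8 78 [81] [3],
  .leib 3 8 78 [81] [9],
  .leib 3 8 78 [81] [81],
  .leib 3 8 78 [81] [243],
  .leib 3 8 78 [243] [3],
  .leib 3 8 78 [243] [9],
  .leib 3 8 78 [243] [81],
  .leib 3 8 78 [243] [243],
  .bok false 9 81 [1] [3],
  .bok false 9 81 [1] [9],
  .bok false 9 81 [1] [27],
  .bok false 9 81 [1] [81],
  .bok false 9 81 [3] [3],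
  .bok false 9 81 [3] [9],
  .bok false 9 81 [3] [27],
  .bok false 9 81 [3] [81],
  .bok false 9 81 [9] [3],
  .bok false 9 81 [9] [9],
  .bok false 9 81 [9] [27],
  .bok false 9 81 [9] [81],
  .leib 1 10 80 [3] [1],
  .leib 1 10 80 [3] [3],
  .leib 1 10 80 [3] [9],
  .leib 1 10 80 [3] [27],
  .leib 1 10 80 [3] [81],
  .leib 1 10 80 [3] [243],
  .leib 1 10 80 [3] [729],
  .leib 1 10 80 [3] [2187],
  .leib 3 9 78 [27] [3],
  .leib 3 9 78 [27] [9],
  .leib 3 9 78 [27] [27],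
  .leib 3 9 78 [27] [81],
  .leib 3 9 78 [27] [243],
  .leib 3 9 78 [27] [729],
  .leib 3 9 78 [27] [2187],
  .leib 3 9 78 [81] [3],
  .leib 3 9 78 [81] [9],
  .leib 3 9 78 [81] [27],
  .leib 3 9 78 [81] [81],
  .leib 3 9 78 [81] [243],
  .leib 3 9 78 [81] [729],
  .leib 3 9 78 [81] [2187],
  .leib 3 9 78 [243] [3],
  .leib 3 9 78 [243] [9],
  .leib 3 9 78 [243] [27],
  .leib 3 9 78 [243] [81],
  .leib 3 9 78 [243] [243],
  .leib 3 9 78 [243] [729],
  .leib 3 9 78 [243] [2187],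
  .bok false 10 81 [1] [1],
  .bok false 10 81 [1] [3],
  .bok false 10 81 [1] [9],
  .bok false 10 81 [1] [27],
  .bok false 10 81 [1] [81],
  .bok false 10 81 [1] [243],
  .bok false 10 81 [1] [729],
  .bok false 10 81 [3] [1],
  .bok false 10 81 [3] [3],
  .bok false 10 81 [3] [9],
  .bok false 10 81 [3] [27],
  .bok false 10 81 [3] [81],
  .bok false 10 81 [3] [243],
  .bok false 10 81 [3] [729],
  .bok false 10 81 [9] [1],
  .bok false 10 81 [9] [3],
  .bok false 10 81 [9] [9],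
  .bok false 10 81 [9] [27],
  .bok false 10 81 [9] [81],
  .bok false 10 81 [9] [243],
  .bok false 10 81 [9] [729],
  .bok false 10 81 [27] [1],
  .bok false 10 81 [27] [3],
  .bok false 10 81 [27] [27],
  .bok false 10 81 [729] [1],
  .bok false 10 81 [729] [3],
  .bok false 10 81 [729] [9],
  .bok false 10 81 [729] [27],
  .bok false 10 81 [729] [81],
  .bok false 10 81 [729] [243],
  .bok false 10 81 [729] [729],
  .bok false 10 81 [729] [2187],
  .leib 1 11 80 [9] [2187],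
  .leib 1 11 80 [27] [1],
  .leib 1 11 80 [27] [3],
  .leib 1 11 80 [27] [9],
  .leib 1 11 80 [27] [27],
  .leib 1 11 80 [27] [81],
  .leib 1 11 80 [27] [243],
  .leib 1 11 80 [27] [729],
  .leib 1 11 80 [27] [2187],
  .leib 3 10 78 [81] [1],
  .leib 3 10 78 [81] [3],
  .leib 3 10 78 [81] [9],
  .leib 3 10 78 [81] [27],
  .leib 3 10 78 [81] [81],
  .leib 3 10 78 [81] [243],
  .leib 3 10 78 [81] [729],
  .leib 3 10 78 [81] [2187],
  .leib 3 10 78 [243] [1],
  .leib 3 10 78 [243] [3],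
  .leib 3 10 78 [243] [9],
  .leib 3 10 78 [243] [27],
  .leib 3 10 78 [243] [81],
  .leib 3 10 78 [243] [243],
  .leib 3 10 78 [243] [729],
  .leib 3 10 78 [243] [2187],
  .leib 3 10 78 [729] [3],
  .leib 3 10 78 [729] [9],
  .leib 3 10 78 [729] [27],
  .leib 3 10 78 [729] [81],
  .leib 3 10 78 [729] [243],
  .leib 3 10 78 [729] [729],
  .leib 3 10 78 [729] [2187],
  .bok false 11 81 [1] [1],
  .bok false 11 81 [1] [3],
  .bok false 11 81 [1] [9],
  .bok false 11 81 [3] [1],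
  .bok false 11 81 [3] [3],
  .bok false 11 81 [3] [9],
  .bok false 11 81 [9] [1],
  .bok false 11 81 [9] [3],
  .bok false 11 81 [9] [9],
  .bok false 11 81 [27] [1],
  .bok false 11 81 [27] [3],
  .bok false 11 81 [27] [9],
  .leib 1 12 80 [729] [1],
  .leib 1 12 80 [729] [3],
  .leib 1 12 80 [729] [9],
  .leib 1 12 80 [729] [27],
  .leib 1 12 80 [729] [81],
  .leib 1 12 80 [2187] [1],
  .leib 1 12 80 [2187] [3],
  .leib 1 12 80 [2187] [9],
  .leib 1 12 80 [2187] [27],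
  .leib 1 12 80 [2187] [81],
  .leib 3 11 78 [243] [1],
  .leib 3 11 78 [243] [27],
  .leib 3 11 78 [243] [81],
  .leib 3 11 78 [729] [1],
  .leib 3 11 78 [729] [3],
  .leib 3 11 78 [729] [9],
  .leib 3 11 78 [729] [27],
  .leib 3 11 78 [729] [81],
  .leib 3 11 78 [2187] [1],
  .leib 3 11 78 [2187] [3],
  .leib 3 11 78 [2187] [9],
  .leib 3 11 78 [2187] [27],
  .leib 3 11 78 [2187] [81],
  .leib 4 10 78 [81] [27],
  .leib 4 10 78 [81] [81],
  .leib 5 11 74 [729] [27],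
  .leib 5 11 74 [729] [81],
  .bok false 12 81 [1] [1],
  .bok false 12 81 [1] [3],
  .bok false 12 81 [9] [1],
  .bok false 12 81 [9] [3],
  .bok false 12 81 [27] [1],
  .bok false 12 81 [27] [3],
  .bok false 12 81 [243] [1],
  .bok false 12 81 [243] [3],
  .bok false 12 81 [729] [1],
  .bok false 12 81 [729] [3],
  .leib 1 13 80 [1] [1],
  .leib 1 13 80 [1] [3],
  .leib 1 13 80 [1] [9],
  .leib 1 13 80 [1] [27],
  .leib 1 13 80 [1] [81],
  .leib 1 13 80 [1] [243],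
  .leib 1 13 80 [3] [1],
  .leib 1 13 80 [3] [3],
  .leib 1 13 80 [3] [9],
  .leib 1 13 80 [3] [27],
  .leib 1 13 80 [3] [81],
  .leib 1 13 80 [3] [243],
  .leib 1 13 80 [9] [1],
  .leib 1 13 80 [9] [3],
  .leib 1 13 80 [9] [9],
  .leib 1 13 80 [9] [27],
  .leib 1 13 80 [9] [81],
  .leib 1 13 80 [9] [243],
  .leib 3 12 78 [27] [9],
  .leib 3 12 78 [27] [27],
  .leib 3 12 78 [27] [81],
  .leib 3 12 78 [27] [243],
  .leib 3 12 78 [2187] [1],
  .leib 3 12 78 [2187] [3],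
  .leib 3 12 78 [2187] [9],
  .leib 3 12 78 [2187] [27],
  .leib 3 12 78 [2187] [81],
  .leib 3 12 78 [2187] [243],
  .leib 3 12 78 [6561] [1],
  .leib 3 12 78 [6561] [3],
  .leib 3 12 78 [6561] [9],
  .leib 3 12 78 [6561] [27],
  .leib 3 12 78 [6561] [81],
  .leib 3 12 78 [6561] [243],
  .leib 3 12 78 [19683] [1],
  .leib 3 12 78 [19683] [3],
  .leib 3 12 78 [19683] [9],
  .leib 3 12 78 [19683] [27],
  .leib 3 12 78 [19683] [81],
  .leib 3 12 78 [19683] [243],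
  .leib 5 12 74 [729] [9],
  .leib 5 12 74 [729] [27],
  .leib 5 12 74 [729] [81],
  .leib 5 12 74 [729] [243],
  .bok false 13 81 [1] [1],
  .bok false 13 81 [1] [3],
  .bok false 13 81 [1] [9],
  .bok false 13 81 [1] [27],
  .bok false 13 81 [1] [81],
  .bok false 13 81 [1] [243],
  .bok false 13 81 [1] [729],
  .bok false 13 81 [3] [1],
  .bok false 13 81 [3] [3],
  .bok false 13 81 [3] [9],
  .bok false 13 81 [3] [27],
  .bok false 13 81 [3] [81],
  .bok false 13 81 [3] [243],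
  .bok false 13 81 [3] [729],
  .bok false 13 81 [9] [1],
  .bok false 13 81 [9] [3],
  .bok false 13 81 [9] [9],
  .bok false 13 81 [9] [27],
  .bok false 13 81 [9] [81],
  .bok false 13 81 [9] [243],
  .bok false 13 81 [9] [729],
  .bok false 13 81 [27] [3],
  .bok false 13 81 [27] [9],
  .bok false 13 81 [27] [27],
  .bok false 13 81 [27] [81],
  .bok false 13 81 [27] [243],
  .bok false 13 81 [27] [729],
  .bok false 13 81 [81] [1],
  .bok false 13 81 [81] [3],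
  .bok false 13 81 [81] [9],
  .bok false 13 81 [81] [27],
  .bok false 13 81 [81] [81],
  .bok false 13 81 [81] [243],
  .bok false 13 81 [81] [729],
  .bok false 13 81 [243] [1],
  .bok false 13 81 [243] [3],
  .bok false 13 81 [243] [9],
  .bok false 13 81 [729] [1],
  .bok false 13 81 [729] [3],
  .bok false 13 81 [729] [9],
  .bok false 13 81 [729] [81],
  .bok false 13 81 [6561] [1],
  .bok false 13 81 [6561] [3],
  .bok false 13 81 [6561] [9],
  .bok false 13 81 [6561] [27],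
  .bok false 13 81 [6561] [81],
  .bok false 13 81 [6561] [243],
  .bok false 13 81 [6561] [729],
  .bok false 13 81 [19683] [1],
  .bok false 13 81 [19683] [3],
  .bok false 13 81 [19683] [9],
  .bok false 13 81 [19683] [81],
  .leib 3 13 78 [3] [3],
  .leib 3 13 78 [3] [9],
  .leib 3 13 78 [3] [27],
  .leib 3 13 78 [3] [81],
  .leib 3 13 78 [3] [243],
  .leib 3 13 78 [3] [729],
  .leib 3 13 78 [9] [3],
  .leib 3 13 78 [9] [9],
  .leib 3 13 78 [9] [27],
  .leib 3 13 78 [9] [81],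
  .leib 3 13 78 [9] [243],
  .leib 3 13 78 [9] [729],
  .leib 3 13 78 [81] [3],
  .leib 3 13 78 [81] [9],
  .leib 3 13 78 [81] [27],
  .leib 3 13 78 [81] [81],
  .leib 3 13 78 [81] [243],
  .leib 3 13 78 [81] [729],
  .leib 1 15 80 [243] [3],
  .leib 1 15 80 [243] [9],
  .leib 1 15 80 [243] [27],
  .leib 3 14 78 [27] [3],
  .leib 3 14 78 [27] [9],
  .leib 3 14 78 [27] [27],
  .leib 4 13 78 [3] [3],
  .leib 4 13 78 [3] [9],
  .leib 4 13 78 [3] [27],
  .leib 4 13 78 [9] [3],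
  .leib 4 13 78 [9] [9],
  .leib 4 13 78 [9] [27],
  .leib 4 13 78 [81] [3],
  .leib 4 13 78 [81] [9],
  .leib 4 13 78 [81] [27],
  .leib 4 19 78 [1] [1],
  .leib 4 19 78 [1] [3],
  .leib 4 19 78 [1] [81],
  .leib 4 19 78 [1] [243],
  .leib 4 20 78 [27] [1],
  .leib 4 20 78 [27] [9],
  .leib 4 21 78 [3] [1],
  .leib 1 2 81 [1] [1],
  .leib 1 2 81 [1] [3],
  .leib 1 2 81 [1] [243],
  .leib 1 2 81 [3] [1],
  .leib 1 2 81 [3] [3],
  .leib 1 2 81 [3] [243],
  .leib 1 2 81 [27] [1],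
  .leib 1 2 81 [27] [3],
  .leib 1 2 81 [27] [243],
  .leib 2 1 81 [1] [1],
  .leib 2 1 81 [1] [3],
  .leib 2 1 81 [1] [243],
  .leib 3 1 79 [1] [243],
  .leib 1 3 81 [27] [243],
  .leib 1 4 81 [27] [81],
  .leib 1 4 81 [27] [243],
  .leib 1 4 81 [81] [81],
  .leib 1 4 81 [81] [243],
  .leib 1 4 81 [243] [3],
  .leib 1 4 81 [243] [9],
  .leib 1 4 81 [243] [27],
  .bok false 4 82 [3] [1],
  .bok false 4 82 [3] [3],
  .bok false 4 82 [3] [9],
  .bok false 4 82 [3] [27],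
  .bok false 4 82 [3] [81],
  .bok false 4 82 [3] [243],
  .bok false 4 82 [9] [1],
  .bok false 4 82 [9] [3],
  .bok false 4 82 [9] [9],
  .bok false 4 82 [9] [27],
  .bok false 4 82 [9] [81],
  .bok false 4 82 [9] [243],
  .leib 1 5 81 [3] [27],
  .leib 1 5 81 [3] [81],
  .leib 1 5 81 [3] [243],
  .leib 1 5 81 [81] [27],
  .leib 1 5 81 [81] [81],
  .leib 1 5 81 [81] [243],
  .leib 1 5 81 [243] [1],
  .leib 1 5 81 [243] [3],
  .leib 1 5 81 [243] [9],
  .leib 1 5 81 [243] [27],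
  .leib 1 5 81 [243] [81],
  .leib 1 5 81 [243] [243],
  .bok false 5 82 [1] [1],
  .bok false 5 82 [1] [3],
  .bok false 5 82 [1] [9],
  .bok false 5 82 [1] [27],
  .bok false 5 82 [1] [81],
  .bok false 5 82 [3] [1],
  .bok false 5 82 [3] [3],
  .bok false 5 82 [3] [9],
  .bok false 5 82 [3] [27],
  .bok false 5 82 [3] [81],
  .bok false 5 82 [9] [1],
  .bok false 5 82 [9] [3],
  .bok false 5 82 [9] [9],
  .bok false 5 82 [9] [27],
  .bok false 5 82 [9] [81],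
  .leib 1 6 81 [81] [1],
  .leib 1 6 81 [81] [3],
  .leib 1 6 81 [81] [9],
  .leib 1 6 81 [81] [27],
  .leib 1 6 81 [81] [81],
  .leib 1 6 81 [243] [1],
  .leib 1 6 81 [243] [3],
  .leib 1 6 81 [243] [9],
  .leib 1 6 81 [243] [27],
  .leib 1 6 81 [243] [81],
  .bok false 6 82 [1] [1],
  .bok false 6 82 [1] [3],
  .bok false 6 82 [1] [9],
  .bok false 6 82 [1] [27],
  .bok false 6 82 [3] [1],
  .bok false 6 82 [3] [3],
  .bok false 6 82 [3] [9],
  .leib 1 7 81 [9] [27],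
  .leib 1 7 81 [27] [27],
  .leib 1 7 81 [81] [1],
  .leib 1 7 81 [81] [3],
  .leib 1 7 81 [81] [9],
  .leib 1 7 81 [81] [27],
  .leib 1 7 81 [243] [1],
  .leib 1 7 81 [243] [3],
  .leib 1 7 81 [243] [9],
  .leib 1 7 81 [243] [27],
  .leib 1 7 81 [729] [3],
  .leib 1 7 81 [729] [9],
  .leib 1 7 81 [729] [27],
  .bok false 7 82 [3] [1],
  .bok false 7 82 [3] [3],
  .bok false 7 82 [3] [27],
  .bok false 7 82 [3] [81],
  .bok false 7 82 [3] [243],
  .bok false 7 82 [3] [729],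
  .bok false 7 82 [27] [1],
  .bok false 7 82 [27] [3],
  .bok false 7 82 [27] [27],
  .bok false 7 82 [27] [81],
  .bok false 7 82 [27] [243],
  .bok false 7 82 [27] [729],
  .bok false 7 82 [243] [1],
  .bok false 7 82 [243] [3],
  .bok false 7 82 [243] [27],
  .bok false 7 82 [243] [81],
  .bok false 7 82 [243] [243],
  .bok false 7 82 [243] [729],
  .leib 1 8 81 [27] [1],
  .leib 1 8 81 [27] [3],
  .leib 1 8 81 [27] [27],
  .leib 1 8 81 [27] [81],
  .leib 1 8 81 [27] [243],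
  .leib 1 8 81 [27] [729],
  .leib 1 8 81 [81] [729],
  .leib 1 8 81 [243] [1],
  .leib 1 8 81 [243] [3],
  .leib 1 8 81 [243] [27],
  .leib 1 8 81 [243] [81],
  .leib 1 8 81 [243] [243],
  .leib 1 8 81 [243] [729],
  .leib 1 8 81 [729] [1],
  .leib 1 8 81 [729] [3],
  .leib 1 8 81 [729] [27],
  .leib 1 8 81 [729] [81],
  .leib 1 8 81 [729] [243],
  .leib 1 8 81 [729] [729],
  .leib 1 8 81 [2187] [1],
  .leib 1 8 81 [2187] [3],
  .leib 1 8 81 [2187] [27],
  .leib 1 8 81 [2187] [81],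
  .leib 1 8 81 [2187] [243],
  .leib 1 8 81 [2187] [729],
  .leib 3 7 79 [81] [27],
  .leib 3 7 79 [81] [81],
  .leib 3 7 79 [81] [243],
  .leib 3 7 79 [243] [1],
  .leib 3 7 79 [243] [3],
  .leib 3 7 79 [243] [27],
  .leib 3 7 79 [243] [81],
  .leib 3 7 79 [243] [243],
  .leib 3 7 79 [243] [729],
  .bok false 8 82 [3] [1],
  .bok false 8 82 [3] [3],
  .bok false 8 82 [3] [9],
  .bok false 8 82 [3] [27],
  .bok false 8 82 [3] [81],
  .bok false 8 82 [3] [243],
  .bok false 8 82 [3] [729],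
  .bok false 8 82 [3] [2187],
  .bok false 8 82 [9] [1],
  .bok false 8 82 [9] [3],
  .bok false 8 82 [9] [9],
  .bok false 8 82 [9] [27],
  .bok false 8 82 [9] [81],
  .bok false 8 82 [9] [243],
  .bok false 8 82 [9] [729],
  .bok false 8 82 [9] [2187],
  .bok false 8 82 [27] [1],
  .bok false 8 82 [27] [3],
  .bok false 8 82 [27] [9],
  .bok false 8 82 [27] [27],
  .bok false 8 82 [27] [81],
  .bok false 8 82 [27] [243],
  .bok false 8 82 [27] [729],
  .bok false 8 82 [27] [2187],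
  .bok false 8 82 [729] [3],
  .bok false 8 82 [729] [9],
  .bok false 8 82 [729] [27],
  .bok false 8 82 [729] [81],
  .bok false 8 82 [729] [243],
  .bok false 8 82 [729] [729],
  .bok false 8 82 [729] [2187],
  .bok false 8 82 [2187] [1],
  .bok false 8 82 [2187] [3],
  .bok false 8 82 [2187] [9],
  .bok false 8 82 [2187] [27],
  .bok false 8 82 [2187] [81],
  .bok false 8 82 [2187] [243],
  .bok false 8 82 [2187] [729],
  .bok false 8 82 [2187] [2187],
  .leib 1 9 81 [27] [1],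
  .leib 1 9 81 [27] [3],
  .leib 1 9 81 [27] [9],
  .leib 1 9 81 [27] [27],
  .leib 1 9 81 [27] [81],
  .leib 1 9 81 [27] [243],
  .leib 1 9 81 [27] [729],
  .leib 1 9 81 [27] [2187],
  .leib 1 9 81 [81] [1],
  .leib 1 9 81 [81] [3],
  .leib 1 9 81 [81] [9],
  .leib 1 9 81 [81] [27],
  .leib 1 9 81 [81] [81],
  .leib 1 9 81 [81] [243],
  .leib 1 9 81 [81] [729],
  .leib 1 9 81 [81] [2187],
  .leib 1 9 81 [243] [1],
  .leib 1 9 81 [243] [3],
  .leib 1 9 81 [243] [9],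
  .leib 1 9 81 [243] [27],
  .leib 1 9 81 [243] [81],
  .leib 1 9 81 [243] [243],
  .leib 1 9 81 [243] [729],
  .leib 1 9 81 [243] [2187],
  .leib 3 8 79 [9] [1],
  .leib 3 8 79 [9] [3],
  .leib 3 8 79 [9] [9],
  .leib 3 8 79 [9] [27],
  .leib 3 8 79 [9] [81],
  .leib 3 8 79 [9] [243],
  .leib 3 8 79 [9] [729],
  .leib 3 8 79 [9] [2187],
  .leib 3 8 79 [27] [1],
  .leib 3 8 79 [27] [3],
  .leib 3 8 79 [27] [9],
  .leib 3 8 79 [27] [27],
  .leib 3 8 79 [27] [81],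
  .leib 3 8 79 [27] [243],
  .leib 3 8 79 [27] [729],
  .leib 3 8 79 [27] [2187],
  .bok false 9 82 [1] [1],
  .bok false 9 82 [1] [3],
  .bok false 9 82 [1] [9],
  .bok false 9 82 [3] [1],
  .bok false 9 82 [3] [3],
  .bok false 9 82 [3] [9],
  .bok false 9 82 [9] [1],
  .bok false 9 82 [9] [3],
  .bok false 9 82 [9] [9],
  .bok false 9 82 [27] [1],
  .bok false 9 82 [27] [3],
  .bok false 9 82 [27] [9],
  .bok false 9 82 [243] [1],
  .bok false 9 82 [243] [3],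
  .bok false 9 82 [243] [9],
  .leib 1 10 81 [81] [1],
  .leib 1 10 81 [81] [3],
  .leib 1 10 81 [81] [9],
  .leib 1 10 81 [243] [1],
  .leib 1 10 81 [243] [3],
  .leib 1 10 81 [243] [9],
  .leib 5 9 75 [243] [1],
  .leib 5 9 75 [243] [9],
  .bok false 10 82 [1] [1],
  .bok false 10 82 [1] [3],
  .bok false 10 82 [1] [9],
  .bok false 10 82 [9] [1],
  .bok false 10 82 [9] [3],
  .bok false 10 82 [9] [9],
  .bok false 10 82 [243] [1],
  .bok false 10 82 [243] [3],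
  .bok false 10 82 [243] [9],
  .leib 1 11 81 [81] [1],
  .leib 1 11 81 [81] [3],
  .leib 1 11 81 [81] [9],
  .leib 1 11 81 [243] [1],
  .leib 1 11 81 [243] [9],
  .leib 1 11 81 [729] [1],
  .leib 1 11 81 [729] [3],
  .leib 1 11 81 [729] [9],
  .leib 3 10 79 [243] [1],
  .leib 3 10 79 [243] [3],
  .leib 3 10 79 [243] [9],
  .leib 13 10 61 [3] [3],
  .leib 13 10 61 [3] [9],
  .bok false 11 82 [1] [1],
  .bok false 11 82 [1] [9],
  .bok false 11 82 [1] [27],
  .bok false 11 82 [1] [81],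
  .bok false 11 82 [1] [243],
  .bok false 11 82 [1] [729],
  .bok false 11 82 [1] [2187],
  .bok false 11 82 [3] [1],
  .bok false 11 82 [3] [9],
  .bok false 11 82 [3] [27],
  .bok false 11 82 [3] [81],
  .bok false 11 82 [3] [243],
  .bok false 11 82 [3] [729],
  .bok false 11 82 [3] [2187],
  .bok false 11 82 [9] [1],
  .bok false 11 82 [9] [9],
  .bok false 11 82 [9] [27],
  .bok false 11 82 [9] [81],
  .bok false 11 82 [9] [243],
  .bok false 11 82 [9] [729],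
  .bok false 11 82 [9] [2187],
  .bok false 11 82 [243] [1],
  .bok false 11 82 [243] [9],
  .bok false 11 82 [243] [27],
  .bok false 11 82 [243] [81],
  .bok false 11 82 [243] [243],
  .bok false 11 82 [243] [729],
  .bok false 11 82 [243] [2187],
  .leib 1 12 81 [81] [1],
  .leib 1 12 81 [81] [9],
  .leib 1 12 81 [81] [27],
  .leib 1 12 81 [81] [81],
  .leib 1 12 81 [81] [243],
  .leib 1 12 81 [81] [729],
  .leib 1 12 81 [81] [2187],
  .leib 1 12 81 [243] [1],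
  .leib 1 12 81 [243] [9],
  .leib 1 12 81 [243] [27],
  .leib 1 12 81 [243] [81],
  .leib 1 12 81 [243] [243],
  .leib 1 12 81 [243] [729],
  .leib 1 12 81 [243] [2187],
  .leib 3 11 79 [9] [1],
  .leib 3 11 79 [9] [9],
  .leib 3 11 79 [9] [27],
  .leib 3 11 79 [9] [81],
  .leib 3 11 79 [9] [243],
  .leib 3 11 79 [9] [729],
  .leib 3 11 79 [9] [2187],
  .leib 3 11 79 [27] [1],
  .leib 3 11 79 [27] [9],
  .leib 3 11 79 [27] [27],
  .leib 3 11 79 [27] [81],
  .leib 3 11 79 [27] [243],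
  .leib 3 11 79 [27] [729],
  .leib 3 11 79 [27] [2187],
  .leib 3 11 79 [81] [1],
  .leib 3 11 79 [81] [9],
  .leib 3 11 79 [81] [27],
  .leib 3 11 79 [81] [81],
  .leib 3 11 79 [81] [243],
  .leib 3 11 79 [81] [729],
  .leib 3 11 79 [81] [2187],
  .bok false 12 82 [3] [3],
  .bok false 12 82 [3] [9],
  .bok false 12 82 [3] [27],
  .bok false 12 82 [3] [81],
  .bok false 12 82 [3] [243],
  .bok false 12 82 [9] [3],
  .bok false 12 82 [9] [9],
  .bok false 12 82 [9] [27],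
  .bok false 12 82 [9] [81],
  .bok false 12 82 [9] [243],
  .bok false 12 82 [27] [3],
  .bok false 12 82 [27] [9],
  .bok false 12 82 [27] [27],
  .bok false 12 82 [27] [81],
  .bok false 12 82 [27] [243],
  .bok false 12 82 [81] [3],
  .bok false 12 82 [81] [9],
  .bok false 12 82 [81] [27],
  .bok false 12 82 [81] [81],
  .bok false 12 82 [81] [243],
  .bok false 12 82 [6561] [3],
  .bok false 12 82 [6561] [9],
  .bok false 12 82 [6561] [27],
  .bok false 12 82 [6561] [81],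
  .bok false 12 82 [6561] [243],
  .leib 1 13 81 [243] [3],
  .leib 1 13 81 [243] [9],
  .leib 1 13 81 [243] [27],
  .leib 1 13 81 [243] [81],
  .leib 1 13 81 [243] [243],
  .leib 1 16 81 [27] [1],
  .leib 1 16 81 [27] [3],
  .leib 1 16 81 [27] [9],
  .leib 1 16 81 [27] [27],
  .leib 1 16 81 [27] [81],
  .leib 1 16 81 [27] [243],
  .leib 1 16 81 [27] [729],
  .leib 2 15 81 [3] [1],
  .leib 2 15 81 [3] [3],
  .leib 2 15 81 [3] [9],
  .leib 2 15 81 [3] [27],
  .leib 2 15 81 [3] [81],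
  .leib 2 15 81 [3] [243],
  .leib 2 15 81 [3] [729],
  .leib 2 15 81 [9] [1],
  .leib 2 15 81 [9] [3],
  .leib 2 15 81 [9] [9],
  .leib 2 15 81 [9] [27],
  .leib 2 15 81 [9] [81],
  .leib 2 15 81 [9] [243],
  .leib 2 15 81 [9] [729],
  .leib 2 15 81 [27] [1],
  .leib 2 15 81 [27] [3],
  .leib 2 15 81 [27] [9],
  .leib 2 15 81 [27] [27],
  .leib 2 15 81 [27] [81],
  .leib 2 15 81 [27] [243],
  .leib 2 15 81 [27] [729],
  .leib 3 15 79 [3] [1],
  .leib 3 15 79 [3] [3],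
  .leib 3 15 79 [3] [9],
  .leib 3 15 79 [3] [27],
  .leib 3 15 79 [3] [81],
  .leib 3 15 79 [3] [243],
  .leib 3 15 79 [3] [729],
  .leib 3 15 79 [9] [1],
  .leib 3 15 79 [9] [3],
  .leib 3 15 79 [9] [9],
  .leib 3 15 79 [9] [27],
  .leib 3 15 79 [9] [81],
  .leib 3 15 79 [9] [243],
  .leib 3 15 79 [9] [729],
  .leib 4 14 79 [729] [1],
  .leib 4 14 79 [729] [3],
  .leib 4 14 79 [729] [9],
  .leib 4 14 79 [729] [27],
  .leib 4 14 79 [729] [81],
  .leib 4 14 79 [729] [243],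
  .leib 4 14 79 [729] [729],
  .leib 4 14 79 [2187] [1],
  .leib 4 14 79 [2187] [3],
  .leib 4 14 79 [2187] [9],
  .leib 4 14 79 [2187] [27],
  .leib 4 14 79 [2187] [81],
  .leib 4 14 79 [2187] [243],
  .leib 4 14 79 [2187] [729],
  .leib 1 17 81 [2187] [1],
  .leib 1 17 81 [2187] [3],
  .leib 1 17 81 [2187] [9],
  .leib 1 17 81 [2187] [27],
  .leib 1 17 81 [6561] [1],
  .leib 1 17 81 [6561] [3],
  .leib 1 17 81 [6561] [9],
  .leib 1 17 81 [6561] [27],
  .leib 2 16 81 [27] [1],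
  .leib 2 16 81 [27] [3],
  .leib 2 16 81 [27] [9],
  .leib 2 16 81 [27] [27],
  .leib 4 15 79 [3] [1],
  .leib 4 15 79 [3] [3],
  .leib 4 15 79 [3] [9],
  .leib 4 15 79 [3] [27],
  .leib 4 15 79 [9] [1],
  .leib 4 15 79 [9] [3],
  .leib 4 15 79 [9] [9],
  .leib 4 15 79 [9] [27],
  .leib 1 20 81 [27] [9],
  .leib 2 19 81 [3] [9],
  .leib 4 18 79 [3] [9],
  .leib 4 18 79 [9] [9],
  .leib 4 18 79 [27] [9],
  .leib 1 2 82 [81] [27],
  .leib 1 3 82 [27] [243],
  .leib 1 3 82 [81] [27],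
  .leib 1 3 82 [81] [81],
  .leib 3 2 80 [1] [243],
  .leib 1 4 82 [3] [729],
  .leib 1 4 82 [3] [2187],
  .leib 1 4 82 [3] [6561],
  .leib 1 4 82 [9] [1],
  .leib 1 4 82 [9] [3],
  .leib 1 4 82 [9] [9],
  .leib 1 4 82 [9] [27],
  .leib 1 4 82 [9] [81],
  .leib 1 4 82 [9] [243],
  .leib 1 4 82 [9] [729],
  .leib 1 4 82 [9] [2187],
  .leib 1 4 82 [9] [6561],
  .leib 1 4 82 [27] [1],
  .leib 1 4 82 [27] [3],
  .leib 1 4 82 [27] [9],
  .leib 1 4 82 [27] [27],
  .leib 1 4 82 [27] [81],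
  .leib 1 4 82 [27] [243],
  .leib 1 4 82 [27] [729],
  .leib 1 4 82 [27] [2187],
  .leib 1 4 82 [27] [6561],
  .leib 3 3 80 [1] [1],
  .leib 3 3 80 [1] [3],
  .leib 3 3 80 [1] [9],
  .leib 3 3 80 [1] [27],
  .leib 3 3 80 [1] [81],
  .leib 3 3 80 [1] [243],
  .leib 3 3 80 [1] [729],
  .leib 3 3 80 [1] [2187],
  .leib 3 3 80 [1] [6561],
  .leib 3 3 80 [3] [1],
  .leib 3 3 80 [3] [3],
  .leib 3 3 80 [3] [9],
  .leib 3 3 80 [3] [729],
  .leib 3 3 80 [3] [2187],
  .leib 3 3 80 [3] [6561],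
  .leib 7 3 74 [1] [729],
  .leib 7 3 74 [1] [6561],
  .leib 9 3 68 [1] [729],
  .leib 9 3 68 [1] [6561],
  .bok false 4 83 [1] [1],
  .bok false 4 83 [1] [3],
  .bok false 4 83 [1] [9],
  .bok false 4 83 [1] [27],
  .bok false 4 83 [1] [81],
  .bok false 4 83 [1] [243],
  .bok false 4 83 [1] [729],
  .bok false 4 83 [1] [2187],
  .bok false 4 83 [3] [1],
  .bok false 4 83 [3] [3],
  .bok false 4 83 [3] [9],
  .bok false 4 83 [3] [27],
  .bok false 4 83 [3] [81],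
  .bok false 4 83 [3] [243],
  .bok false 4 83 [3] [729],
  .bok false 4 83 [3] [2187],
  .bok false 4 83 [3] [6561],
  .bok false 4 83 [9] [1],
  .bok false 4 83 [9] [3],
  .bok false 4 83 [9] [9],
  .bok false 4 83 [9] [27],
  .bok false 4 83 [9] [81]]
 Pf.done)

theorem cchk7 : (ofTab P236Q.tauF).chunk
    (cex0 ++ (cex1 ++ (cex2 ++ (cex3 ++ (cex4 ++ (cex5 ++ cex6))))))
    cpf7 cex7 = true := by
  decide +kernel

end Vale.Agent.P236E
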