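import Vale.Agent.P236Et.Ex
import Vale.Agent.P236Qt.TauF

/-!
# P236, block ENG: part 8 of the certificate
-/

namespace Vale.Agent.P236E

set_option maxRecDepth 100000

noncomputable def cpf8 : Pf :=
 (steps [.bok false 4 83 [9] [243],
  .bok false 4 83 [9] [729],
  .bok false 4 83 [9] [2187],
  .bok false 4 83 [9] [6561],
  .bok false 4 83 [27] [1],
  .bok false 4 83 [27] [3],
  .bok false 4 83 [27] [9],
  .bok false 4 83 [27] [27],
  .bok false 4 83 [27] [729],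
  .leib 1 5 82 [1] [6561],
  .leib 1 5 82 [3] [6561],
  .leib 1 5 82 [9] [1],
  .leib 1 5 82 [9] [3],
  .leib 1 5 82 [9] [9],
  .leib 1 5 82 [9] [27],
  .leib 1 5 82 [9] [81],
  .leib 1 5 82 [9] [243],
  .leib 1 5 82 [9] [729],
  .leib 1 5 82 [9] [2187],
  .leib 1 5 82 [9] [6561],
  .leib 1 5 82 [27] [1],
  .leib 1 5 82 [27] [3],
  .leib 1 5 82 [27] [9],
  .leib 1 5 82 [27] [27],
  .leib 1 5 82 [27] [81],
  .leib 1 5 82 [27] [243],
  .leib 1 5 82 [27] [729],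
  .leib 1 5 82 [27] [2187],
  .leib 3 4 80 [3] [1],
  .leib 3 4 80 [3] [3],
  .leib 3 4 80 [3] [9],
  .leib 3 4 80 [3] [27],
  .leib 3 4 80 [3] [81],
  .leib 3 4 80 [3] [243],
  .leib 3 4 80 [3] [729],
  .leib 3 4 80 [3] [2187],
  .leib 3 4 80 [3] [6561],
  .leib 5 4 76 [81] [6561],
  .leib 7 4 74 [1] [3],
  .leib 7 4 74 [1] [6561],
  .bok false 5 83 [1] [3],
  .bok false 5 83 [1] [9],
  .bok false 5 83 [1] [27],
  .bok false 5 83 [1] [81],
  .bok false 5 83 [1] [243],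
  .bok false 5 83 [81] [3],
  .bok false 5 83 [81] [9],
  .bok false 5 83 [81] [27],
  .bok false 5 83 [81] [81],
  .bok false 5 83 [81] [243],
  .leib 1 6 82 [3] [729],
  .leib 1 6 82 [3] [2187],
  .leib 1 6 82 [9] [1],
  .leib 1 6 82 [9] [3],
  .leib 1 6 82 [9] [9],
  .leib 1 6 82 [9] [27],
  .leib 1 6 82 [9] [81],
  .leib 1 6 82 [9] [243],
  .leib 1 6 82 [9] [729],
  .leib 1 6 82 [9] [2187],
  .leib 3 5 80 [1] [729],
  .leib 5 5 76 [27] [1],
  .leib 5 5 76 [27] [3],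
  .leib 5 5 76 [27] [9],
  .leib 5 5 76 [27] [27],
  .leib 5 5 76 [27] [81],
  .leib 5 5 76 [27] [243],
  .leib 5 5 76 [27] [729],
  .leib 5 5 76 [27] [2187],
  .bok false 6 83 [1] [1],
  .bok false 6 83 [1] [3],
  .bok false 6 83 [1] [9],
  .bok false 6 83 [1] [27],
  .bok false 6 83 [1] [81],
  .bok false 6 83 [1] [243],
  .bok false 6 83 [1] [729],
  .bok false 6 83 [1] [2187],
  .bok false 6 83 [81] [1],
  .bok false 6 83 [81] [3],
  .bok false 6 83 [81] [9],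
  .bok false 6 83 [81] [27],
  .bok false 6 83 [81] [81],
  .bok false 6 83 [81] [243],
  .bok false 6 83 [81] [729],
  .bok false 6 83 [81] [2187],
  .leib 1 7 82 [9] [1],
  .leib 1 7 82 [9] [3],
  .leib 1 7 82 [9] [9],
  .leib 1 7 82 [9] [27],
  .leib 1 7 82 [9] [81],
  .leib 1 7 82 [9] [243],
  .leib 1 7 82 [9] [729],
  .leib 1 7 82 [9] [2187],
  .leib 3 6 80 [3] [729],
  .leib 3 6 80 [9] [1],
  .leib 3 6 80 [9] [3],
  .leib 3 6 80 [9] [9],
  .leib 3 6 80 [9] [27],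
  .leib 3 6 80 [9] [81],
  .leib 3 6 80 [9] [243],
  .leib 3 6 80 [9] [729],
  .leib 3 6 80 [9] [2187],
  .leib 5 6 76 [3] [729],
  .leib 7 6 74 [3] [729],
  .bok false 7 83 [1] [1],
  .bok false 7 83 [1] [3],
  .bok false 7 83 [1] [9],
  .bok false 7 83 [1] [27],
  .bok false 7 83 [1] [81],
  .bok false 7 83 [1] [243],
  .bok false 7 83 [9] [9],
  .bok false 7 83 [27] [1],
  .bok false 7 83 [27] [3],
  .bok false 7 83 [27] [9],
  .bok false 7 83 [27] [27],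
  .bok false 7 83 [27] [81],
  .bok false 7 83 [27] [243],
  .leib 3 7 80 [3] [1],
  .leib 3 7 80 [3] [3],
  .leib 3 7 80 [3] [9],
  .leib 3 7 80 [3] [27],
  .leib 3 7 80 [3] [81],
  .leib 3 7 80 [3] [243],
  .leib 3 7 80 [9] [1],
  .leib 3 7 80 [9] [3],
  .leib 3 7 80 [9] [9],
  .leib 3 7 80 [9] [27],
  .leib 3 7 80 [9] [81],
  .leib 3 7 80 [9] [243],
  .leib 1 9 82 [729] [1],
  .leib 1 9 82 [729] [3],
  .leib 1 9 82 [729] [9],
  .leib 1 9 82 [729] [27],
  .leib 1 9 82 [729] [81],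
  .leib 1 9 82 [729] [243],
  .leib 1 9 82 [729] [729],
  .leib 1 9 82 [19683] [1],
  .leib 1 9 82 [19683] [3],
  .leib 1 9 82 [19683] [9],
  .leib 1 9 82 [19683] [27],
  .leib 1 9 82 [19683] [81],
  .leib 1 9 82 [19683] [243],
  .leib 1 9 82 [19683] [729],
  .leib 3 8 80 [27] [1],
  .leib 3 8 80 [27] [3],
  .leib 3 8 80 [27] [9],
  .leib 3 8 80 [27] [27],
  .leib 3 8 80 [27] [81],
  .leib 3 8 80 [27] [243],
  .leib 3 8 80 [27] [729],
  .leib 4 7 80 [3] [1],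
  .leib 4 7 80 [3] [3],
  .leib 4 7 80 [3] [27],
  .leib 4 7 80 [3] [81],
  .leib 4 7 80 [9] [1],
  .leib 4 7 80 [9] [3],
  .leib 4 7 80 [9] [9],
  .leib 4 7 80 [9] [27],
  .leib 4 7 80 [9] [81],
  .leib 4 7 80 [9] [243],
  .bok false 9 83 [1] [1],
  .bok false 9 83 [1] [3],
  .bok false 9 83 [1] [9],
  .bok false 9 83 [1] [27],
  .bok false 9 83 [1] [81],
  .bok false 9 83 [1] [243],
  .bok false 9 83 [3] [1],
  .bok false 9 83 [3] [3],
  .bok false 9 83 [3] [9],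
  .bok false 9 83 [81] [1],
  .bok false 9 83 [81] [3],
  .bok false 9 83 [81] [9],
  .bok false 9 83 [81] [27],
  .bok false 9 83 [81] [81],
  .bok false 9 83 [81] [243],
  .bok false 9 83 [81] [729],
  .bok false 9 83 [81] [2187],
  .bok false 9 83 [81] [6561],
  .bok false 9 83 [243] [1],
  .bok false 9 83 [243] [3],
  .bok false 9 83 [243] [9],
  .bok false 9 83 [243] [27],
  .bok false 9 83 [243] [243],
  .leib 1 10 82 [27] [1],
  .leib 1 10 82 [27] [3],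
  .leib 1 10 82 [27] [9],
  .leib 1 10 82 [27] [27],
  .leib 1 10 82 [27] [81],
  .leib 1 10 82 [27] [243],
  .leib 1 10 82 [27] [729],
  .leib 1 10 82 [27] [2187],
  .leib 1 10 82 [27] [6561],
  .leib 1 10 82 [81] [1],
  .leib 1 10 82 [81] [3],
  .leib 1 10 82 [81] [9],
  .leib 1 10 82 [81] [27],
  .leib 1 10 82 [81] [81],
  .leib 1 10 82 [81] [243],
  .leib 1 10 82 [81] [729],
  .leib 1 10 82 [81] [2187],
  .leib 1 10 82 [81] [6561],
  .leib 1 10 82 [243] [729],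
  .leib 1 10 82 [243] [6561],
  .leib 3 9 80 [27] [1],
  .leib 3 9 80 [27] [3],
  .leib 3 9 80 [27] [9],
  .leib 3 9 80 [27] [27],
  .leib 3 9 80 [27] [81],
  .leib 3 9 80 [27] [243],
  .leib 3 9 80 [27] [2187],
  .bok false 10 83 [1] [1],
  .bok false 10 83 [1] [3],
  .bok false 10 83 [1] [9],
  .bok false 10 83 [1] [27],
  .bok false 10 83 [1] [81],
  .bok false 10 83 [1] [243],
  .bok false 10 83 [1] [729],
  .bok false 10 83 [1] [2187],
  .bok false 10 83 [3] [81],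
  .bok false 10 83 [3] [243],
  .bok false 10 83 [3] [729],
  .bok false 10 83 [3] [2187],
  .bok false 10 83 [81] [1],
  .bok false 10 83 [81] [3],
  .bok false 10 83 [81] [9],
  .bok false 10 83 [81] [27],
  .bok false 10 83 [81] [81],
  .bok false 10 83 [81] [243],
  .bok false 10 83 [81] [729],
  .bok false 10 83 [81] [2187],
  .leib 3 10 80 [3] [1],
  .leib 3 10 80 [3] [3],
  .leib 3 10 80 [3] [9],
  .leib 3 10 80 [3] [27],
  .leib 3 10 80 [3] [81],
  .leib 3 10 80 [3] [243],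
  .leib 3 10 80 [3] [729],
  .leib 3 10 80 [3] [2187],
  .bok false 11 83 [1] [1],
  .bok false 11 83 [1] [3],
  .bok false 11 83 [1] [9],
  .bok false 11 83 [1] [27],
  .bok false 11 83 [1] [81],
  .bok false 11 83 [27] [3],
  .bok false 11 83 [27] [9],
  .bok false 11 83 [27] [27],
  .leib 1 12 82 [729] [1],
  .leib 1 12 82 [729] [3],
  .leib 1 12 82 [729] [9],
  .leib 1 12 82 [729] [27],
  .leib 1 12 82 [729] [81],
  .leib 3 11 80 [27] [1],
  .leib 3 11 80 [27] [3],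
  .leib 3 11 80 [27] [9],
  .leib 3 11 80 [27] [27],
  .bok false 12 83 [1] [27],
  .bok false 12 83 [3] [1],
  .bok false 12 83 [3] [3],
  .bok false 12 83 [3] [9],
  .bok false 12 83 [3] [27],
  .bok false 12 83 [3] [729],
  .leib 1 13 82 [9] [1],
  .leib 1 13 82 [9] [3],
  .leib 1 13 82 [9] [9],
  .leib 1 13 82 [9] [27],
  .leib 1 13 82 [9] [729],
  .leib 1 13 82 [27] [1],
  .leib 1 13 82 [27] [3],
  .leib 1 13 82 [27] [9],
  .leib 1 13 82 [27] [27],
  .leib 1 13 82 [27] [729],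
  .leib 1 13 82 [81] [1],
  .leib 1 13 82 [81] [3],
  .leib 1 13 82 [81] [9],
  .leib 1 13 82 [81] [27],
  .leib 1 13 82 [243] [1],
  .leib 1 13 82 [243] [3],
  .leib 1 13 82 [243] [9],
  .leib 1 13 82 [243] [27],
  .leib 1 13 82 [243] [729],
  .leib 3 12 80 [729] [1],
  .leib 3 12 80 [729] [3],
  .leib 3 12 80 [729] [9],
  .leib 3 12 80 [729] [27],
  .leib 3 12 80 [2187] [1],
  .leib 3 12 80 [2187] [3],
  .leib 3 12 80 [2187] [729],
  .bok false 13 83 [1] [9],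
  .bok false 13 83 [1] [27],
  .bok false 13 83 [1] [81],
  .bok false 13 83 [1] [729],
  .bok false 13 83 [1] [2187],
  .bok false 13 83 [1] [6561],
  .bok false 13 83 [3] [2187],
  .bok false 13 83 [3] [6561],
  .bok false 13 83 [27] [9],
  .bok false 13 83 [27] [27],
  .bok false 13 83 [27] [81],
  .bok false 13 83 [27] [729],
  .bok false 13 83 [27] [2187],
  .bok false 13 83 [27] [6561],
  .bok false 13 83 [243] [2187],
  .bok false 13 83 [243] [6561],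
  .bok false 13 83 [729] [9],
  .bok false 13 83 [729] [27],
  .bok false 13 83 [729] [81],
  .bok false 13 83 [729] [2187],
  .bok false 13 83 [729] [6561],
  .leib 1 14 82 [9] [9],
  .leib 1 14 82 [9] [27],
  .leib 1 14 82 [9] [81],
  .leib 1 14 82 [9] [2187],
  .leib 1 14 82 [9] [6561],
  .leib 3 13 80 [1] [9],
  .leib 3 13 80 [1] [27],
  .leib 3 13 80 [1] [81],
  .leib 3 13 80 [1] [729],
  .leib 3 13 80 [1] [2187],
  .leib 3 13 80 [1] [6561],
  .leib 3 13 80 [3] [9],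
  .leib 3 13 80 [3] [27],
  .leib 3 13 80 [3] [81],
  .leib 3 13 80 [3] [729],
  .leib 3 13 80 [3] [2187],
  .leib 3 13 80 [3] [6561],
  .bok false 14 83 [1] [27],
  .bok false 14 83 [1] [81],
  .bok false 14 83 [1] [243],
  .bok false 14 83 [3] [27],
  .bok false 14 83 [3] [81],
  .bok false 14 83 [3] [243],
  .bok false 14 83 [9] [27],
  .bok false 14 83 [9] [243],
  .leib 3 17 80 [1] [1],
  .leib 3 17 80 [1] [3],
  .leib 3 17 80 [1] [9],
  .leib 3 17 80 [1] [27],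
  .leib 3 17 80 [1] [81],
  .leib 3 17 80 [1] [243],
  .leib 3 17 80 [1] [729],
  .leib 3 17 80 [1] [2187],
  .bok false 18 83 [1] [3],
  .bok false 18 83 [1] [9],
  .bok false 18 83 [1] [27],
  .leib 1 20 82 [3] [1],
  .leib 1 20 82 [3] [3],
  .leib 1 20 82 [9] [1],
  .leib 1 20 82 [9] [3],
  .leib 1 20 82 [27] [1],
  .leib 1 20 82 [27] [3],
  .leib 3 19 80 [729] [1],
  .leib 3 19 80 [729] [3],
  .bok false 20 83 [1] [243],
  .bok false 20 83 [3] [243],
  .bok false 20 83 [9] [243],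
  .bok false 20 83 [27] [243],
  .leib 3 20 80 [3] [243],
  .leib 3 21 80 [1] [1],
  .leib 3 21 80 [1] [3],
  .leib 3 21 80 [1] [9],
  .leib 3 21 80 [1] [27],
  .leib 3 21 80 [1] [81],
  .bok false 22 83 [1] [9],
  .leib 1 23 82 [27] [9],
  .leib 1 2 83 [27] [19683],
  .leib 3 1 81 [1] [19683],
  .leib 1 3 83 [1] [19683],
  .leib 1 3 83 [3] [81],
  .leib 1 3 83 [3] [243],
  .leib 1 3 83 [3] [729],
  .leib 1 3 83 [27] [1],
  .leib 1 3 83 [27] [3],
  .leib 1 3 83 [27] [9],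
  .leib 1 3 83 [27] [27],
  .leib 1 3 83 [27] [81],
  .leib 1 3 83 [27] [243],
  .leib 1 3 83 [27] [729],
  .leib 1 3 83 [27] [2187],
  .leib 1 3 83 [27] [6561],
  .leib 1 3 83 [27] [19683],
  .leib 3 2 81 [1] [1],
  .leib 3 2 81 [1] [3],
  .leib 3 2 81 [1] [9],
  .leib 3 2 81 [1] [27],
  .leib 3 2 81 [1] [81],
  .leib 3 2 81 [1] [243],
  .leib 3 2 81 [1] [729],
  .leib 3 2 81 [1] [2187],
  .leib 3 2 81 [1] [6561],
  .leib 3 2 81 [1] [19683],
  .leib 3 2 81 [3] [6561],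
  .leib 3 2 81 [3] [19683],
  .leib 3 2 81 [9] [1],
  .leib 3 2 81 [9] [3],
  .leib 3 2 81 [9] [9],
  .leib 3 2 81 [9] [27],
  .leib 3 2 81 [9] [81],
  .leib 3 2 81 [9] [243],
  .leib 3 2 81 [9] [729],
  .leib 3 2 81 [9] [2187],
  .leib 3 2 81 [9] [19683],
  .leib 4 1 81 [3] [81],
  .leib 4 1 81 [3] [243],
  .leib 4 1 81 [3] [729],
  .leib 7 2 75 [3] [6561],
  .leib 7 2 75 [3] [19683],
  .bok false 3 84 [1] [3],
  .bok false 3 84 [1] [9],
  .bok false 3 84 [1] [27],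
  .bok false 3 84 [1] [81],
  .bok false 3 84 [1] [243],
  .bok false 3 84 [1] [729],
  .bok false 3 84 [3] [3],
  .bok false 3 84 [3] [9],
  .bok false 3 84 [3] [27],
  .bok false 3 84 [3] [81],
  .bok false 3 84 [3] [243],
  .bok false 3 84 [3] [729],
  .leib 1 4 83 [3] [243],
  .leib 1 4 83 [3] [729],
  .leib 1 4 83 [9] [3],
  .leib 1 4 83 [9] [9],
  .leib 1 4 83 [9] [27],
  .leib 1 4 83 [9] [81],
  .leib 1 4 83 [9] [243],
  .leib 1 4 83 [9] [729],
  .leib 2 3 83 [1] [243],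
  .leib 2 3 83 [1] [729],
  .leib 3 3 81 [3] [243],
  .leib 3 3 81 [3] [729],
  .leib 3 3 81 [9] [3],
  .leib 3 3 81 [9] [9],
  .leib 3 3 81 [9] [27],
  .leib 3 3 81 [9] [81],
  .leib 3 3 81 [9] [243],
  .leib 3 3 81 [9] [729],
  .leib 7 3 75 [1] [243],
  .leib 7 3 75 [1] [729],
  .bok false 4 84 [1] [1],
  .bok false 4 84 [1] [3],
  .bok false 4 84 [1] [9],
  .bok false 4 84 [1] [27],
  .bok false 4 84 [1] [81],
  .bok false 4 84 [1] [243],
  .bok false 4 84 [1] [729],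
  .bok false 4 84 [9] [1],
  .bok false 4 84 [9] [3],
  .bok false 4 84 [9] [9],
  .bok false 4 84 [9] [81],
  .bok false 4 84 [9] [243],
  .bok false 4 84 [9] [729],
  .leib 1 5 83 [9] [1],
  .leib 1 5 83 [9] [3],
  .leib 1 5 83 [9] [9],
  .leib 1 5 83 [9] [27],
  .leib 1 5 83 [9] [81],
  .leib 1 5 83 [9] [243],
  .leib 1 5 83 [9] [729],
  .leib 1 5 83 [27] [1],
  .leib 1 5 83 [27] [3],
  .leib 1 5 83 [27] [9],
  .leib 1 5 83 [27] [81],
  .leib 1 5 83 [27] [243],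
  .leib 1 5 83 [27] [729],
  .leib 3 4 81 [27] [1],
  .leib 3 4 81 [27] [3],
  .leib 3 4 81 [27] [9],
  .leib 3 4 81 [27] [27],
  .leib 3 4 81 [27] [81],
  .leib 3 4 81 [27] [243],
  .leib 3 4 81 [27] [729],
  .leib 3 4 81 [81] [1],
  .leib 3 4 81 [81] [3],
  .leib 3 4 81 [81] [81],
  .leib 3 4 81 [81] [243],
  .leib 3 4 81 [81] [729],
  .leib 7 4 75 [9] [81],
  .leib 7 4 75 [9] [243],
  .leib 7 4 75 [9] [729],
  .leib 9 4 69 [243] [81],
  .leib 9 4 69 [243] [243],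
  .leib 9 4 69 [243] [729],
  .bok false 5 84 [1] [1],
  .bok false 5 84 [1] [3],
  .bok false 5 84 [1] [9],
  .bok false 5 84 [1] [27],
  .bok false 5 84 [1] [81],
  .bok false 5 84 [1] [243],
  .bok false 5 84 [3] [1],
  .bok false 5 84 [3] [3],
  .bok false 5 84 [3] [9],
  .bok false 5 84 [3] [27],
  .bok false 5 84 [3] [81],
  .bok false 5 84 [3] [243],
  .bok false 5 84 [27] [1],
  .bok false 5 84 [27] [3],
  .bok false 5 84 [27] [9],
  .bok false 5 84 [27] [27],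
  .bok false 5 84 [27] [81],
  .bok false 5 84 [27] [243],
  .bok false 5 84 [81] [1],
  .bok false 5 84 [81] [3],
  .bok false 5 84 [81] [9],
  .bok false 5 84 [81] [27],
  .bok false 5 84 [81] [81],
  .bok false 5 84 [81] [243],
  .leib 1 6 83 [27] [1],
  .leib 1 6 83 [27] [3],
  .leib 1 6 83 [27] [9],
  .leib 1 6 83 [27] [27],
  .leib 1 6 83 [27] [81],
  .leib 1 6 83 [27] [243],
  .leib 3 5 81 [243] [3],
  .leib 3 5 81 [243] [9],
  .leib 3 5 81 [243] [27],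
  .leib 3 5 81 [243] [81],
  .bok false 6 84 [1] [27],
  .bok false 6 84 [1] [81],
  .bok false 6 84 [1] [243],
  .bok false 6 84 [81] [27],
  .bok false 6 84 [81] [81],
  .bok false 6 84 [81] [243],
  .bok false 6 84 [243] [27],
  .bok false 6 84 [243] [81],
  .bok false 6 84 [243] [243],
  .leib 1 7 83 [27] [729],
  .leib 1 7 83 [27] [2187],
  .leib 3 6 81 [3] [729],
  .leib 3 6 81 [3] [2187],
  .leib 3 6 81 [81] [27],
  .leib 3 6 81 [81] [81],
  .leib 3 6 81 [81] [243],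
  .leib 3 6 81 [243] [27],
  .leib 3 6 81 [243] [81],
  .leib 3 6 81 [243] [243],
  .bok false 7 84 [1] [27],
  .bok false 7 84 [3] [27],
  .leib 1 8 83 [1] [81],
  .leib 1 8 83 [1] [243],
  .leib 1 8 83 [1] [729],
  .leib 1 8 83 [243] [1],
  .leib 1 8 83 [243] [3],
  .leib 1 8 83 [243] [9],
  .leib 1 8 83 [243] [27],
  .leib 1 8 83 [243] [81],
  .leib 1 8 83 [243] [243],
  .leib 1 8 83 [243] [729],
  .leib 3 7 81 [9] [81],
  .leib 3 7 81 [9] [243],
  .leib 3 7 81 [9] [729],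
  .leib 3 7 81 [27] [81],
  .leib 3 7 81 [27] [243],
  .leib 3 7 81 [27] [729],
  .leib 3 7 81 [81] [1],
  .leib 3 7 81 [81] [3],
  .leib 3 7 81 [81] [9],
  .leib 3 7 81 [81] [27],
  .leib 3 7 81 [81] [81],
  .leib 3 7 81 [81] [243],
  .leib 3 7 81 [81] [729],
  .leib 3 7 81 [729] [1],
  .leib 3 7 81 [729] [3],
  .leib 3 7 81 [729] [9],
  .leib 3 7 81 [729] [27],
  .leib 3 7 81 [729] [81],
  .leib 3 7 81 [729] [243],
  .leib 3 7 81 [729] [729],
  .leib 5 7 77 [27] [1],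
  .leib 5 7 77 [27] [3],
  .leib 5 7 77 [27] [9],
  .leib 5 7 77 [27] [27],
  .leib 5 7 77 [27] [81],
  .leib 5 7 77 [27] [243],
  .leib 5 7 77 [27] [729],
  .leib 5 7 77 [81] [81],
  .leib 5 7 77 [81] [243],
  .leib 5 7 77 [81] [729],
  .bok false 8 84 [1] [1],
  .bok false 8 84 [1] [3],
  .bok false 8 84 [1] [9],
  .bok false 8 84 [1] [27],
  .bok false 8 84 [1] [81],
  .bok false 8 84 [1] [243],
  .bok false 8 84 [1] [729],
  .bok false 8 84 [1] [2187],
  .bok false 8 84 [1] [6561],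
  .bok false 8 84 [3] [1],
  .bok false 8 84 [3] [3],
  .bok false 8 84 [3] [9],
  .bok false 8 84 [3] [27],
  .bok false 8 84 [3] [81],
  .bok false 8 84 [3] [243],
  .bok false 8 84 [3] [729],
  .bok false 8 84 [3] [2187],
  .bok false 8 84 [3] [6561],
  .bok false 8 84 [9] [1],
  .bok false 8 84 [9] [3],
  .bok false 8 84 [9] [9],
  .bok false 8 84 [9] [27],
  .bok false 8 84 [9] [81],
  .bok false 8 84 [9] [243],
  .bok false 8 84 [9] [729],
  .bok false 8 84 [9] [2187],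
  .bok false 8 84 [9] [6561],
  .bok false 8 84 [243] [1],
  .bok false 8 84 [243] [3],
  .bok false 8 84 [243] [9],
  .bok false 8 84 [243] [27],
  .bok false 8 84 [243] [81],
  .bok false 8 84 [243] [243],
  .bok false 8 84 [243] [729],
  .bok false 8 84 [243] [2187],
  .bok false 8 84 [243] [6561],
  .leib 1 9 83 [3] [1],
  .leib 1 9 83 [3] [3],
  .leib 1 9 83 [3] [9],
  .leib 1 9 83 [3] [27],
  .leib 1 9 83 [3] [81],
  .leib 1 9 83 [3] [243],
  .leib 1 9 83 [3] [729],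
  .leib 1 9 83 [3] [2187],
  .leib 1 9 83 [3] [6561],
  .leib 1 9 83 [9] [2187],
  .leib 1 9 83 [9] [6561],
  .leib 1 9 83 [27] [1],
  .leib 1 9 83 [27] [3],
  .leib 1 9 83 [27] [9],
  .leib 1 9 83 [27] [27],
  .leib 1 9 83 [27] [81],
  .leib 1 9 83 [27] [243],
  .leib 1 9 83 [27] [729],
  .leib 1 9 83 [27] [2187],
  .leib 1 9 83 [27] [6561],
  .leib 2 8 83 [1] [2187],
  .leib 2 8 83 [1] [6561],
  .leib 3 8 81 [27] [1],
  .leib 3 8 81 [27] [3],
  .leib 3 8 81 [27] [9],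
  .leib 3 8 81 [27] [27],
  .leib 3 8 81 [27] [81],
  .leib 3 8 81 [27] [243],
  .leib 3 8 81 [27] [729],
  .leib 3 8 81 [27] [2187],
  .leib 3 8 81 [27] [6561],
  .leib 3 8 81 [243] [1],
  .leib 3 8 81 [243] [3],
  .leib 3 8 81 [243] [9],
  .leib 3 8 81 [243] [27],
  .leib 3 8 81 [243] [81],
  .leib 3 8 81 [243] [243],
  .leib 3 8 81 [243] [729],
  .leib 3 8 81 [243] [2187],
  .leib 3 8 81 [243] [6561],
  .leib 3 8 81 [729] [1],
  .leib 3 8 81 [729] [3],
  .leib 3 8 81 [729] [9],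
  .leib 3 8 81 [729] [27],
  .leib 3 8 81 [729] [81],
  .leib 3 8 81 [729] [243],
  .leib 3 8 81 [729] [729],
  .leib 3 8 81 [729] [2187],
  .leib 3 8 81 [729] [6561],
  .leib 3 8 81 [2187] [1],
  .leib 3 8 81 [2187] [3],
  .leib 3 8 81 [2187] [81],
  .leib 3 8 81 [2187] [2187],
  .leib 3 8 81 [2187] [6561],
  .bok false 9 84 [1] [9],
  .bok false 9 84 [1] [27],
  .bok false 9 84 [1] [81],
  .bok false 9 84 [3] [9],
  .bok false 9 84 [3] [27],
  .bok false 9 84 [3] [81],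
  .bok false 9 84 [9] [9],
  .bok false 9 84 [9] [27],
  .bok false 9 84 [9] [81],
  .bok false 9 84 [243] [9],
  .bok false 9 84 [243] [27],
  .bok false 9 84 [243] [81],
  .bok false 9 84 [6561] [9],
  .bok false 9 84 [6561] [27],
  .bok false 9 84 [6561] [81],
  .leib 1 10 83 [9] [9],
  .leib 1 10 83 [9] [27],
  .leib 1 10 83 [9] [81],
  .leib 3 9 81 [27] [9],
  .leib 3 9 81 [27] [27],
  .leib 3 9 81 [27] [81],
  .leib 3 9 81 [81] [9],
  .leib 3 9 81 [81] [27],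
  .leib 3 9 81 [81] [81],
  .leib 3 9 81 [243] [9],
  .leib 3 9 81 [243] [27],
  .leib 3 9 81 [243] [81],
  .leib 1 11 83 [27] [1],
  .leib 1 11 83 [27] [3],
  .leib 1 11 83 [27] [9],
  .leib 1 11 83 [27] [27],
  .leib 1 11 83 [27] [81],
  .leib 1 11 83 [81] [9],
  .leib 1 11 83 [81] [27],
  .leib 1 11 83 [81] [81],
  .leib 3 10 81 [81] [27],
  .leib 3 10 81 [81] [81],
  .leib 3 10 81 [243] [27],
  .leib 3 10 81 [243] [81],
  .leib 5 10 77 [243] [27],
  .leib 5 10 77 [243] [81],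
  .leib 5 10 77 [729] [9],
  .leib 5 10 77 [729] [27],
  .leib 5 10 77 [729] [81],
  .bok false 11 84 [3] [3],
  .bok false 11 84 [3] [9],
  .bok false 11 84 [3] [27],
  .bok false 11 84 [3] [81],
  .bok false 11 84 [9] [3],
  .bok false 11 84 [9] [9],
  .bok false 11 84 [9] [27],
  .bok false 11 84 [9] [81],
  .bok false 11 84 [729] [3],
  .bok false 11 84 [729] [9],
  .bok false 11 84 [729] [27],
  .bok false 11 84 [729] [81],
  .bok false 11 84 [729] [243],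
  .bok false 11 84 [729] [729],
  .bok false 11 84 [729] [2187],
  .leib 1 12 83 [9] [3],
  .leib 1 12 83 [9] [9],
  .leib 1 12 83 [9] [27],
  .leib 1 12 83 [9] [81],
  .leib 1 12 83 [9] [243],
  .leib 1 12 83 [9] [729],
  .leib 1 12 83 [9] [2187],
  .leib 3 11 81 [81] [3],
  .leib 3 11 81 [81] [9],
  .leib 3 11 81 [81] [27],
  .leib 3 11 81 [81] [81],
  .leib 3 11 81 [81] [243],
  .leib 3 11 81 [81] [729],
  .leib 3 11 81 [81] [2187],
  .leib 3 11 81 [243] [3],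
  .leib 3 11 81 [243] [9],
  .leib 3 11 81 [243] [27],
  .leib 3 11 81 [243] [81],
  .leib 3 11 81 [243] [243],
  .leib 3 11 81 [243] [729],
  .leib 3 11 81 [243] [2187],
  .leib 3 11 81 [729] [3],
  .leib 3 11 81 [729] [9],
  .leib 3 11 81 [729] [27],
  .leib 3 11 81 [729] [81],
  .leib 3 11 81 [729] [243],
  .leib 3 11 81 [729] [729],
  .leib 3 11 81 [729] [2187],
  .bok false 12 84 [1] [1],
  .bok false 12 84 [1] [3],
  .bok false 12 84 [1] [9],
  .bok false 12 84 [1] [27],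
  .bok false 12 84 [1] [81],
  .bok false 12 84 [1] [243],
  .bok false 12 84 [1] [729],
  .bok false 12 84 [3] [1],
  .bok false 12 84 [3] [3],
  .bok false 12 84 [3] [9],
  .bok false 12 84 [3] [27],
  .bok false 12 84 [3] [81],
  .bok false 12 84 [3] [243],
  .bok false 12 84 [3] [729],
  .bok false 12 84 [9] [3],
  .bok false 12 84 [9] [9],
  .bok false 12 84 [9] [27],
  .bok false 12 84 [9] [81],
  .bok false 12 84 [9] [243],
  .bok false 12 84 [9] [729],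
  .bok false 12 84 [27] [1],
  .bok false 12 84 [27] [3],
  .bok false 12 84 [27] [81],
  .bok false 12 84 [2187] [1],
  .bok false 12 84 [2187] [3],
  .bok false 12 84 [2187] [9],
  .bok false 12 84 [2187] [27],
  .bok false 12 84 [2187] [81],
  .bok false 12 84 [2187] [243],
  .bok false 12 84 [2187] [729],
  .leib 1 13 83 [9] [9],
  .leib 3 12 81 [81] [1],
  .leib 3 12 81 [81] [3],
  .leib 3 12 81 [81] [9],
  .leib 3 12 81 [81] [27],
  .leib 3 12 81 [81] [81],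
  .leib 3 12 81 [81] [243],
  .leib 3 12 81 [81] [729],
  .leib 3 12 81 [81] [2187],
  .leib 3 12 81 [243] [1],
  .leib 3 12 81 [243] [3],
  .leib 3 12 81 [243] [9],
  .leib 3 12 81 [243] [27],
  .leib 3 12 81 [243] [81],
  .leib 3 12 81 [243] [243],
  .leib 3 12 81 [243] [729],
  .leib 1 14 83 [729] [1],
  .leib 1 14 83 [729] [3],
  .leib 1 14 83 [729] [9],
  .leib 1 14 83 [729] [81],
  .leib 1 14 83 [2187] [1],
  .leib 1 14 83 [2187] [3],
  .leib 1 14 83 [2187] [9],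
  .leib 1 14 83 [2187] [81],
  .leib 2 13 83 [9] [1],
  .leib 2 13 83 [9] [3],
  .leib 2 13 83 [9] [9],
  .leib 3 13 81 [243] [1],
  .leib 3 13 81 [243] [3],
  .leib 3 13 81 [243] [9],
  .leib 3 13 81 [243] [81],
  .leib 3 13 81 [729] [1],
  .leib 3 13 81 [729] [9],
  .leib 3 13 81 [729] [81],
  .leib 4 12 81 [81] [1],
  .leib 4 12 81 [81] [3],
  .leib 4 12 81 [81] [9],
  .leib 4 12 81 [243] [1],
  .leib 4 12 81 [243] [3],
  .leib 4 12 81 [243] [9],
  .leib 5 13 77 [243] [81],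
  .leib 14 12 63 [243] [81],
  .leib 1 15 83 [1] [1],
  .leib 1 15 83 [1] [3],
  .leib 1 15 83 [1] [27],
  .leib 1 15 83 [1] [243],
  .leib 1 15 83 [3] [1],
  .leib 1 15 83 [3] [3],
  .leib 1 15 83 [3] [27],
  .leib 1 15 83 [3] [81],
  .leib 1 15 83 [3] [243],
  .leib 1 15 83 [9] [1],
  .leib 1 15 83 [9] [3],
  .leib 1 15 83 [9] [27],
  .leib 1 15 83 [9] [243],
  .leib 2 14 83 [729] [1],
  .leib 2 14 83 [729] [3],
  .leib 3 14 81 [729] [1],
  .leib 3 14 81 [729] [3],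
  .leib 3 14 81 [729] [27],
  .leib 3 14 81 [729] [81],
  .leib 3 14 81 [729] [243],
  .leib 3 14 81 [2187] [1],
  .leib 3 14 81 [2187] [3],
  .leib 3 14 81 [2187] [27],
  .leib 3 14 81 [2187] [243],
  .leib 3 14 81 [6561] [1],
  .leib 3 14 81 [6561] [3],
  .leib 3 14 81 [6561] [27],
  .leib 3 14 81 [6561] [243],
  .leib 4 13 81 [243] [1],
  .leib 4 13 81 [243] [3],
  .leib 4 13 81 [729] [1],
  .leib 4 13 81 [729] [3],
  .leib 4 13 81 [729] [243],
  .leib 5 14 77 [243] [27],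
  .leib 5 14 77 [243] [243],
  .bok false 15 84 [1] [3],
  .bok false 15 84 [1] [9],
  .bok false 15 84 [1] [81],
  .bok false 15 84 [3] [9],
  .bok false 15 84 [9] [9],
  .bok false 15 84 [27] [9],
  .bok false 15 84 [81] [3],
  .bok false 15 84 [81] [81],
  .bok false 15 84 [243] [9],
  .bok false 15 84 [2187] [9],
  .leib 3 15 81 [3] [9],
  .leib 3 15 81 [9] [9],
  .leib 3 15 81 [27] [9],
  .leib 1 17 83 [243] [3],
  .leib 1 17 83 [243] [9],
  .leib 1 17 83 [243] [27],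
  .leib 3 16 81 [27] [3],
  .leib 3 16 81 [27] [9],
  .leib 3 16 81 [27] [27],
  .leib 4 15 81 [3] [3],
  .leib 4 15 81 [3] [9],
  .leib 4 15 81 [3] [27],
  .leib 4 15 81 [9] [3],
  .leib 4 15 81 [9] [9],
  .leib 4 15 81 [9] [27],
  .leib 4 15 81 [27] [3],
  .leib 4 15 81 [27] [9],
  .leib 4 15 81 [27] [27],
  .leib 4 21 81 [1] [1],
  .leib 4 21 81 [1] [3],
  .leib 4 21 81 [1] [81],
  .leib 4 21 81 [1] [243],
  .leib 4 22 81 [27] [1],
  .leib 4 22 81 [27] [9],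
  .leib 4 23 81 [3] [1],
  .leib 1 4 84 [3] [1],
  .leib 1 4 84 [3] [3],
  .leib 1 4 84 [3] [9],
  .leib 1 4 84 [3] [27],
  .leib 1 4 84 [3] [81],
  .leib 1 4 84 [3] [243],
  .leib 1 4 84 [3] [729],
  .leib 1 4 84 [9] [1],
  .leib 1 4 84 [9] [3],
  .leib 1 4 84 [9] [9],
  .leib 1 4 84 [9] [27],
  .leib 1 4 84 [9] [81],
  .leib 1 4 84 [9] [243],
  .leib 1 4 84 [9] [729],
  .bok false 4 85 [1] [1],
  .bok false 4 85 [1] [3],
  .bok false 4 85 [1] [9],
  .bok false 4 85 [1] [27],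
  .bok false 4 85 [1] [81],
  .bok false 4 85 [1] [243],
  .bok false 4 85 [1] [729],
  .bok false 4 85 [9] [1],
  .bok false 4 85 [9] [3],
  .bok false 4 85 [9] [9],
  .bok false 4 85 [9] [27],
  .bok false 4 85 [9] [81],
  .bok false 4 85 [9] [243],
  .bok false 4 85 [9] [729],
  .bok false 4 85 [27] [1],
  .bok false 4 85 [27] [3],
  .bok false 4 85 [27] [9],
  .bok false 4 85 [27] [27],
  .bok false 4 85 [27] [81],
  .bok false 4 85 [27] [243],
  .bok false 4 85 [27] [729],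
  .bok false 4 85 [81] [1],
  .bok false 4 85 [81] [3],
  .bok false 4 85 [81] [9],
  .bok false 4 85 [81] [27],
  .bok false 4 85 [81] [81],
  .bok false 4 85 [81] [243],
  .bok false 4 85 [243] [1],
  .bok false 4 85 [243] [3],
  .bok false 4 85 [243] [9],
  .bok false 4 85 [243] [27],
  .bok false 4 85 [243] [81],
  .bok false 4 85 [243] [243],
  .bok false 4 85 [243] [729],
  .bok false 4 85 [729] [1],
  .bok false 4 85 [729] [3],
  .bok false 4 85 [729] [9],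
  .bok false 4 85 [729] [81],
  .bok false 4 85 [2187] [1],
  .bok false 4 85 [2187] [3],
  .bok false 4 85 [2187] [9],
  .bok false 4 85 [2187] [81],
  .leib 1 5 84 [9] [1],
  .leib 1 5 84 [9] [3],
  .leib 1 5 84 [9] [9],
  .leib 1 5 84 [9] [27],
  .leib 1 5 84 [9] [81],
  .leib 1 5 84 [9] [243],
  .leib 1 5 84 [9] [729],
  .leib 1 5 84 [27] [1]]
 Pf.done)

theorem cchk8 : (ofTab P236Q.tauF).chunk
    (cex0 ++ (cex1 ++ (cex2 ++ (cex3 ++ (cex4 ++ (cex5 ++ (cex6 ++ cex7)))))))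
    cpf8 cex8 = true := by
  decide +kernel

end Vale.Agent.P236E
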