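import Vale.Agent.P236Et.Ex
import Vale.Agent.P236Qt.TauF

/-!
# P236, block ENG: part 9 of the certificate
-/

namespace Vale.Agent.P236E

set_option maxRecDepth 100000

noncomputable def cpf9 : Pf :=
 (steps [.leib 1 5 84 [27] [3],
  .leib 1 5 84 [27] [9],
  .leib 1 5 84 [27] [27],
  .leib 1 5 84 [27] [81],
  .leib 1 5 84 [27] [243],
  .leib 1 5 84 [27] [729],
  .leib 3 4 82 [3] [1],
  .leib 3 4 82 [3] [3],
  .leib 3 4 82 [3] [9],
  .leib 3 4 82 [3] [27],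
  .leib 3 4 82 [3] [81],
  .leib 3 4 82 [3] [243],
  .leib 3 4 82 [3] [729],
  .leib 3 4 82 [9] [729],
  .leib 7 4 76 [81] [1],
  .leib 7 4 76 [81] [3],
  .leib 7 4 76 [81] [9],
  .leib 7 4 76 [81] [27],
  .leib 7 4 76 [81] [81],
  .leib 7 4 76 [81] [243],
  .leib 7 4 76 [81] [729],
  .bok false 5 85 [1] [1],
  .bok false 5 85 [1] [3],
  .bok false 5 85 [1] [9],
  .bok false 5 85 [1] [27],
  .bok false 5 85 [1] [81],
  .bok false 5 85 [1] [243],
  .bok false 5 85 [9] [1],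
  .bok false 5 85 [9] [3],
  .bok false 5 85 [9] [9],
  .bok false 5 85 [9] [27],
  .bok false 5 85 [9] [81],
  .bok false 5 85 [9] [243],
  .bok false 5 85 [243] [1],
  .bok false 5 85 [243] [3],
  .bok false 5 85 [243] [9],
  .bok false 5 85 [243] [27],
  .bok false 5 85 [243] [81],
  .bok false 5 85 [243] [243],
  .leib 1 6 84 [81] [243],
  .leib 1 6 84 [243] [1],
  .leib 1 6 84 [243] [3],
  .leib 1 6 84 [243] [9],
  .leib 1 6 84 [243] [27],
  .leib 1 6 84 [243] [81],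
  .leib 1 6 84 [243] [243],
  .leib 3 5 82 [1] [243],
  .leib 3 5 82 [3] [1],
  .leib 3 5 82 [3] [3],
  .leib 3 5 82 [3] [9],
  .leib 3 5 82 [3] [27],
  .leib 3 5 82 [3] [81],
  .leib 3 5 82 [3] [243],
  .leib 3 5 82 [9] [1],
  .leib 3 5 82 [9] [3],
  .leib 3 5 82 [9] [9],
  .leib 3 5 82 [9] [27],
  .leib 3 5 82 [9] [81],
  .leib 3 5 82 [9] [243],
  .leib 3 5 82 [27] [1],
  .leib 3 5 82 [27] [3],
  .leib 3 5 82 [27] [9],
  .leib 3 5 82 [27] [81],
  .leib 3 5 82 [27] [243],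
  .leib 7 5 76 [9] [243],
  .leib 7 5 76 [27] [1],
  .leib 7 5 76 [27] [3],
  .leib 7 5 76 [27] [9],
  .leib 7 5 76 [27] [27],
  .leib 7 5 76 [27] [81],
  .leib 7 5 76 [27] [243],
  .leib 7 5 76 [81] [1],
  .leib 7 5 76 [81] [243],
  .leib 9 5 70 [3] [243],
  .bok false 6 85 [3] [1],
  .bok false 6 85 [3] [3],
  .bok false 6 85 [3] [9],
  .bok false 6 85 [3] [27],
  .bok false 6 85 [3] [81],
  .bok false 6 85 [3] [243],
  .bok false 6 85 [3] [729],
  .bok false 6 85 [9] [1],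
  .bok false 6 85 [9] [3],
  .bok false 6 85 [9] [9],
  .bok false 6 85 [9] [27],
  .bok false 6 85 [9] [81],
  .bok false 6 85 [9] [243],
  .bok false 6 85 [9] [729],
  .bok false 6 85 [81] [1],
  .bok false 6 85 [81] [3],
  .bok false 6 85 [81] [9],
  .bok false 6 85 [81] [27],
  .bok false 6 85 [81] [81],
  .bok false 6 85 [81] [243],
  .bok false 6 85 [81] [729],
  .bok false 6 85 [243] [1],
  .bok false 6 85 [243] [3],
  .bok false 6 85 [243] [9],
  .bok false 6 85 [243] [27],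
  .bok false 6 85 [243] [81],
  .bok false 6 85 [243] [243],
  .bok false 6 85 [243] [729],
  .bok false 6 85 [729] [1],
  .bok false 6 85 [729] [3],
  .bok false 6 85 [729] [9],
  .bok false 6 85 [729] [27],
  .bok false 6 85 [729] [81],
  .bok false 6 85 [729] [243],
  .bok false 6 85 [729] [729],
  .leib 1 7 84 [27] [1],
  .leib 1 7 84 [27] [3],
  .leib 1 7 84 [27] [9],
  .leib 1 7 84 [27] [27],
  .leib 1 7 84 [27] [81],
  .leib 1 7 84 [27] [243],
  .leib 1 7 84 [27] [729],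
  .leib 1 7 84 [81] [1],
  .leib 1 7 84 [81] [3],
  .leib 1 7 84 [81] [9],
  .leib 1 7 84 [81] [27],
  .leib 1 7 84 [81] [81],
  .leib 1 7 84 [81] [243],
  .leib 1 7 84 [81] [729],
  .leib 3 6 82 [3] [81],
  .leib 3 6 82 [3] [243],
  .leib 3 6 82 [9] [1],
  .leib 3 6 82 [9] [3],
  .leib 3 6 82 [9] [9],
  .leib 3 6 82 [9] [27],
  .leib 3 6 82 [9] [81],
  .leib 3 6 82 [9] [243],
  .leib 3 6 82 [9] [729],
  .leib 3 6 82 [27] [1],
  .leib 3 6 82 [27] [3],
  .leib 3 6 82 [27] [9],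
  .leib 3 6 82 [27] [27],
  .leib 3 6 82 [27] [81],
  .leib 3 6 82 [27] [243],
  .leib 3 6 82 [27] [729],
  .leib 5 6 78 [27] [81],
  .leib 5 6 78 [27] [243],
  .leib 5 6 78 [81] [81],
  .leib 5 6 78 [81] [243],
  .leib 7 6 76 [9] [1],
  .leib 7 6 76 [9] [3],
  .leib 7 6 76 [9] [9],
  .leib 7 6 76 [9] [27],
  .leib 7 6 76 [9] [81],
  .leib 7 6 76 [9] [243],
  .leib 7 6 76 [9] [729],
  .bok false 7 85 [1] [1],
  .bok false 7 85 [1] [3],
  .bok false 7 85 [1] [9],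
  .bok false 7 85 [1] [27],
  .bok false 7 85 [1] [81],
  .bok false 7 85 [1] [243],
  .bok false 7 85 [3] [1],
  .bok false 7 85 [3] [3],
  .bok false 7 85 [3] [9],
  .bok false 7 85 [3] [27],
  .bok false 7 85 [3] [81],
  .bok false 7 85 [3] [243],
  .bok false 7 85 [9] [1],
  .bok false 7 85 [9] [3],
  .bok false 7 85 [9] [9],
  .bok false 7 85 [9] [27],
  .bok false 7 85 [9] [81],
  .bok false 7 85 [9] [243],
  .bok false 7 85 [27] [1],
  .bok false 7 85 [27] [3],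
  .bok false 7 85 [27] [9],
  .bok false 7 85 [27] [27],
  .bok false 7 85 [27] [81],
  .bok false 7 85 [81] [1],
  .bok false 7 85 [81] [3],
  .bok false 7 85 [81] [9],
  .bok false 7 85 [81] [27],
  .bok false 7 85 [81] [81],
  .bok false 7 85 [81] [243],
  .bok false 7 85 [59049] [1],
  .bok false 7 85 [59049] [3],
  .bok false 7 85 [59049] [9],
  .bok false 7 85 [59049] [27],
  .bok false 7 85 [59049] [81],
  .bok false 7 85 [59049] [243],
  .leib 1 8 84 [27] [1],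
  .leib 1 8 84 [27] [3],
  .leib 1 8 84 [27] [9],
  .leib 1 8 84 [27] [27],
  .leib 1 8 84 [27] [81],
  .leib 1 8 84 [27] [243],
  .leib 1 8 84 [81] [1],
  .leib 1 8 84 [81] [3],
  .leib 1 8 84 [81] [9],
  .leib 1 8 84 [81] [27],
  .leib 1 8 84 [81] [81],
  .leib 1 8 84 [81] [243],
  .leib 3 7 82 [9] [1],
  .leib 3 7 82 [9] [3],
  .leib 3 7 82 [9] [9],
  .leib 3 7 82 [9] [27],
  .leib 3 7 82 [9] [81],
  .leib 3 7 82 [9] [243],
  .bok false 8 85 [1] [1],
  .bok false 8 85 [1] [3],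
  .bok false 8 85 [1] [9],
  .bok false 8 85 [1] [27],
  .bok false 8 85 [3] [3],
  .bok false 8 85 [3] [9],
  .bok false 8 85 [3] [27],
  .bok false 8 85 [9] [3],
  .bok false 8 85 [9] [9],
  .bok false 8 85 [81] [3],
  .bok false 8 85 [81] [9],
  .leib 1 9 84 [81] [1],
  .leib 1 9 84 [81] [3],
  .leib 1 9 84 [81] [9],
  .leib 1 9 84 [81] [27],
  .leib 1 9 84 [243] [3],
  .leib 1 9 84 [243] [9],
  .leib 1 9 84 [243] [27],
  .bok false 9 85 [3] [1],
  .bok false 9 85 [3] [3],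
  .bok false 9 85 [3] [9],
  .bok false 9 85 [3] [27],
  .bok false 9 85 [3] [81],
  .bok false 9 85 [3] [243],
  .bok false 9 85 [9] [1],
  .bok false 9 85 [9] [3],
  .bok false 9 85 [9] [9],
  .bok false 9 85 [9] [27],
  .bok false 9 85 [9] [81],
  .bok false 9 85 [9] [243],
  .bok false 9 85 [27] [1],
  .bok false 9 85 [27] [3],
  .bok false 9 85 [27] [27],
  .bok false 9 85 [27] [81],
  .bok false 9 85 [27] [243],
  .leib 1 10 84 [243] [1],
  .leib 1 10 84 [243] [3],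
  .leib 1 10 84 [243] [27],
  .leib 1 10 84 [243] [81],
  .leib 1 10 84 [243] [243],
  .leib 1 10 84 [729] [1],
  .leib 1 10 84 [729] [3],
  .leib 1 10 84 [729] [27],
  .leib 1 10 84 [729] [81],
  .leib 1 10 84 [729] [243],
  .leib 3 9 82 [729] [1],
  .leib 3 9 82 [729] [3],
  .leib 3 9 82 [729] [27],
  .leib 3 9 82 [729] [81],
  .leib 3 9 82 [729] [243],
  .bok false 10 85 [3] [1],
  .bok false 10 85 [3] [3],
  .bok false 10 85 [3] [9],
  .bok false 10 85 [3] [27],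
  .bok false 10 85 [3] [81],
  .bok false 10 85 [3] [243],
  .bok false 10 85 [9] [1],
  .bok false 10 85 [9] [3],
  .bok false 10 85 [9] [9],
  .bok false 10 85 [9] [27],
  .bok false 10 85 [9] [81],
  .bok false 10 85 [9] [243],
  .bok false 10 85 [81] [1],
  .bok false 10 85 [81] [3],
  .bok false 10 85 [81] [9],
  .bok false 10 85 [81] [27],
  .bok false 10 85 [81] [81],
  .bok false 10 85 [81] [243],
  .leib 1 11 84 [27] [1],
  .leib 1 11 84 [27] [3],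
  .leib 1 11 84 [27] [9],
  .leib 1 11 84 [27] [27],
  .leib 1 11 84 [27] [81],
  .leib 1 11 84 [27] [243],
  .leib 1 11 84 [81] [1],
  .leib 1 11 84 [81] [3],
  .leib 1 11 84 [81] [9],
  .leib 1 11 84 [81] [27],
  .leib 1 11 84 [81] [81],
  .leib 1 11 84 [81] [243],
  .leib 1 11 84 [243] [1],
  .leib 1 11 84 [243] [3],
  .leib 1 11 84 [243] [9],
  .leib 1 11 84 [243] [27],
  .leib 1 11 84 [243] [81],
  .leib 1 11 84 [243] [243],
  .leib 3 10 82 [27] [1],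
  .leib 3 10 82 [27] [3],
  .leib 3 10 82 [27] [9],
  .leib 3 10 82 [27] [27],
  .leib 3 10 82 [27] [81],
  .leib 3 10 82 [27] [243],
  .leib 3 10 82 [81] [1],
  .leib 3 10 82 [81] [3],
  .leib 3 10 82 [81] [9],
  .leib 3 10 82 [81] [27],
  .leib 3 10 82 [81] [81],
  .leib 3 10 82 [81] [243],
  .bok false 11 85 [3] [1],
  .bok false 11 85 [3] [3],
  .bok false 11 85 [9] [1],
  .bok false 11 85 [9] [3],
  .bok false 11 85 [27] [1],
  .bok false 11 85 [27] [3],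
  .bok false 11 85 [243] [1],
  .bok false 11 85 [243] [3],
  .bok false 11 85 [6561] [1],
  .bok false 11 85 [6561] [3],
  .leib 1 12 84 [81] [1],
  .leib 1 12 84 [81] [3],
  .leib 1 12 84 [243] [1],
  .leib 1 12 84 [243] [3],
  .bok false 12 85 [1] [1],
  .bok false 12 85 [3] [1],
  .bok false 12 85 [81] [1],
  .leib 1 13 84 [27] [1],
  .leib 1 13 84 [81] [1],
  .leib 1 13 84 [243] [1],
  .leib 3 12 82 [729] [1],
  .bok false 13 85 [1] [243],
  .bok false 13 85 [1] [729],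
  .bok false 13 85 [1] [2187],
  .bok false 13 85 [3] [243],
  .bok false 13 85 [3] [729],
  .bok false 13 85 [3] [2187],
  .bok false 13 85 [9] [243],
  .bok false 13 85 [9] [729],
  .bok false 13 85 [9] [2187],
  .bok false 13 85 [27] [243],
  .bok false 13 85 [27] [729],
  .bok false 13 85 [27] [2187],
  .leib 1 14 84 [27] [243],
  .leib 1 14 84 [27] [729],
  .leib 1 14 84 [27] [2187],
  .leib 1 14 84 [81] [243],
  .leib 1 14 84 [81] [729],
  .leib 1 14 84 [81] [2187],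
  .leib 3 13 82 [9] [243],
  .leib 3 13 82 [9] [729],
  .leib 3 13 82 [9] [2187],
  .leib 3 13 82 [27] [243],
  .leib 3 13 82 [27] [729],
  .leib 3 13 82 [27] [2187],
  .leib 7 13 76 [9] [729],
  .leib 7 13 76 [9] [2187],
  .leib 1 15 84 [81] [27],
  .leib 1 15 84 [81] [81],
  .leib 1 15 84 [243] [27],
  .leib 1 15 84 [243] [81],
  .leib 2 14 84 [27] [27],
  .leib 2 14 84 [27] [81],
  .leib 2 14 84 [81] [27],
  .leib 2 14 84 [81] [81],
  .leib 4 13 82 [9] [27],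
  .leib 4 13 82 [9] [81],
  .leib 4 13 82 [27] [27],
  .leib 4 13 82 [27] [81],
  .leib 4 13 82 [81] [27],
  .leib 4 13 82 [81] [81],
  .leib 1 17 84 [3] [1],
  .leib 1 17 84 [3] [3],
  .leib 1 17 84 [3] [9],
  .leib 1 17 84 [3] [27],
  .leib 1 17 84 [9] [1],
  .leib 1 17 84 [9] [3],
  .leib 1 17 84 [9] [9],
  .leib 1 17 84 [9] [27],
  .leib 1 17 84 [27] [1],
  .leib 1 17 84 [27] [9],
  .leib 2 16 84 [243] [1],
  .leib 2 16 84 [2187] [1],
  .leib 3 16 82 [243] [1],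
  .leib 3 16 82 [243] [3],
  .leib 3 16 82 [243] [9],
  .leib 3 16 82 [243] [27],
  .leib 3 16 82 [729] [9],
  .leib 5 16 78 [9] [9],
  .leib 1 18 84 [27] [1],
  .leib 1 18 84 [27] [3],
  .leib 1 18 84 [27] [9],
  .leib 2 17 84 [3] [1],
  .leib 2 17 84 [3] [3],
  .leib 2 17 84 [3] [9],
  .leib 2 17 84 [9] [1],
  .leib 2 17 84 [9] [3],
  .leib 2 17 84 [9] [9],
  .leib 2 17 84 [27] [1],
  .leib 2 17 84 [27] [3],
  .leib 2 17 84 [27] [9],
  .leib 3 17 82 [3] [1],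
  .leib 3 17 82 [3] [3],
  .leib 3 17 82 [3] [9],
  .leib 3 17 82 [9] [1],
  .leib 3 17 82 [9] [3],
  .leib 3 17 82 [9] [9],
  .leib 4 16 82 [243] [1],
  .leib 4 16 82 [243] [3],
  .leib 4 16 82 [243] [9],
  .leib 4 16 82 [729] [1],
  .leib 4 16 82 [729] [3],
  .leib 4 16 82 [729] [9],
  .leib 1 19 84 [2187] [1],
  .leib 1 19 84 [2187] [3],
  .leib 1 19 84 [2187] [9],
  .leib 1 19 84 [2187] [27],
  .leib 1 19 84 [6561] [1],
  .leib 1 19 84 [6561] [3],
  .leib 1 19 84 [6561] [9],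
  .leib 1 19 84 [6561] [27],
  .leib 2 18 84 [27] [1],
  .leib 2 18 84 [27] [3],
  .leib 2 18 84 [27] [9],
  .leib 2 18 84 [27] [27],
  .leib 4 17 82 [3] [1],
  .leib 4 17 82 [3] [3],
  .leib 4 17 82 [3] [9],
  .leib 4 17 82 [3] [27],
  .leib 4 17 82 [9] [1],
  .leib 4 17 82 [9] [3],
  .leib 4 17 82 [9] [9],
  .leib 4 17 82 [9] [27],
  .leib 4 20 82 [3] [9],
  .leib 4 20 82 [9] [9],
  .leib 4 20 82 [27] [9],
  .leib 1 4 85 [81] [3],
  .leib 1 4 85 [81] [9],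
  .leib 1 4 85 [81] [27],
  .leib 1 4 85 [81] [81],
  .leib 1 4 85 [81] [243],
  .leib 1 4 85 [243] [27],
  .leib 1 4 85 [243] [81],
  .leib 1 4 85 [243] [243],
  .bok false 4 86 [1] [9],
  .bok false 4 86 [1] [27],
  .bok false 4 86 [3] [27],
  .bok false 4 86 [3] [81],
  .leib 1 5 85 [3] [81],
  .leib 1 5 85 [243] [81],
  .leib 1 5 85 [729] [27],
  .leib 1 5 85 [729] [81],
  .leib 3 4 83 [3] [81],
  .leib 3 4 83 [9] [81],
  .leib 4 3 83 [1] [81],
  .leib 7 4 77 [9] [81],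
  .leib 1 6 85 [6561] [1],
  .leib 1 6 85 [6561] [3],
  .leib 1 6 85 [6561] [9],
  .leib 1 6 85 [6561] [27],
  .leib 1 6 85 [6561] [81],
  .leib 1 6 85 [6561] [243],
  .leib 1 6 85 [6561] [729],
  .leib 1 6 85 [6561] [2187],
  .leib 2 5 85 [243] [1],
  .leib 2 5 85 [243] [3],
  .leib 2 5 85 [243] [9],
  .leib 2 5 85 [243] [27],
  .leib 2 5 85 [243] [81],
  .leib 2 5 85 [243] [243],
  .leib 2 5 85 [243] [729],
  .leib 2 5 85 [243] [2187],
  .leib 2 5 85 [729] [1],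
  .leib 2 5 85 [729] [3],
  .leib 2 5 85 [729] [9],
  .leib 2 5 85 [729] [27],
  .leib 2 5 85 [729] [81],
  .leib 2 5 85 [729] [243],
  .leib 2 5 85 [729] [729],
  .leib 2 5 85 [729] [2187],
  .leib 3 5 83 [9] [1],
  .leib 3 5 83 [9] [3],
  .leib 3 5 83 [9] [9],
  .leib 3 5 83 [9] [27],
  .leib 3 5 83 [9] [81],
  .leib 3 5 83 [9] [243],
  .leib 3 5 83 [9] [729],
  .leib 3 5 83 [9] [2187],
  .leib 3 5 83 [27] [1],
  .leib 3 5 83 [27] [3],
  .leib 3 5 83 [27] [9],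
  .leib 3 5 83 [27] [27],
  .leib 3 5 83 [27] [81],
  .leib 3 5 83 [27] [243],
  .leib 3 5 83 [27] [729],
  .leib 3 5 83 [27] [2187],
  .bok false 6 86 [1] [1],
  .bok false 6 86 [1] [3],
  .bok false 6 86 [1] [9],
  .bok false 6 86 [1] [27],
  .bok false 6 86 [1] [81],
  .bok false 6 86 [1] [243],
  .bok false 6 86 [1] [729],
  .bok false 6 86 [1] [2187],
  .bok false 6 86 [1] [6561],
  .bok false 6 86 [3] [1],
  .bok false 6 86 [3] [3],
  .bok false 6 86 [3] [9],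
  .bok false 6 86 [3] [27],
  .bok false 6 86 [3] [81],
  .bok false 6 86 [3] [243],
  .bok false 6 86 [3] [729],
  .bok false 6 86 [3] [2187],
  .bok false 6 86 [3] [6561],
  .bok false 6 86 [9] [1],
  .bok false 6 86 [9] [3],
  .bok false 6 86 [9] [9],
  .bok false 6 86 [9] [27],
  .bok false 6 86 [9] [81],
  .bok false 6 86 [9] [243],
  .bok false 6 86 [9] [729],
  .bok false 6 86 [9] [2187],
  .bok false 6 86 [9] [6561],
  .leib 1 7 85 [1] [6561],
  .leib 1 7 85 [729] [1],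
  .leib 1 7 85 [729] [3],
  .leib 1 7 85 [729] [9],
  .leib 1 7 85 [729] [27],
  .leib 1 7 85 [729] [81],
  .leib 1 7 85 [729] [243],
  .leib 1 7 85 [729] [729],
  .leib 1 7 85 [729] [2187],
  .leib 1 7 85 [729] [6561],
  .leib 1 7 85 [6561] [3],
  .leib 1 7 85 [6561] [9],
  .leib 1 7 85 [6561] [27],
  .leib 1 7 85 [6561] [81],
  .leib 1 7 85 [6561] [243],
  .leib 1 7 85 [6561] [729],
  .leib 1 7 85 [6561] [2187],
  .leib 1 7 85 [6561] [6561],
  .leib 3 6 83 [27] [1],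
  .leib 3 6 83 [27] [3],
  .leib 3 6 83 [27] [9],
  .leib 3 6 83 [27] [27],
  .leib 3 6 83 [27] [81],
  .leib 3 6 83 [27] [243],
  .leib 3 6 83 [27] [729],
  .leib 3 6 83 [27] [2187],
  .leib 3 6 83 [27] [6561],
  .bok false 7 86 [1] [3],
  .bok false 7 86 [1] [27],
  .bok false 7 86 [1] [81],
  .bok false 7 86 [1] [243],
  .bok false 7 86 [1] [729],
  .bok false 7 86 [27] [3],
  .bok false 7 86 [27] [27],
  .bok false 7 86 [27] [81],
  .bok false 7 86 [27] [243],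
  .bok false 7 86 [27] [729],
  .bok false 7 86 [243] [729],
  .leib 1 8 85 [27] [729],
  .leib 1 8 85 [81] [729],
  .leib 1 8 85 [243] [729],
  .leib 1 8 85 [729] [729],
  .leib 1 8 85 [2187] [729],
  .leib 3 7 83 [27] [729],
  .leib 5 7 79 [243] [729],
  .leib 1 9 85 [9] [1],
  .leib 1 9 85 [9] [3],
  .leib 1 9 85 [9] [9],
  .leib 1 9 85 [9] [27],
  .leib 1 9 85 [9] [81],
  .leib 1 9 85 [9] [243],
  .leib 1 9 85 [9] [729],
  .leib 1 9 85 [27] [1],
  .leib 1 9 85 [27] [3],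
  .leib 1 9 85 [27] [9],
  .leib 1 9 85 [27] [27],
  .leib 1 9 85 [27] [81],
  .leib 1 9 85 [27] [243],
  .leib 1 9 85 [27] [729],
  .leib 1 9 85 [81] [1],
  .leib 1 9 85 [81] [3],
  .leib 1 9 85 [81] [9],
  .leib 1 9 85 [81] [27],
  .leib 1 9 85 [81] [81],
  .leib 1 9 85 [81] [243],
  .leib 1 9 85 [81] [729],
  .leib 2 8 85 [81] [1],
  .leib 2 8 85 [81] [3],
  .leib 2 8 85 [81] [9],
  .leib 2 8 85 [81] [27],
  .leib 2 8 85 [81] [81],
  .leib 2 8 85 [81] [243],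
  .leib 2 8 85 [243] [1],
  .leib 2 8 85 [243] [3],
  .leib 2 8 85 [243] [9],
  .leib 2 8 85 [243] [27],
  .leib 2 8 85 [243] [81],
  .leib 2 8 85 [243] [243],
  .leib 2 8 85 [729] [1],
  .leib 2 8 85 [729] [3],
  .leib 2 8 85 [729] [9],
  .leib 2 8 85 [729] [27],
  .leib 2 8 85 [729] [81],
  .leib 2 8 85 [729] [243],
  .leib 3 8 83 [1] [729],
  .leib 3 8 83 [27] [729],
  .leib 3 8 83 [243] [1],
  .leib 3 8 83 [243] [3],
  .leib 3 8 83 [243] [9],
  .leib 3 8 83 [243] [27],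
  .leib 3 8 83 [243] [81],
  .leib 3 8 83 [243] [243],
  .leib 3 8 83 [243] [729],
  .leib 5 8 79 [1] [729],
  .leib 5 8 79 [9] [729],
  .bok false 9 86 [1] [1],
  .bok false 9 86 [1] [3],
  .bok false 9 86 [1] [9],
  .bok false 9 86 [1] [27],
  .bok false 9 86 [1] [81],
  .bok false 9 86 [1] [243],
  .bok false 9 86 [3] [1],
  .bok false 9 86 [3] [3],
  .bok false 9 86 [3] [9],
  .bok false 9 86 [3] [27],
  .bok false 9 86 [3] [81],
  .bok false 9 86 [9] [1],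
  .bok false 9 86 [9] [3],
  .bok false 9 86 [9] [9],
  .bok false 9 86 [9] [27],
  .bok false 9 86 [9] [81],
  .bok false 9 86 [27] [3],
  .bok false 9 86 [27] [9],
  .bok false 9 86 [27] [27],
  .bok false 9 86 [27] [81],
  .bok false 9 86 [243] [1],
  .bok false 9 86 [243] [243],
  .bok false 9 86 [729] [1],
  .leib 1 10 85 [27] [1],
  .leib 1 10 85 [27] [3],
  .leib 1 10 85 [27] [9],
  .leib 1 10 85 [27] [27],
  .leib 1 10 85 [27] [81],
  .leib 1 10 85 [27] [243],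
  .leib 3 9 83 [3] [1],
  .leib 3 9 83 [3] [3],
  .leib 3 9 83 [3] [9],
  .leib 3 9 83 [3] [27],
  .leib 3 9 83 [3] [81],
  .leib 3 9 83 [3] [243],
  .leib 3 9 83 [9] [243],
  .leib 3 9 83 [27] [1],
  .leib 3 9 83 [27] [3],
  .leib 3 9 83 [27] [81],
  .leib 3 9 83 [27] [243],
  .leib 4 8 83 [1] [243],
  .leib 9 9 71 [81] [243],
  .bok false 10 86 [1] [1],
  .bok false 10 86 [1] [3],
  .bok false 10 86 [1] [9],
  .bok false 10 86 [1] [27],
  .bok false 10 86 [1] [81],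
  .bok false 10 86 [9] [1],
  .bok false 10 86 [9] [3],
  .bok false 10 86 [9] [27],
  .bok false 10 86 [81] [1],
  .bok false 10 86 [81] [3],
  .bok false 10 86 [81] [9],
  .bok false 10 86 [81] [27],
  .bok false 10 86 [81] [81],
  .leib 1 11 85 [243] [1],
  .leib 1 11 85 [243] [3],
  .leib 1 11 85 [243] [9],
  .leib 1 11 85 [243] [27],
  .leib 1 11 85 [243] [81],
  .leib 3 10 83 [9] [1],
  .leib 3 10 83 [9] [3],
  .leib 3 10 83 [9] [9],
  .leib 3 10 83 [9] [27],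
  .leib 3 10 83 [9] [81],
  .leib 5 10 79 [243] [1],
  .leib 5 10 79 [243] [3],
  .leib 5 10 79 [243] [9],
  .leib 5 10 79 [243] [27],
  .leib 5 10 79 [243] [81],
  .bok false 11 86 [3] [3],
  .bok false 11 86 [9] [1],
  .bok false 11 86 [9] [3],
  .bok false 11 86 [9] [9],
  .bok false 11 86 [9] [27],
  .bok false 11 86 [9] [81],
  .bok false 11 86 [9] [243],
  .bok false 11 86 [9] [729],
  .bok false 11 86 [9] [2187],
  .bok false 11 86 [243] [1],
  .bok false 11 86 [243] [3],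
  .bok false 11 86 [243] [9],
  .bok false 11 86 [243] [27],
  .bok false 11 86 [243] [81],
  .bok false 11 86 [243] [243],
  .bok false 11 86 [243] [729],
  .bok false 11 86 [243] [2187],
  .leib 1 12 85 [27] [1],
  .leib 1 12 85 [27] [3],
  .leib 1 12 85 [27] [9],
  .leib 1 12 85 [27] [27],
  .leib 1 12 85 [27] [81],
  .leib 1 12 85 [27] [243],
  .leib 1 12 85 [27] [729],
  .leib 1 12 85 [27] [2187],
  .leib 1 12 85 [81] [1],
  .leib 1 12 85 [81] [3],
  .leib 1 12 85 [81] [9],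
  .leib 1 12 85 [81] [27],
  .leib 1 12 85 [81] [81],
  .leib 1 12 85 [81] [243],
  .leib 1 12 85 [81] [729],
  .leib 1 12 85 [81] [2187],
  .leib 1 12 85 [243] [1],
  .leib 1 12 85 [243] [3],
  .leib 1 12 85 [243] [9],
  .leib 1 12 85 [243] [27],
  .leib 1 12 85 [243] [81],
  .leib 1 12 85 [243] [243],
  .leib 1 12 85 [243] [729],
  .leib 1 12 85 [243] [2187],
  .leib 3 11 83 [27] [729],
  .leib 3 11 83 [27] [2187],
  .leib 3 11 83 [81] [3],
  .leib 5 11 79 [27] [729],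
  .leib 5 11 79 [27] [2187],
  .bok false 12 86 [1] [1],
  .bok false 12 86 [1] [3],
  .bok false 12 86 [1] [9],
  .bok false 12 86 [1] [27],
  .bok false 12 86 [1] [81],
  .bok false 12 86 [1] [243],
  .bok false 12 86 [1] [729],
  .bok false 12 86 [1] [2187],
  .bok false 12 86 [243] [1],
  .bok false 12 86 [243] [3],
  .bok false 12 86 [243] [9],
  .bok false 12 86 [243] [27],
  .bok false 12 86 [243] [81],
  .bok false 12 86 [243] [243],
  .bok false 12 86 [243] [729],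
  .bok false 12 86 [243] [2187],
  .bok false 12 86 [729] [1],
  .bok false 12 86 [729] [3],
  .bok false 12 86 [729] [9],
  .bok false 12 86 [729] [27],
  .bok false 12 86 [729] [81],
  .bok false 12 86 [729] [243],
  .bok false 12 86 [729] [729],
  .bok false 12 86 [729] [2187],
  .leib 1 13 85 [27] [1],
  .leib 1 13 85 [27] [3],
  .leib 1 13 85 [27] [9],
  .leib 1 13 85 [27] [27],
  .leib 1 13 85 [27] [81],
  .leib 1 13 85 [27] [243],
  .leib 1 13 85 [27] [729],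
  .leib 1 13 85 [27] [2187],
  .leib 3 12 83 [9] [1],
  .leib 3 12 83 [9] [3],
  .leib 3 12 83 [9] [9],
  .leib 3 12 83 [9] [27],
  .leib 3 12 83 [9] [81],
  .leib 3 12 83 [9] [243],
  .leib 3 12 83 [9] [729],
  .leib 3 12 83 [9] [2187],
  .bok false 13 86 [1] [3],
  .bok false 13 86 [1] [9],
  .bok false 13 86 [1] [27],
  .bok false 13 86 [3] [3],
  .bok false 13 86 [3] [9],
  .bok false 13 86 [3] [27],
  .leib 1 14 85 [729] [1],
  .leib 1 14 85 [729] [3],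
  .leib 1 14 85 [729] [81],
  .leib 3 13 83 [9] [1],
  .leib 3 13 83 [9] [3],
  .leib 3 13 83 [9] [9],
  .leib 3 13 83 [9] [27],
  .bok false 14 86 [1] [27],
  .bok false 14 86 [27] [1],
  .bok false 14 86 [27] [3],
  .bok false 14 86 [27] [9],
  .leib 1 15 85 [9] [1],
  .leib 1 15 85 [9] [3],
  .leib 1 15 85 [9] [9],
  .leib 1 15 85 [27] [1],
  .leib 1 15 85 [27] [3],
  .leib 1 15 85 [27] [9],
  .leib 1 15 85 [81] [1],
  .leib 1 15 85 [81] [3],
  .leib 1 15 85 [81] [9],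
  .leib 3 14 83 [729] [1],
  .leib 3 14 83 [729] [3],
  .leib 3 14 83 [729] [9],
  .bok false 15 86 [1] [6561],
  .bok false 15 86 [3] [6561],
  .bok false 15 86 [27] [6561],
  .bok false 15 86 [243] [6561],
  .leib 3 15 83 [1] [6561],
  .leib 3 19 83 [1] [1],
  .leib 3 19 83 [1] [3],
  .leib 3 19 83 [1] [9],
  .leib 3 19 83 [1] [27],
  .leib 3 19 83 [1] [81],
  .leib 3 19 83 [1] [243],
  .leib 3 19 83 [1] [729],
  .leib 3 19 83 [1] [2187],
  .bok false 20 86 [1] [1],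
  .bok false 20 86 [1] [3],
  .bok false 20 86 [1] [9],
  .bok false 20 86 [1] [27],
  .leib 1 22 85 [3] [1],
  .leib 1 22 85 [3] [9],
  .leib 1 22 85 [9] [1],
  .leib 1 22 85 [9] [9],
  .leib 1 22 85 [27] [1],
  .leib 1 22 85 [27] [9],
  .leib 3 21 83 [729] [1],
  .leib 3 23 83 [1] [1],
  .leib 3 23 83 [1] [3],
  .leib 3 23 83 [1] [9],
  .leib 3 23 83 [1] [27],
  .leib 3 23 83 [1] [81],
  .bok false 24 86 [1] [9],
  .leib 1 25 85 [27] [9],
  .leib 1 3 86 [1] [243],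
  .leib 5 2 80 [1] [243],
  .leib 1 4 86 [1] [243],
  .leib 1 4 86 [1] [729],
  .leib 1 4 86 [1] [2187],
  .leib 1 4 86 [3] [243],
  .leib 1 4 86 [3] [729],
  .leib 1 4 86 [3] [2187],
  .leib 1 4 86 [9] [243],
  .leib 1 4 86 [9] [729],
  .leib 1 4 86 [9] [2187],
  .leib 2 3 86 [1] [243],
  .leib 2 3 86 [1] [729],
  .leib 2 3 86 [1] [2187],
  .leib 5 3 80 [1] [243],
  .leib 5 3 80 [1] [729],
  .leib 5 3 80 [1] [2187],
  .leib 5 3 80 [3] [243],
  .leib 5 3 80 [3] [729],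
  .leib 5 3 80 [3] [2187],
  .leib 1 5 86 [9] [9],
  .leib 1 5 86 [9] [27],
  .leib 1 5 86 [9] [81],
  .leib 1 5 86 [9] [243],
  .leib 1 5 86 [9] [729],
  .leib 1 5 86 [9] [6561],
  .leib 2 4 86 [1] [9],
  .leib 2 4 86 [1] [27],
  .leib 2 4 86 [1] [81],
  .leib 2 4 86 [1] [243],
  .leib 2 4 86 [1] [729],
  .leib 2 4 86 [1] [6561],
  .leib 3 4 84 [3] [9],
  .leib 3 4 84 [3] [27],
  .leib 3 4 84 [3] [81],
  .leib 3 4 84 [3] [243],
  .leib 3 4 84 [3] [729],
  .leib 3 4 84 [3] [6561],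
  .leib 3 4 84 [9] [9],
  .leib 3 4 84 [9] [27],
  .leib 3 4 84 [9] [81],
  .leib 3 4 84 [9] [243],
  .leib 3 4 84 [9] [729],
  .leib 3 4 84 [9] [6561],
  .leib 4 3 84 [9] [243],
  .leib 4 3 84 [9] [729],
  .bok false 5 87 [1] [3],
  .bok false 5 87 [1] [9],
  .bok false 5 87 [1] [27],
  .bok false 5 87 [1] [81],
  .bok false 5 87 [3] [3],
  .bok false 5 87 [3] [9],
  .bok false 5 87 [3] [27],
  .bok false 5 87 [3] [81],
  .bok false 5 87 [27] [3],
  .bok false 5 87 [27] [9],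
  .bok false 5 87 [27] [27],
  .bok false 5 87 [27] [81],
  .bok false 5 87 [81] [3],
  .bok false 5 87 [81] [9],
  .bok false 5 87 [81] [27],
  .bok false 5 87 [243] [3],
  .bok false 5 87 [243] [9],
  .bok false 5 87 [243] [27],
  .leib 3 5 84 [9] [3],
  .leib 3 5 84 [9] [9],
  .leib 3 5 84 [9] [27],
  .leib 3 5 84 [9] [81],
  .leib 3 5 84 [9] [243],
  .leib 3 5 84 [9] [729],
  .leib 3 5 84 [27] [3],
  .leib 3 5 84 [27] [9],
  .leib 3 5 84 [27] [27],
  .leib 3 5 84 [27] [81],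
  .leib 3 5 84 [27] [243],
  .leib 3 5 84 [27] [729],
  .leib 9 5 72 [81] [243],
  .leib 9 5 72 [81] [729],
  .bok false 6 87 [1] [81],
  .bok false 6 87 [3] [1],
  .bok false 6 87 [3] [3],
  .bok false 6 87 [3] [9],
  .bok false 6 87 [3] [27],
  .bok false 6 87 [3] [81],
  .bok false 6 87 [3] [243],
  .bok false 6 87 [3] [729],
  .bok false 6 87 [3] [2187],
  .leib 1 7 86 [3] [1],
  .leib 1 7 86 [3] [3],
  .leib 1 7 86 [3] [9],
  .leib 1 7 86 [3] [27],
  .leib 1 7 86 [3] [81],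
  .leib 1 7 86 [3] [243],
  .leib 1 7 86 [3] [729],
  .leib 1 7 86 [3] [2187],
  .leib 1 7 86 [9] [1],
  .leib 1 7 86 [9] [3],
  .leib 1 7 86 [9] [9],
  .leib 1 7 86 [9] [27],
  .leib 1 7 86 [9] [81],
  .leib 1 7 86 [9] [243],
  .leib 1 7 86 [9] [729],
  .leib 1 7 86 [9] [2187],
  .leib 3 6 84 [81] [243],
  .leib 3 6 84 [81] [729],
  .leib 3 6 84 [81] [2187],
  .leib 3 6 84 [243] [1],
  .leib 3 6 84 [243] [3],
  .leib 3 6 84 [243] [9],
  .leib 3 6 84 [243] [27],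
  .leib 3 6 84 [243] [81],
  .leib 3 6 84 [243] [243],
  .leib 3 6 84 [243] [729],
  .leib 3 6 84 [243] [2187],
  .leib 7 6 78 [27] [243],
  .leib 9 6 72 [81] [1],
  .leib 9 6 72 [81] [243],
  .leib 9 6 72 [81] [729],
  .leib 9 6 72 [81] [2187],
  .bok false 7 87 [1] [3],
  .bok false 7 87 [1] [9],
  .bok false 7 87 [1] [27],
  .bok false 7 87 [1] [81],
  .bok false 7 87 [1] [243],
  .bok false 7 87 [1] [729],
  .bok false 7 87 [3] [3],
  .bok false 7 87 [3] [9],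
  .bok false 7 87 [3] [27],
  .bok false 7 87 [3] [81],
  .bok false 7 87 [3] [243],
  .bok false 7 87 [3] [729],
  .bok false 7 87 [27] [3],
  .bok false 7 87 [27] [9],
  .bok false 7 87 [27] [27],
  .bok false 7 87 [27] [81]]
 Pf.done)

theorem cchk9 : (ofTab P236Q.tauF).chunk
    (cex0 ++ (cex2 ++ (cex3 ++ (cex4 ++ (cex5 ++ (cex6 ++ (cex7 ++ cex8)))))))
    cpf9 cex9 = true := by
  decide +kernel

end Vale.Agent.P236E
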