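import Vale.Agent.P236E.Snd4
import Vale.Agent.P236Et.C0
import Vale.Agent.P236Et.C1
import Vale.Agent.P236Et.C2
import Vale.Agent.P236Et.C3
import Vale.Agent.P236Et.C4
import Vale.Agent.P236Et.C5
import Vale.Agent.P236Et.C6
import Vale.Agent.P236Et.C7
import Vale.Agent.P236Et.C8
import Vale.Agent.P236Et.C9
import Vale.Agent.P236Et.C10
import Vale.Agent.P236Et.C11

/-!
# P236, block ENG: the certificate
-/

namespace Vale.Agent.P236E

set_option maxRecDepth 100000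

theorem cimp0 : (ofTab P236Q.tauF).Imp cin cex0 :=
  Orc.Imp.trans (Orc.imp_refl _ _)
    (Orc.imp_of_chunk cchk0)

theorem cimp1 : (ofTab P236Q.tauF).Imp cin cex1 :=
  Orc.Imp.trans cimp0
    (Orc.imp_of_chunk cchk1)

theorem cimp2 : (ofTab P236Q.tauF).Imp cin cex2 :=
  Orc.Imp.trans (Orc.Imp.append cimp0 cimp1)
    (Orc.imp_of_chunk cchk2)

theorem cimp3 : (ofTab P236Q.tauF).Imp cin cex3 :=
  Orc.Imp.trans (Orc.Imp.append cimp0 (Orc.Imp.append cimp1 cimp2))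
    (Orc.imp_of_chunk cchk3)

theorem cimp4 : (ofTab P236Q.tauF).Imp cin cex4 :=
  Orc.Imp.trans (Orc.Imp.append cimp0 (Orc.Imp.append cimp1 (Orc.Imp.append cimp2 cimp3)))
    (Orc.imp_of_chunk cchk4)

theorem cimp5 : (ofTab P236Q.tauF).Imp cin cex5 :=
  Orc.Imp.trans (Orc.Imp.append cimp0 (Orc.Imp.append cimp1 (Orc.Imp.append cimp2 (Orc.Imp.append cimp3 cimp4))))
    (Orc.imp_of_chunk cchk5)

theorem cimp6 : (ofTab P236Q.tauF).Imp cin cex6 :=
  Orc.Imp.trans (Orc.Imp.append cimp0 (Orc.Imp.append cimp1 (Orc.Imp.append cimp2 (Orc.Imp.append cimp3 (Orc.Imp.append cimp4 cimp5)))))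
    (Orc.imp_of_chunk cchk6)

theorem cimp7 : (ofTab P236Q.tauF).Imp cin cex7 :=
  Orc.Imp.trans (Orc.Imp.append cimp0 (Orc.Imp.append cimp1 (Orc.Imp.append cimp2 (Orc.Imp.append cimp3 (Orc.Imp.append cimp4 (Orc.Imp.append cimp5 cimp6))))))
    (Orc.imp_of_chunk cchk7)

theorem cimp8 : (ofTab P236Q.tauF).Imp cin cex8 :=
  Orc.Imp.trans (Orc.Imp.append cimp0 (Orc.Imp.append cimp1 (Orc.Imp.append cimp2 (Orc.Imp.append cimp3 (Orc.Imp.append cimp4 (Orc.Imp.append cimp5 (Orc.Imp.append cimp6 cimp7)))))))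
    (Orc.imp_of_chunk cchk8)

theorem cimp9 : (ofTab P236Q.tauF).Imp cin cex9 :=
  Orc.Imp.trans (Orc.Imp.append cimp0 (Orc.Imp.append cimp2 (Orc.Imp.append cimp3 (Orc.Imp.append cimp4 (Orc.Imp.append cimp5 (Orc.Imp.append cimp6 (Orc.Imp.append cimp7 cimp8)))))))
    (Orc.imp_of_chunk cchk9)

theorem cimp10 : (ofTab P236Q.tauF).Imp cin cex10 :=
  Orc.Imp.trans (Orc.Imp.append cimp0 (Orc.Imp.append cimp4 (Orc.Imp.append cimp5 (Orc.Imp.append cimp6 (Orc.Imp.append cimp7 (Orc.Imp.append cimp8 cimp9))))))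
    (Orc.imp_of_chunk cchk10)

theorem cimp11 : (ofTab P236Q.tauF).Imp cin cex11 :=
  Orc.Imp.trans (Orc.Imp.append (Orc.imp_refl _ _) (Orc.Imp.append cimp0 (Orc.Imp.append cimp1 (Orc.Imp.append cimp2 (Orc.Imp.append cimp3 (Orc.Imp.append cimp4 (Orc.Imp.append cimp5 (Orc.Imp.append cimp6 (Orc.Imp.append cimp7 (Orc.Imp.append cimp8 (Orc.Imp.append cimp9 cimp10)))))))))))
    (Orc.imp_of_chunk cchk11)

/-- The results. -/
noncomputable def cout : List Fact :=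
  [.goal 8,
   .goal 2,
   .goal 7,
   .perm 1 27 5,
   .eqf (dec [10622050, 1])]

theorem cimp : (ofTab P236Q.tauF).Imp cin cout :=
  Orc.Imp.trans (Orc.Imp.append cimp6 cimp11)
    (Orc.imp_of_chunk (p := .done) (by decide +kernel))

end Vale.Agent.P236E
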