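import Vale.Agent.P236Et.Sub
import Vale.Agent.P236N.Glue
import Vale.Agent.P236T.Lay0

/-!
# P236: the final statement from the kernel computations
-/

namespace Vale.Agent.P236E

open Vale.Agent.P236A Vale.Agent.P236B Vale.Agent.P236C Vale.Agent.P236T Vale.Agent.P236K
  Vale.Agent.P236H

/-- the precision modulo `9` -/
def aF (s : ℕ) : ℕ := if s = 0 then 200 else 2

/-- the precision modulo `3` -/
def NF (s : ℕ) : ℕ :=
  if s = 0 then 201 else if s = 1 then 13 else if s = 2 then 10 else if s ≤ 13 then 5 else 4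

theorem aF_anti : Antitone aF := antitone_nat_of_succ_le fun s => by
  unfold aF
  rw [if_neg s.succ_ne_zero]
  split_ifs <;> omega

theorem NF_anti : Antitone NF := antitone_nat_of_succ_le fun s => by
  unfold NF
  rw [if_neg s.succ_ne_zero]
  split_ifs <;> omega

theorem aF_lt (s : ℕ) : aF s < NF s := by
  unfold aF NF
  split_ifs <;> omega

/-- **The final statement** from the kernel computations. -/
theorem fin3_of_parts {δ : Mat (Io 23) (Av (ZMod 9))} (hH : HomD 3 (Gam 23) δ)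
    (hb : bar 3 r3 δ = xi0 23)
    (hsq : SqIn 3 (Gam 23) δ (fun s => JJ 3 (ZMod 9) (aF s) (NF s)) (2 * (94 : ℕ)))
    {P : Pr} (e : P.S = 23) (h1 : ∀ s, P.aa s ≤ aF s) (h2 : ∀ s, P.Nn s ≤ NF s)
    (hG : Gd lay0 P) (hS : ∀ s ≤ P.S, chkS lay0 P s = true)
    (hR : ∀ s ≤ P.S, ∀ T ≤ 94, ∃ R, IsR lay0 δ s (P.aa s) (P.Nn s) R ∧ chkR lay0 P R s T = true)
    (hC : chkSub P.τ = true) : FIN 3 := by
  obtain ⟨c⟩ := cert_of hH hG hS hR
  rw [e] at c
  obtain ⟨R⟩ := P236N.real_of (by omega) le_rfl hH hb aF_anti NF_anti aF_lt h1 h2 hsq c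
  exact fin3_of_sub R hC

end Vale.Agent.P236E
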