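import Vale.Agent.P236Et.All
import Vale.Agent.P236Qt.Full
import Vale.Agent.P236R.Ord

/-!
# P236, block ENG: the final statement from the tables
-/

namespace Vale.Agent.P236E

open Vale.Agent.P236K Vale.Agent.P236H Vale.Agent.P236Q

/-- The word `b ^ 3`. -/
def wA : Mx := .mul (.gen 7) (.mul (.gen 7) (.gen 7))

/-- The word `μ₃ - v₁ ^ 8 h₀`. -/
def wB : Mx := .add (.gen 3) (.neg (.mul (.gen 0) (.mul (.gen 0) (.mul (.gen 0) (.mul (.gen 0)
  (.mul (.gen 0) (.mul (.gen 0) (.mul (.gen 0) (.mul (.gen 0) (.bok (.gen 0)))))))))))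

theorem fimp : (ofTab tauF).Imp [.ne false 2 9 1 1, .ne true 5 19 1 1]
    [.goal 8, .goal 7, .perm 1 27 5,
      .eqf (fadd (LE false 5 81 ((ofTab tauF).ux 5 81 27) (ul 1)) (.cons 0 true .nil))] :=
  Orc.Imp.trans cimp (Orc.imp_of_chunk (p := .done) (by decide +kernel))

theorem chkO_tauF :
    (ofTab tauF).chkO 5 27 [(wA, 3), (wA, 1), (wB, 729), (wB, 3), (wB, 1)] = true := by
  decide +kernel

/-- **The final statement** from the tables on the direct cells. -/
theorem fin3_of_crd {τ₀ : Tab} (R : Real τ₀) (h : ∀ S : SS, Crd τ₀ S → Nonempty (Crd tauF S)) :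
    FIN 3 :=
  fin3_imp R (fun S C => (h S C).map CrdO.ofCrd) fimp List.mem_cons_self
    (List.mem_cons_of_mem _ List.mem_cons_self) chkO_tauF
    (List.mem_cons_of_mem _ (List.mem_cons_of_mem _ List.mem_cons_self))
    (List.mem_cons_of_mem _ (List.mem_cons_of_mem _ (List.mem_cons_of_mem _ List.mem_cons_self)))

theorem fin3_of_real (R : Real tauZ) : FIN 3 := fin3_of_crd R fun _ C => crd_tau C

end Vale.Agent.P236E
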