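import Vale.Agent.P236Et.Tau0
import Vale.Agent.P236X.Lev2
import Vale.Agent.P236U.All
import Vale.Agent.P236Y.Top

/-!
# P236: the final statement from the checks of the levels
-/

namespace Vale.Agent.P236E

open Vale.Agent.P236A Vale.Agent.P236C Vale.Agent.P236T Vale.Agent.P236K Vale.Agent.P236H
  Vale.Agent.P236X Vale.Agent.P236Y Vale.Agent.P236N

theorem aa0_le (s : ℕ) : aa0 s ≤ aF s := by
  simp only [aa0, aF, Bool.cond_eq_ite, Nat.blt_eq]
  split_ifs <;> omega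

theorem Nn0_le (s : ℕ) : Nn0 s ≤ NF s := by
  simp only [Nn0, NF, Bool.cond_eq_ite, Nat.blt_eq]
  split_ifs <;> omega

theorem aa0_le_Nn0 (s : ℕ) : aa0 s ≤ Nn0 s := by
  simp only [Nn0, aa0, Bool.cond_eq_ite, Nat.blt_eq]
  split_ifs <;> omega

/-- **The final statement** from the checks of the levels. -/
theorem fin3_of_lev {D : ℕ → Lw} {Z : ℕ → List Zc} (d : ∀ s ≤ 23, DatOK (D s) 94 s (Z s))
    (h : ∀ s < 23, LvOK (D s) (D (s + 1)) (MK s) 94 s (aF (s + 1)) (NF (s + 1)) (Z (s + 1)))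
    (h0 : ck00 (D 0) = true) (hc : ∀ s < 23, ∀ Y ∈ Z (s + 1),
      ckG Y (Wall (s + 1)) (s + 1) (aa0 (s + 1)) (Nn0 (s + 1)) = true) : FIN 3 := by
  obtain ⟨hH, hb, hsq⟩ := k2_of le_rfl le_rfl aF_anti NF_anti aF_lt d h
  obtain ⟨c⟩ := cert_par hH (k3_of d h aa0_le_Nn0 aa0_le Nn0_le h0 rfl hc)
  obtain ⟨R⟩ := real_of (by omega) le_rfl hH hb aF_anti NF_anti aF_lt aa0_le Nn0_le hsq c
  exact fin3_of_sub R chkSub_tau0

end Vale.Agent.P236E
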