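import Vale.Agent.P236Et.Fin

/-!
# P236, block ENG: the final statement from any table which contains the direct cells
-/

namespace Vale.Agent.P236E

open Vale.Agent.P236K Vale.Agent.P236H Vale.Agent.P236Q

theorem chkV_tauZ : allC tauZ 34 101 (chkV tauZ) = true := by
  decide +kernel

/-- The known entries of `tauZ` above the vanishing line are entries of `τ₀`. -/
noncomputable def chkSub (τ₀ : Tab) : Bool :=
  chkL (resV tauZ) τ₀ && allC (resV tauZ) 34 101 (chkR (resV tauZ) τ₀ 7 fun k => k)

/-- **The final statement** from a table which contains the direct cells. -/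
theorem fin3_of_sub {τ₀ : Tab} (R : Real τ₀) (h : chkSub τ₀ = true) : FIN 3 := by
  have hB : Bnd tauZ 7 34 101 := bnd_tabOf _ _ _ _ _ _ _
  rw [chkSub, Bool.and_eq_true] at h
  refine fin3_of_crd R fun S C => ?_
  obtain ⟨C₁⟩ := crd_R hB.resV C h.1 (allC_spec hB.resV h.2)
  obtain ⟨C₂⟩ := crd_V hB C₁ (allC_spec hB chkV_tauZ)
  exact crd_tau C₂

end Vale.Agent.P236E
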