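import Vale.Agent.P236Et.Asm
import Vale.Agent.P236U.Tau

/-!
# P236: the certified table contains the direct cells
-/

namespace Vale.Agent.P236E

theorem chkSub_tau0 : chkSub P236T.tau0 = true := by
  decide +kernel

end Vale.Agent.P236E
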