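import Vale.Agent.P236Et.Lev
import Vale.Agent.P236Yt.K0
import Vale.Agent.P236Xf.Dat0
import Vale.Agent.P236Xf.Dat1
import Vale.Agent.P236Xf.Dat2
import Vale.Agent.P236Xf.Dat3
import Vale.Agent.P236Xf.Dat4
import Vale.Agent.P236Xf.Dat5
import Vale.Agent.P236Xf.Dat6
import Vale.Agent.P236Xf.Dat7
import Vale.Agent.P236Xf.Dat8
import Vale.Agent.P236Xf.Dat9
import Vale.Agent.P236Xf.Dat10
import Vale.Agent.P236Xf.Dat11
import Vale.Agent.P236Xf.Dat12
import Vale.Agent.P236Xf.Dat13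
import Vale.Agent.P236Xf.Dat14
import Vale.Agent.P236Xf.Dat15
import Vale.Agent.P236Xf.Dat16
import Vale.Agent.P236Xf.Dat17
import Vale.Agent.P236Xf.Dat18
import Vale.Agent.P236Xf.Dat19
import Vale.Agent.P236Xf.Dat20
import Vale.Agent.P236Xf.Dat21
import Vale.Agent.P236Xf.Dat22
import Vale.Agent.P236Xf.Dat23
import Vale.Agent.P236Xu.Lv0
import Vale.Agent.P236Xu.Lv1
import Vale.Agent.P236Xu.Lv2
import Vale.Agent.P236Xu.Lv3
import Vale.Agent.P236Xu.Lv4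
import Vale.Agent.P236Xu.Lv5
import Vale.Agent.P236Xu.Lv6
import Vale.Agent.P236Xu.Lv7
import Vale.Agent.P236Xu.Lv8
import Vale.Agent.P236Xu.Lv9
import Vale.Agent.P236Xu.Lv10
import Vale.Agent.P236Xu.Lv11
import Vale.Agent.P236Xu.Lv12
import Vale.Agent.P236Xu.Lv13
import Vale.Agent.P236Xu.Lv14
import Vale.Agent.P236Xu.Lv15
import Vale.Agent.P236Xu.Lv16
import Vale.Agent.P236Xu.Lv17
import Vale.Agent.P236Xu.Lv18
import Vale.Agent.P236Xu.Lv19
import Vale.Agent.P236Xu.Lv20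
import Vale.Agent.P236Xu.Lv21
import Vale.Agent.P236Xu.Lv22
import Vale.Agent.P236Yk.K1
import Vale.Agent.P236Yk.K2
import Vale.Agent.P236Yk.K3
import Vale.Agent.P236Yk.K4
import Vale.Agent.P236Yk.K5
import Vale.Agent.P236Yk.K6
import Vale.Agent.P236Yk.K7
import Vale.Agent.P236Yk.K8
import Vale.Agent.P236Yk.K9
import Vale.Agent.P236Yk.K10
import Vale.Agent.P236Yk.K11
import Vale.Agent.P236Yk.K12
import Vale.Agent.P236Yk.K13
import Vale.Agent.P236Yk.K14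
import Vale.Agent.P236Yk.K15
import Vale.Agent.P236Yk.K16
import Vale.Agent.P236Yk.K17
import Vale.Agent.P236Yk.K18
import Vale.Agent.P236Yk.K19
import Vale.Agent.P236Yk.K20
import Vale.Agent.P236Yk.K21
import Vale.Agent.P236Yk.K22
import Vale.Agent.P236Yk.K23

/-!
# P236: the final statement
-/

namespace Vale.Agent.P236E

open Vale.Agent.P236H Vale.Agent.P236X Vale.Agent.P236Y Vale.Agent.P236N Vale.Agent.P236T

/-- the data of all levels -/
noncomputable def datL : ℕ → Lw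
  | 0 => L0
  | 1 => L1
  | 2 => L2
  | 3 => L3
  | 4 => L4
  | 5 => L5
  | 6 => L6
  | 7 => L7
  | 8 => L8
  | 9 => L9
  | 10 => L10
  | 11 => L11
  | 12 => L12
  | 13 => L13
  | 14 => L14
  | 15 => L15
  | 16 => L16
  | 17 => L17
  | 18 => L18
  | 19 => L19
  | 20 => L20
  | 21 => L21
  | 22 => L22
  | _ + 23 => L23

/-- the tables of all levels -/
noncomputable def tabL : ℕ → List Zc
  | 0 => Zs0
  | 1 => Zs1
  | 2 => Zs2
  | 3 => Zs3
  | 4 => Zs4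
  | 5 => Zs5
  | 6 => Zs6
  | 7 => Zs7
  | 8 => Zs8
  | 9 => Zs9
  | 10 => Zs10
  | 11 => Zs11
  | 12 => Zs12
  | 13 => Zs13
  | 14 => Zs14
  | 15 => Zs15
  | 16 => Zs16
  | 17 => Zs17
  | 18 => Zs18
  | 19 => Zs19
  | 20 => Zs20
  | 21 => Zs21
  | 22 => Zs22
  | _ + 23 => Zs23

theorem dat_all : ∀ s ≤ 23, DatOK (datL s) 94 s (tabL s)
  | 0, _ => dat0
  | 1, _ => dat1
  | 2, _ => dat2
  | 3, _ => dat3
  | 4, _ => dat4
  | 5, _ => dat5
  | 6, _ => dat6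
  | 7, _ => dat7
  | 8, _ => dat8
  | 9, _ => dat9
  | 10, _ => dat10
  | 11, _ => dat11
  | 12, _ => dat12
  | 13, _ => dat13
  | 14, _ => dat14
  | 15, _ => dat15
  | 16, _ => dat16
  | 17, _ => dat17
  | 18, _ => dat18
  | 19, _ => dat19
  | 20, _ => dat20
  | 21, _ => dat21
  | 22, _ => dat22
  | 23, _ => dat23
  | _ + 24, h => absurd h (by omega)

theorem lev_all : ∀ s < 23,
    LvOK (datL s) (datL (s + 1)) (MK s) 94 s (aF (s + 1)) (NF (s + 1)) (tabL (s + 1))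
  | 0, _ => lvk0
  | 1, _ => lvk1
  | 2, _ => lvk2
  | 3, _ => lvk3
  | 4, _ => lvk4
  | 5, _ => lvk5
  | 6, _ => lvk6
  | 7, _ => lvk7
  | 8, _ => lvk8
  | 9, _ => lvk9
  | 10, _ => lvk10
  | 11, _ => lvk11
  | 12, _ => lvk12
  | 13, _ => lvk13
  | 14, _ => lvk14
  | 15, _ => lvk15
  | 16, _ => lvk16
  | 17, _ => lvk17
  | 18, _ => lvk18
  | 19, _ => lvk19
  | 20, _ => lvk20
  | 21, _ => lvk21
  | 22, _ => lvk22
  | _ + 23, h => absurd h (by omega)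

theorem ck_all : ∀ s < 23, ∀ Y ∈ tabL (s + 1),
    ckG Y (Wall (s + 1)) (s + 1) (aa0 (s + 1)) (Nn0 (s + 1)) = true
  | 0, _ => ck1
  | 1, _ => ck2
  | 2, _ => ck3
  | 3, _ => ck4
  | 4, _ => ck5
  | 5, _ => ck6
  | 6, _ => ck7
  | 7, _ => ck8
  | 8, _ => ck9
  | 9, _ => ck10
  | 10, _ => ck11
  | 11, _ => ck12
  | 12, _ => ck13
  | 13, _ => ck14
  | 14, _ => ck15
  | 15, _ => ck16
  | 16, _ => ck17
  | 17, _ => ck18
  | 18, _ => ck19
  | 19, _ => ck20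
  | 20, _ => ck21
  | 21, _ => ck22
  | 22, _ => ck23
  | _ + 23, h => absurd h (by omega)

/-- **The final statement.** -/
theorem fin_three : FIN 3 := fin3_of_lev dat_all lev_all ck00_L0 ck_all

end Vale.Agent.P236E
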